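import Mathlib

/-!
# R69: sparse relations force quasi-unipotence

Determinant polynomials, Kronecker, and a pigeonhole argument modulo the content.
-/

set_option autoImplicit false
open Polynomial

namespace Crest.Agent.R69

theorem arith_sep {ι : Type*} [Fintype ι] (g : ℕ → ι → ℕ) (B : ℕ → ℕ) (L : ℕ)
    (hB : ∀ a i, B a + g a i ≤ B (a + 1))
    (hg : ∀ a i j, i ≠ j → ((L + B a : ℕ) : ℤ) ≤ |(g a i : ℤ) - g a j|) (n : ℕ) :
    (∀ f : Fin n → ι, ∑ a : Fin n, g a (f a) ≤ B n) ∧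
    ∀ f f' : Fin n → ι, f ≠ f' →
      (L : ℤ) ≤ |((∑ a : Fin n, g a (f a) : ℕ) : ℤ) - (∑ a : Fin n, g a (f' a) : ℕ)| := by
  induction n with
  | zero => exact ⟨fun f => by simp, fun f f' h => absurd (Subsingleton.elim _ _) h⟩
  | succ n ih =>
    obtain ⟨ih1, ih2⟩ := ih
    refine ⟨fun f => ?_, fun f f' h => ?_⟩
    · rw [Fin.sum_univ_castSucc]
      have h1 := ih1 (fun a => f a.castSucc)
      have h2 := hB n (f (Fin.last n))
      simp only [Fin.val_castSucc, Fin.val_last]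
      omega
    · rw [Fin.sum_univ_castSucc, Fin.sum_univ_castSucc]
      simp only [Fin.val_castSucc, Fin.val_last]
      by_cases hl : f (Fin.last n) = f' (Fin.last n)
      · have hne : (fun a : Fin n => f a.castSucc) ≠ fun a => f' a.castSucc := by
          intro he
          apply h
          funext a
          refine Fin.lastCases hl (fun a => congrFun he a) a
        have := ih2 _ _ hne
        rw [hl]
        convert this using 2
        push_cast
        ring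
      · have h1 := ih1 (fun a => f a.castSucc)
        have h2 := ih1 (fun a => f' a.castSucc)
        have h3 := hg n _ _ hl
        generalize (∑ a : Fin n, g a (f a.castSucc)) = x at *
        generalize (∑ a : Fin n, g a (f' a.castSucc)) = y at *
        rw [le_abs] at h3 ⊢
        omega

/-- Determinant polynomials.  Choose solutions `g⁽⁰⁾, g⁽¹⁾, …` (one for each row, rows ordered by
`Fintype.equivFin`) with gaps of `g⁽ᵃ⁾` at least `L + ∑_{b<a} max g⁽ᵇ⁾`.  The matrix `(X ^ g⁽ᵃ⁾ i)` kills `γ`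
(`aeval σ`), so its determinant `D = ∑_π sign π • X ^ (∑_a g⁽ᵃ⁾ (π a))` kills every `γ i`
(`Matrix.adjugate_mul`); the exponents of distinct permutations differ by at least `L` (look at the last
row where they differ). -/
theorem exists_det_poly {ι Γ : Type*} [Fintype ι] [DecidableEq ι] [AddCommGroup Γ]
    (σ : Module.End ℤ Γ) (γ : ι → Γ)
    (h : ∀ L : ℕ, ∃ g : ι → ℕ, (∀ i j, i ≠ j → (L : ℤ) ≤ |(g i : ℤ) - g j|) ∧
      ∑ i, (σ ^ g i) (γ i) = 0) (L : ℕ) :
    ∃ (E : Equiv.Perm ι → ℕ) (ε : Equiv.Perm ι → ℤˣ),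
      (∀ π π', π ≠ π' → (L : ℤ) ≤ |(E π : ℤ) - E π'|) ∧
      ∀ i, aeval σ (∑ π, C (ε π : ℤ) * X ^ E π : ℤ[X]) (γ i) = 0 := by
  choose G hG hG0 using h
  let B : ℕ → ℕ := fun n => Nat.rec 0 (fun _ b => b + ∑ i, G (L + b) i) n
  let g : ℕ → ι → ℕ := fun a => G (L + B a)
  have hB : ∀ a i, B a + g a i ≤ B (a + 1) := fun a i =>
    Nat.add_le_add_left (Finset.single_le_sum (f := fun i => G (L + B a) i)
      (fun _ _ => Nat.zero_le _) (Finset.mem_univ i)) _
  have sep := (arith_sep g B L hB (fun a => hG (L + B a)) (Fintype.card ι)).2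
  let e := Fintype.equivFin ι
  let M : Matrix ι ι ℤ[X] := Matrix.of fun a i => X ^ g (e a) i
  refine ⟨fun π => ∑ a : Fin (Fintype.card ι), g a (π (e.symm a)), fun π => Equiv.Perm.sign π,
    fun π π' hne => sep _ _ fun he => hne ?_, fun i => ?_⟩
  · ext a
    simpa using congrFun he (e a)
  have hdet : (∑ π : Equiv.Perm ι, C ((Equiv.Perm.sign π : ℤˣ) : ℤ) *
      X ^ (∑ a : Fin (Fintype.card ι), g a (π (e.symm a))) : ℤ[X]) = M.det := by
    rw [← Matrix.det_transpose, Matrix.det_apply']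
    refine Finset.sum_congr rfl fun π _ => ?_
    rw [← Finset.prod_pow_eq_pow_sum, ← e.prod_comp]
    simp [M]
  rw [hdet]
  have h1 : ∀ j, ∑ a, M.adjugate i a * M a j = if i = j then M.det else 0 := by
    intro j
    have := congrFun (congrFun (Matrix.adjugate_mul M) i) j
    rw [Matrix.mul_apply] at this
    rw [this, Matrix.smul_apply, Matrix.one_apply]
    split_ifs <;> simp
  have h2 : aeval σ M.det (γ i) = ∑ j, aeval σ (∑ a, M.adjugate i a * M a j) (γ j) := by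
    simp_rw [h1]
    rw [Finset.sum_eq_single i]
    · simp
    · intro j _ hj
      rw [if_neg (Ne.symm hj)]; simp
    · simp
  rw [h2]
  simp_rw [map_sum, LinearMap.sum_apply]
  rw [Finset.sum_comm]
  refine Finset.sum_eq_zero fun a _ => ?_
  simp_rw [map_mul, Module.End.mul_apply]
  rw [← map_sum]
  have : ∑ j, aeval σ (M a j) (γ j) = 0 := by
    simpa [M] using hG0 (L + B (e a))
  rw [this, map_zero]

theorem arith_dominant {T : Type*} [Fintype T] {z : ℂ} (hz : z ≠ 0) (E : T → ℕ) (ε : T → ℤˣ)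
    (t₀ : T) {δ : ℝ} (hδ0 : 0 ≤ δ) (hδ : Fintype.card T * δ < 1)
    (h : ∀ t, t ≠ t₀ → ‖z‖ ^ E t ≤ δ * ‖z‖ ^ E t₀) : ∑ t, ((ε t : ℤ) : ℂ) * z ^ E t ≠ 0 := by
  classical
  intro h0
  have hn : ∀ t, ‖((ε t : ℤ) : ℂ) * z ^ E t‖ = ‖z‖ ^ E t := by
    intro t
    rcases Int.units_eq_one_or (ε t) with h | h <;> simp [h]
  rw [← Finset.add_sum_erase _ _ (Finset.mem_univ t₀), add_eq_zero_iff_eq_neg] at h0
  have h1 := congrArg norm h0
  rw [norm_neg, hn] at h1
  have hp : 0 < ‖z‖ ^ E t₀ := pow_pos (norm_pos_iff.2 hz) _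
  have h2 : ‖∑ t ∈ Finset.univ.erase t₀, ((ε t : ℤ) : ℂ) * z ^ E t‖ ≤
      Fintype.card T * (δ * ‖z‖ ^ E t₀) := by
    refine (norm_sum_le _ _).trans ?_
    refine (Finset.sum_le_card_nsmul _ _ (δ * ‖z‖ ^ E t₀) fun t ht => ?_).trans ?_
    · rw [hn]; exact h t (Finset.ne_of_mem_erase ht)
    · rw [nsmul_eq_mul]
      refine mul_le_mul_of_nonneg_right ?_ (by positivity)
      exact_mod_cast Finset.card_le_univ _
  nlinarith

/-- A nonzero common complex root of sparse `±1` polynomials with a bounded number of terms and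
arbitrarily large gaps has modulus one (the largest resp. smallest power dominates). -/
theorem norm_eq_one_of_sparse {T : Type*} [Fintype T] [Nonempty T] {z : ℂ} (hz : z ≠ 0)
    (h : ∀ L : ℕ, ∃ (E : T → ℕ) (ε : T → ℤˣ), (∀ t t', t ≠ t' → (L : ℤ) ≤ |(E t : ℤ) - E t'|) ∧
      ∑ t, ((ε t : ℤ) : ℂ) * z ^ E t = 0) : ‖z‖ = 1 := by
  have hr : 0 < ‖z‖ := norm_pos_iff.2 hz
  have hc : (0 : ℝ) < Fintype.card T := by exact_mod_cast Fintype.card_pos
  by_contra hne
  rcases lt_or_gt_of_ne hne with hlt | hgt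
  · obtain ⟨L, hL⟩ := exists_pow_lt_of_lt_one (inv_pos.2 hc) hlt
    obtain ⟨E, ε, hE, h0⟩ := h L
    obtain ⟨t₀, -, ht₀⟩ := Finset.exists_min_image Finset.univ E Finset.univ_nonempty
    refine arith_dominant hz E ε t₀ (δ := ‖z‖ ^ L) (by positivity) ?_ (fun t ht => ?_) h0
    · rwa [lt_inv_comm₀ (by positivity) hc, ← one_div, lt_div_iff₀ (by positivity)] at hL
    · rw [← pow_add]
      refine pow_le_pow_of_le_one hr.le hlt.le ?_
      have h1 := hE t t₀ ht
      have h2 := ht₀ t (Finset.mem_univ t)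
      rw [le_abs] at h1
      omega
  · obtain ⟨L, hL⟩ := pow_unbounded_of_one_lt (Fintype.card T : ℝ) hgt
    obtain ⟨E, ε, hE, h0⟩ := h L
    obtain ⟨t₀, -, ht₀⟩ := Finset.exists_max_image Finset.univ E Finset.univ_nonempty
    refine arith_dominant hz E ε t₀ (δ := (‖z‖ ^ L)⁻¹) (by positivity) ?_ (fun t ht => ?_) h0
    · rwa [← div_eq_mul_inv, div_lt_one (by positivity)]
    · rw [le_inv_mul_iff₀ (by positivity), ← pow_add]
      refine pow_le_pow_right₀ hgt.le ?_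
      have h1 := hE t t₀ ht
      have h2 := ht₀ t (Finset.mem_univ t)
      rw [le_abs] at h1
      omega

/-- Kronecker: a monic integer polynomial all of whose nonzero complex roots have modulus one divides
`X ^ a * (X ^ N - 1) ^ s` (`NumberField.Embeddings.pow_eq_one_of_norm_eq_one` applied to `ℚ⟮z⟯`, or
`Polynomial.pow_eq_one_of_mahlerMeasure_eq_one`; take `N` = product of the orders, `a = s = natDegree`;
divisibility over `ℂ` descends to `ℤ` for monic `d`: `Polynomial.map_dvd_map`). -/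
theorem dvd_of_roots_norm_one {d : ℤ[X]} (hd : d.Monic)
    (h : ∀ z : ℂ, z ≠ 0 → aeval z d = 0 → ‖z‖ = 1) :
    ∃ a N s : ℕ, 0 < N ∧ d ∣ X ^ a * (X ^ N - 1) ^ s := by
  classical
  have hm : (d.map (Int.castRingHom ℂ)).Monic := hd.map _
  have hroot : ∀ z ∈ (d.map (Int.castRingHom ℂ)).roots, aeval z d = 0 := fun z hz =>
    (mem_aroots.1 hz).2
  have hM : (d.map (Int.castRingHom ℂ)).mahlerMeasure = 1 := by
    rw [mahlerMeasure_eq_leadingCoeff_mul_prod_roots, hm.leadingCoeff, norm_one, one_mul]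
    refine Multiset.prod_eq_one fun x hx => ?_
    obtain ⟨z, hz, rfl⟩ := Multiset.mem_map.1 hx
    by_cases h0 : z = 0
    · simp [h0]
    · rw [h z h0 (hroot z hz), max_self]
  have hord : ∀ z : ℂ, ∃ n : ℕ, 0 < n ∧
      (z ∈ (d.map (Int.castRingHom ℂ)).roots → z ≠ 0 → z ^ n = 1) := by
    intro z
    by_cases hz : z ∈ (d.map (Int.castRingHom ℂ)).roots ∧ z ≠ 0
    · obtain ⟨n, hn, h1⟩ := pow_eq_one_of_mahlerMeasure_eq_one hM hz.2 hz.1
      exact ⟨n, hn, fun _ _ => h1⟩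
    · exact ⟨1, one_pos, fun h1 h2 => absurd ⟨h1, h2⟩ hz⟩
  choose n hn hn1 using hord
  set R := (d.map (Int.castRingHom ℂ)).roots with hR
  refine ⟨R.card, ∏ z ∈ R.toFinset, n z, R.card, Finset.prod_pos fun z _ => hn z, ?_⟩
  set N := ∏ z ∈ R.toFinset, n z with hN
  rw [← map_dvd_map (Int.castRingHom ℂ) (Int.castRingHom ℂ).injective_int hd,
    (IsAlgClosed.splits _).eq_prod_roots_of_monic hm, ← mul_pow]
  have e : (map (Int.castRingHom ℂ) ((X * (X ^ N - 1)) ^ R.card) : ℂ[X]) =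
      (R.map fun _ => (X * (X ^ N - 1) : ℂ[X])).prod := by
    simp
  rw [e]
  refine Multiset.prod_dvd_prod_of_dvd _ _ fun z hz => ?_
  rw [dvd_iff_isRoot]
  by_cases h0 : z = 0
  · simp [h0]
  · obtain ⟨k, hk⟩ : n z ∣ N := Finset.dvd_prod_of_mem _ (Multiset.mem_toFinset.2 hz)
    simp [hk, pow_mul, hn1 z hz h0]

/-- the annihilator of an element -/
def arithAnn {Γ : Type*} [AddCommGroup Γ] (σ : Module.End ℤ Γ) (x : Γ) : Ideal ℤ[X] where
  carrier := {p | aeval σ p x = 0}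
  add_mem' := fun {p q} hp hq => by
    simp only [Set.mem_ofPred_eq, map_add, LinearMap.add_apply] at *
    rw [hp, hq, add_zero]
  zero_mem' := by simp
  smul_mem' := fun q p hp => by
    simp only [Set.mem_ofPred_eq, smul_eq_mul, map_mul, Module.End.mul_apply] at *
    rw [hp, map_zero]

theorem arith_monic {T : Type*} [Fintype T] [Nonempty T] (E : T → ℕ) (ε : T → ℤˣ)
    (hE : ∀ t t', t ≠ t' → ((1 : ℕ) : ℤ) ≤ |(E t : ℤ) - E t'|) :
    ∃ u : ℤ[X], (u * ∑ t, C (ε t : ℤ) * X ^ E t).Monic := by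
  classical
  obtain ⟨t₀, -, ht₀⟩ := Finset.exists_max_image Finset.univ E Finset.univ_nonempty
  refine ⟨C (ε t₀ : ℤ), monic_of_natDegree_le_of_coeff_eq_one (E t₀) ?_ ?_⟩
  · refine (natDegree_C_mul_le _ _).trans (natDegree_sum_le_of_forall_le _ _ fun t _ => ?_)
    exact (natDegree_C_mul_X_pow_le _ _).trans (ht₀ t (Finset.mem_univ t))
  · rw [coeff_C_mul, finsetSum_coeff, Finset.sum_eq_single t₀]
    · rw [coeff_C_mul_X_pow, if_pos rfl, ← Units.val_mul, Int.units_mul_self, Units.val_one]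
    · intro t _ ht
      rw [coeff_C_mul_X_pow, if_neg]
      intro he
      have := hE t t₀ ht
      rw [he] at this
      norm_num at this
    · simp

attribute [local instance] Polynomial.algebra in
theorem arith_gen (I : Ideal ℤ[X]) {D : ℤ[X]} (hD : D.Monic) (hDI : D ∈ I) :
    ∃ (d : ℤ[X]) (c : ℤ), d.Monic ∧ c ≠ 0 ∧ C c * d ∈ I ∧ ∀ p ∈ I, d ∣ p := by
  have := Polynomial.isLocalization (nonZeroDivisors ℤ) ℚ
  let J : Ideal ℚ[X] := I.map (algebraMap ℤ[X] ℚ[X])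
  let q := Submodule.IsPrincipal.generator J
  have hq : ∀ p ∈ I, q ∣ p.map (algebraMap ℤ ℚ) := fun p hp =>
    (Submodule.IsPrincipal.mem_iff_generator_dvd J).1 (Ideal.mem_map_of_mem _ hp)
  have hq0 : q ≠ 0 := ne_zero_of_dvd_ne_zero (hD.map (algebraMap ℤ ℚ)).ne_zero (hq D hDI)
  have hl : q.leadingCoeff ≠ 0 := leadingCoeff_ne_zero.2 hq0
  obtain ⟨d, hd⟩ := IsIntegrallyClosed.eq_map_mul_C_of_dvd ℚ hD (hq D hDI)
  have hinj : Function.Injective (algebraMap ℤ ℚ) := (algebraMap ℤ ℚ).injective_int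
  have hdm : d.Monic := by
    refine monic_of_injective hinj ?_
    have := congrArg leadingCoeff hd
    rw [leadingCoeff_mul, leadingCoeff_C] at this
    exact mul_right_cancel₀ hl (this.trans (one_mul _).symm)
  have hdJ : algebraMap ℤ[X] ℚ[X] d ∈ J := by
    have e : algebraMap ℤ[X] ℚ[X] d = q * C q.leadingCoeff⁻¹ := by
      show d.map (algebraMap ℤ ℚ) = _
      conv_rhs => rw [← hd]
      rw [hd, eq_comm]
      nth_rewrite 1 [← hd]
      rw [mul_assoc, ← C_mul, mul_inv_cancel₀ hl, C_1, mul_one]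
    rw [e]
    exact J.mul_mem_right _ (Submodule.IsPrincipal.generator_mem J)
  obtain ⟨m, ⟨c, hc, rfl⟩, hm⟩ := (IsLocalization.algebraMap_mem_map_algebraMap_iff
    ((nonZeroDivisors ℤ).map (C : ℤ →+* ℤ[X])) ℚ[X] I d).1 hdJ
  refine ⟨d, c, hdm, nonZeroDivisors.ne_zero hc, hm, fun p hp => ?_⟩
  rw [← map_dvd_map (algebraMap ℤ ℚ) hinj hdm]
  exact (Dvd.intro _ hd).trans (hq p hp)

theorem arith_periodic {Γ : Type*} [AddCommGroup Γ] (σ : Module.End ℤ Γ)
    (hσ : Function.Injective σ) {η : Γ} {D : ℤ[X]} (hD : D.Monic) (hDη : aeval σ D η = 0) {c : ℤ}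
    (hc : c ≠ 0) (hcη : c • η = 0) : ∃ M : ℕ, 0 < M ∧ (σ ^ M) η = η := by
  have : NeZero c.natAbs := ⟨Int.natAbs_ne_zero.2 hc⟩
  let F : ℕ → Fin D.natDegree → ZMod c.natAbs := fun n k => (((X ^ n %ₘ D).coeff k : ℤ) : ZMod _)
  have key : ∀ n m, F n = F m → (σ ^ n) η = (σ ^ m) η := by
    intro n m hF
    have h1 : ∀ n : ℕ, (σ ^ n) η = aeval σ (X ^ n %ₘ D) η := by
      intro n
      have e := modByMonic_add_div (X ^ n) D
      have : (σ ^ n) η = aeval σ (X ^ n %ₘ D + D * (X ^ n /ₘ D)) η := by rw [e]; simp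
      rw [this, mul_comm D, map_add, map_mul, LinearMap.add_apply, Module.End.mul_apply, hDη,
        map_zero, add_zero]
    have h2 : C c ∣ X ^ n %ₘ D - X ^ m %ₘ D := by
      rw [C_dvd_iff_dvd_coeff]
      intro k
      rw [coeff_sub]
      by_cases hk : k < D.natDegree
      · have := congrFun hF ⟨k, hk⟩
        rw [← Int.natAbs_dvd]
        exact (ZMod.intCast_eq_intCast_iff_dvd_sub _ _ _).1 this.symm
      · have h3 : ∀ p : ℤ[X], (p %ₘ D).coeff k = 0 := fun p =>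
          coeff_eq_zero_of_degree_lt ((degree_modByMonic_lt p hD).trans_le
            (degree_le_natDegree.trans (by exact_mod_cast not_lt.1 hk)))
        rw [h3, h3, sub_zero]
        exact dvd_zero _
    obtain ⟨r, hr⟩ := h2
    rw [h1, h1, ← sub_eq_zero, ← LinearMap.sub_apply, ← map_sub, hr, mul_comm, map_mul,
      Module.End.mul_apply, aeval_C]
    simp [hcη]
  have key2 : ∀ n m, n < m → F n = F m → ∃ M : ℕ, 0 < M ∧ (σ ^ M) η = η := by
    intro n m hnm hF
    obtain ⟨M, rfl⟩ := Nat.exists_eq_add_of_lt hnm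
    refine ⟨M + 1, Nat.succ_pos _, ?_⟩
    have := key _ _ hF
    rw [add_assoc, pow_add, Module.End.mul_apply] at this
    exact (Module.End.iterate_injective hσ n this).symm
  obtain ⟨n, m, hne, hF⟩ := Finite.exists_ne_map_eq_of_infinite F
  rcases lt_or_gt_of_ne hne with h | h
  · exact key2 n m h hF
  · exact key2 m n h hF.symm

/-- Let `I ⊆ ℤ[X]` be the annihilator of `γ i`; it contains the polynomials `D_L` of `exists_det_poly`,
which are monic up to sign (for `L ≥ 1`).  Take `q ∈ I` nonzero of minimal degree and `d = primPart q`; by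
pseudo-division `d` divides every element of `I` over `ℚ`, hence over `ℤ` (Gauss,
`IsPrimitive.Int.dvd_iff_map_cast_dvd_map_cast`), so `± d` is monic and its nonzero roots have modulus
one.  So `c • X ^ a (X ^ N - 1) ^ s ∈ I` with `c = content q ≠ 0`; `η = (σ ^ N - 1) ^ s γ` has `c • η = 0`
(injectivity).  The `ℤ`-span of the `σ ^ n η` is finitely generated (monic relation) and `c`-torsion, hence
finite, so `σ ^ M η = η` for some `M > 0` (injectivity), and
`(X ^ M - 1)(X ^ N - 1) ^ s ∣ (X ^ (N M) - 1) ^ (s + 1)`. -/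
theorem quasi_unipotent_inj {ι Γ : Type*} [Fintype ι] [DecidableEq ι] [AddCommGroup Γ]
    (σ : Module.End ℤ Γ) (hσ : Function.Injective σ) (γ : ι → Γ)
    (h : ∀ L : ℕ, ∃ g : ι → ℕ, (∀ i j, i ≠ j → (L : ℤ) ≤ |(g i : ℤ) - g j|) ∧
      ∑ i, (σ ^ g i) (γ i) = 0) (i : ι) :
    ∃ N s : ℕ, 0 < N ∧ ((σ ^ N - 1) ^ s) (γ i) = 0 := by
  have hdp := exists_det_poly σ γ h
  obtain ⟨E₁, ε₁, hE₁, h₁⟩ := hdp 1
  obtain ⟨u, hu⟩ := arith_monic E₁ ε₁ hE₁
  have hDI : u * ∑ t, C (ε₁ t : ℤ) * X ^ E₁ t ∈ arithAnn σ (γ i) :=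
    Ideal.mul_mem_left _ _ (h₁ i)
  generalize u * ∑ t, C (ε₁ t : ℤ) * X ^ E₁ t = D at hu hDI
  obtain ⟨d, c, hd, hc, hcd, hdvd⟩ := arith_gen _ hu hDI
  obtain ⟨a, N, s, hN, r, hr⟩ := dvd_of_roots_norm_one hd fun z hz hzd =>
    norm_eq_one_of_sparse (T := Equiv.Perm ι) hz fun L => by
      obtain ⟨E, ε, hE, h0⟩ := hdp L
      refine ⟨E, ε, hE, ?_⟩
      obtain ⟨w, hw⟩ := hdvd _ (h0 i)
      have := congrArg (aeval z) hw
      rw [map_mul, hzd, zero_mul] at this
      simpa using this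
  set η := aeval σ ((X ^ N - 1 : ℤ[X]) ^ s) (γ i) with hη
  have hcη : c • η = 0 := by
    apply Module.End.iterate_injective hσ a
    have h1 : aeval σ (C c * d * r) (γ i) = 0 := Ideal.mul_mem_right r _ hcd
    rw [mul_assoc, ← hr, mul_left_comm, map_mul, map_mul, Module.End.mul_apply,
      Module.End.mul_apply, ← hη, aeval_C] at h1
    simpa using h1
  have hDη : aeval σ D η = 0 := by
    have h1 : aeval σ (D * (X ^ N - 1) ^ s) (γ i) = 0 := Ideal.mul_mem_right _ _ hDI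
    rwa [map_mul, Module.End.mul_apply] at h1
  obtain ⟨M, hM, hMη⟩ := arith_periodic σ hσ hu hDη hc hcη
  have h2 : (X ^ M - 1) * (X ^ N - 1) ^ s ∈ arithAnn σ (γ i) := by
    show aeval σ _ (γ i) = 0
    rw [map_mul, Module.End.mul_apply, ← hη]
    simp [hMη]
  have h3 : ((X ^ M - 1) * (X ^ N - 1) ^ s : ℤ[X]) ∣ (X ^ (N * M) - 1) ^ (s + 1) := by
    rw [pow_succ']
    refine mul_dvd_mul ?_ (pow_dvd_pow_of_dvd ?_ s)
    · rw [mul_comm, pow_mul]; exact sub_one_dvd_pow_sub_one _ _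
    · rw [pow_mul]; exact sub_one_dvd_pow_sub_one _ _
  have h4 : aeval σ ((X ^ (N * M) - 1 : ℤ[X]) ^ (s + 1)) (γ i) = 0 :=
    Ideal.mem_of_dvd _ h3 h2
  exact ⟨N * M, s + 1, Nat.mul_pos hN hM, by simpa using h4⟩

/-- the same modulo an invariant subgroup (`Submodule.mapQ`) -/
theorem quasi_unipotent {ι Γ : Type*} [Fintype ι] [DecidableEq ι] [AddCommGroup Γ]
    (σ : Module.End ℤ Γ) (Z : Submodule ℤ Γ) (hσ : ∀ a, σ a ∈ Z ↔ a ∈ Z) (γ : ι → Γ)
    (h : ∀ L : ℕ, ∃ g : ι → ℕ, (∀ i j, i ≠ j → (L : ℤ) ≤ |(g i : ℤ) - g j|) ∧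
      ∑ i, (σ ^ g i) (γ i) ∈ Z) (i : ι) :
    ∃ N s : ℕ, 0 < N ∧ ((σ ^ N - 1) ^ s) (γ i) ∈ Z := by
  let τ : Module.End ℤ (Γ ⧸ Z) := Z.mapQ Z σ fun a ha => (hσ a).2 ha
  have hpow : ∀ (A : Module.End ℤ Γ) (A' : Module.End ℤ (Γ ⧸ Z)),
      (∀ x, A' (Z.mkQ x) = Z.mkQ (A x)) → ∀ (k : ℕ) x, (A' ^ k) (Z.mkQ x) = Z.mkQ ((A ^ k) x) := by
    intro A A' hA k
    induction k with
    | zero => intro x; rfl
    | succ k ih => intro x; rw [pow_succ, pow_succ, Module.End.mul_apply, hA, ih]; rfl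
  have h1 := hpow σ τ fun x => rfl
  have hinj : Function.Injective τ := by
    rw [injective_iff_map_eq_zero]
    intro y hy
    obtain ⟨x, rfl⟩ := Z.mkQ_surjective y
    have : Z.mkQ (σ x) = 0 := hy
    rw [Submodule.mkQ_apply, Submodule.Quotient.mk_eq_zero] at this ⊢
    exact (hσ x).1 this
  obtain ⟨N, s, hN, h0⟩ := quasi_unipotent_inj τ hinj (fun j => Z.mkQ (γ j)) (fun L => by
    obtain ⟨g, hg, hs⟩ := h L
    refine ⟨g, hg, ?_⟩
    simp_rw [h1]
    rw [← map_sum, Submodule.mkQ_apply, Submodule.Quotient.mk_eq_zero]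
    exact hs) i
  refine ⟨N, s, hN, ?_⟩
  rw [hpow (σ ^ N - 1) (τ ^ N - 1) (fun x => by
    rw [LinearMap.sub_apply, LinearMap.sub_apply, h1, map_sub]; rfl),
    Submodule.mkQ_apply, Submodule.Quotient.mk_eq_zero] at h0
  exact h0

end Crest.Agent.R69
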