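import Crest.Agent.R69.Basic

/-!
# R69: the array model (definitions and component lemmas)

Positions are `v = (v.1, v.2) : ℤ × (ℚ →₀ (ι → ℤ))`.  The rational number `c` is a *coordinate*
(a scale; larger = inner limit), `v.2 c : ι → ℤ` is the *component* of `v` at `c`, and `c` is
*active* in `v` if `v.2 c ≠ 0`.  The generator `gam c (dl i)` stands for "the time `g n i` with
`n → p`".  `Om ι` is the space of configurations on positions.
-/

set_option autoImplicit false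
set_option warn.classDefReducibility false
set_option linter.unusedSectionVars false
open MeasureTheory ProbabilityTheory Filter Topology
open scoped ComplexConjugate

namespace Crest.Agent.R69

/-- positions -/
abbrev P (ι : Type) : Type := ℤ × (ℚ →₀ (ι → ℤ))

/-- configurations -/
abbrev Om (ι : Type) : Type := P ι → (ι → Bool)

variable {ι : Type} [Fintype ι] [DecidableEq ι]

/-- the digit vector of `i` -/
def dl (i : ι) : ι → ℤ := Pi.single i 1

/-- the position with the single component `x` at the coordinate `c` -/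
noncomputable def gam (c : ℚ) (x : ι → ℤ) : P ι := (0, Finsupp.single c x)

/-- the integer position `n` -/
noncomputable def zp (n : ℤ) : P ι := (n, 0)

/-- translation of configurations -/
noncomputable def tr (t : P ι) (ω : Om ι) : Om ι := fun v => ω (v + t)

/-- positions all of whose active coordinates lie in `S` -/
def PS (S : Set ℚ) : Set (P ι) := {v | ∀ y, y ∉ S → v.2 y = 0}

/-- the translate `t + X` -/
def sh (t : P ι) (X : Set (P ι)) : Set (P ι) := {v | v - t ∈ X}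

/-- the σ-algebra of the positions in `X` -/
abbrev F (X : Set (P ι)) : MeasurableSpace (Om ι) :=
  cylinderEvents (X := fun _ : P ι => ι → Bool) X

/-- `f` depends on finitely many positions, all in `X` -/
def Cyl (X : Set (P ι)) {β : Type} (f : Om ι → β) : Prop :=
  ∃ s : Finset (P ι), (s : Set (P ι)) ⊆ X ∧ DependsOn f (s : Set (P ι))

/-- substitute the integers `g i` for the generators at the coordinate `c` -/
noncomputable def sub (g : ι → ℕ) (c : ℚ) (v : P ι) : P ι :=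
  (v.1 + ∑ i, v.2 c i * (g i : ℤ), v.2.erase c)

/-- rename the coordinates -/
noncomputable def ren (ρ : ℚ → ℚ) (v : P ι) : P ι := (v.1, v.2.mapDomain ρ)

/-- pivot: `t + ρ (v - t)` with `t = gam c x` and `ρ` moving `c` to `c'`.  The component at `c`
becomes `x`, and `v.2 c - x` is added to the component at `c'`. -/
noncomputable def piv (c c' : ℚ) (x : ι → ℤ) (v : P ι) : P ι :=
  (v.1, v.2 + Finsupp.single c (x - v.2 c) + Finsupp.single c' (v.2 c - x))

/-- `φ` preserves the law of the configuration on the finite set `s` -/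
def LP (m : Measure (Om ι)) (φ : P ι → P ι) (s : Finset (P ι)) : Prop :=
  ∀ f : Om ι → ℂ, DependsOn f (s : Set (P ι)) → ∫ ω, f (ω ∘ φ) ∂m = ∫ ω, f ω ∂m

/-- the Fubini property: the lowest coordinate is the outermost limit -/
def Fub (g : ℕ → ι → ℕ) (p : Ultrafilter ℕ) (m : Measure (Om ι)) : Prop :=
  ∀ (c : ℚ) (s : Finset (P ι)), (∀ v ∈ s, ∀ y, y < c → v.2 y = 0) →
    ∀ f : Om ι → ℂ, DependsOn f (s : Set (P ι)) →
      Tendsto (fun n => ∫ ω, f (ω ∘ sub (g n) c) ∂m) p (𝓝 (∫ ω, f ω ∂m))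

/-- The array model of a system that is mixing of order `card ι - 1` along `g`. -/
structure IsModel (g : ℕ → ι → ℕ) (p : Ultrafilter ℕ) (m : Measure (Om ι)) : Prop where
  fub : Fub g p m
  shift : ∀ (n : ℤ) (f : Om ι → ℂ), Cyl (PS ∅) f → ∫ ω, f (tr (zp n) ω) ∂m = ∫ ω, f ω ∂m
  mixk : ∀ (U : Finset ι), U ≠ Finset.univ → ∀ f : ι → Om ι → ℂ, (∀ i, Cyl (PS ∅) (f i)) →
    Tendsto (fun n => ∫ ω, ∏ i ∈ U, f i (tr (zp (g n i)) ω) ∂m) p (𝓝 (∏ i ∈ U, ∫ ω, f i ω ∂m))
  mix2 : ∀ f f' : Om ι → ℂ, Cyl (PS ∅) f → Cyl (PS ∅) f' →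
    Tendsto (fun h : ℕ => ∫ ω, f (tr (zp h) ω) * f' ω ∂m) atTop
      (𝓝 ((∫ ω, f ω ∂m) * ∫ ω, f' ω ∂m))
  le_atTop : (p : Filter ℕ) ≤ atTop
  gap : ∀ (n : ℕ) (i j : ι), i ≠ j → (n : ℤ) ≤ |(g n i : ℤ) - g n j|

/-- a typing of the coordinates: base digit `bs c`, slice digits `Js c`; every type is dense -/
structure Typ (bs : ℚ → ι) (Js : ℚ → Finset ι) : Prop where
  nmem : ∀ c, bs c ∉ Js c
  small : ∀ c, insert (bs c) (Js c) ≠ Finset.univ
  dense : ∀ a b : ℚ, a < b → ∀ (i : ι) (J : Finset ι), i ∉ J → insert i J ≠ Finset.univ →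
    ∃ c, a < c ∧ c < b ∧ bs c = i ∧ Js c = J

/-- the union of the atoms (families of parallel slices) at the coordinates `r ∈ R`, inside `PS S` -/
def At (bs : ℚ → ι) (Js : ℚ → Finset ι) (S R : Set ℚ) : Set (P ι) :=
  {v | v ∈ PS S ∧ ∃ r ∈ R, ∃ j ∈ Js r, v.2 r = dl j - dl (bs r)}

/-- positions in `PS S` with component at `c` in `W` -/
def Sl (S : Set ℚ) (c : ℚ) (W : Set (ι → ℤ)) : Set (P ι) := {v | v ∈ PS S ∧ v.2 c ∈ W}

/-- the digit differences `dl i - dl l`, `i ∈ U` -/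
def dig (l : ι) (U : Set ι) : Set (ι → ℤ) := {x | ∃ i ∈ U, x = dl i - dl l}

/-- the translates `gam A (dl i) + X`, `i ∈ U` -/
def up (A : ℚ) (U : Set ι) (X : Set (P ι)) : Set (P ι) := {v | ∃ i ∈ U, v - gam A (dl i) ∈ X}

/-- The set `𝒬`: the slices `γ(0,j) - γ(0,l) + 𝒫_{<0}`, `j ≠ l`, and all atoms below `0`. -/
def QB (bs : ℚ → ι) (Js : ℚ → Finset ι) (l : ι) : Set (P ι) :=
  Sl (Set.Iic 0) 0 (dig l {l}ᶜ) ∪ At bs Js (Set.Iic 0) (Set.Iio 0)

/-- the ambient coordinates of the grid (`B = 0`, `B' = 1`, `A = 2`) -/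
def S0 : Set ℚ := Set.Iic 2 \ {1}
/-- the inner coordinates of the grid -/
def I0 : Set ℚ := Set.Iic 2 \ {0, 1, 2}

/-- the frame -/
def Psi (bs : ℚ → ι) (Js : ℚ → Finset ι) : Set (P ι) := At bs Js S0 I0

/-- corners: row digits (coordinate `2`) in `U`, column digits (coordinate `0`) in `V` -/
def cor (l : ι) (U V : Set ι) : Set (P ι) :=
  {v | v ∈ PS S0 ∧ v.2 2 ∈ dig l U ∧ v.2 0 ∈ dig l V}

/-- the grid of σ-algebras for a grouping `gr` of the digits -/
def gridC (l : ι) (gr : ι → Fin 3) : Fin 3 → Fin 3 → MeasurableSpace (Om ι) :=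
  fun a b => F (cor l (gr ⁻¹' {a}) (gr ⁻¹' {b}))

/-- the small column system -/
def colA (l : ι) (gr : ι → Fin 3) : Fin 3 → MeasurableSpace (Om ι) :=
  fun a => F (Sl (Set.Ioc 1 2) 2 (dig l (gr ⁻¹' {a})))

/-- the small row system -/
def rowB (l : ι) (gr : ι → Fin 3) : Fin 3 → MeasurableSpace (Om ι) :=
  fun b => F (Sl (Set.Iio 1) 0 (dig l (gr ⁻¹' {b})))

/-- the small frames -/
def PsiC (bs : ℚ → ι) (Js : ℚ → Finset ι) : Set (P ι) := At bs Js (Set.Ioc 1 2) (Set.Ioo 1 2)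
/-- the small frames -/
def PsiR (bs : ℚ → ι) (Js : ℚ → Finset ι) : Set (P ι) := At bs Js (Set.Iio 1) (Set.Iio 1 \ {0})

/-- a grouping of the digits into three nonempty groups, the last one being `{l}` -/
structure Grp (l : ι) (gr : ι → Fin 3) : Prop where
  surj : Function.Surjective gr
  last : ∀ i, gr i = 2 ↔ i = l

/-- a disintegration of `m` over `F Ψ` -/
structure IsDis (m : Measure (Om ι)) (Ψ : Set (P ι)) (κ : Om ι → Measure (Om ι)) : Prop where
  prob : ∀ ω, IsProbabilityMeasure (κ ω)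
  ce : ∀ f : Om ι → ℂ, Integrable f m → m[f | F Ψ] =ᵐ[m] fun ω => ∫ y, f y ∂(κ ω)
  int : ∀ f : Om ι → ℂ, Integrable f m → ∀ᵐ ω ∂m, Integrable f (κ ω)

/-! ### component lemmas -/

@[simp] lemma gam_fst (c : ℚ) (x : ι → ℤ) : (gam c x).1 = 0 := rfl
@[simp] lemma gam_snd (c : ℚ) (x : ι → ℤ) : (gam c x).2 = Finsupp.single c x := rfl
@[simp] lemma zp_fst (n : ℤ) : (zp n : P ι).1 = n := rfl
@[simp] lemma zp_snd (n : ℤ) : (zp n : P ι).2 = 0 := rfl
lemma zp_add (a b : ℤ) : (zp (a + b) : P ι) = zp a + zp b := by simp [zp]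
@[simp] lemma zp_zero : (zp 0 : P ι) = 0 := rfl
lemma gam_add (c : ℚ) (x y : ι → ℤ) : gam c (x + y) = gam c x + gam c y := by
  simp [gam, Finsupp.single_add]
lemma gam_sub (c : ℚ) (x y : ι → ℤ) : gam c (x - y) = gam c x - gam c y := by
  simp [gam, Finsupp.single_sub]

lemma dl_injective : Function.Injective (dl : ι → ι → ℤ) := by
  intro i j h
  by_contra hij
  have := congrFun h i
  simp [dl, hij] at this

lemma dl_sub_eq_zero {i j : ι} : dl i - dl j = 0 ↔ i = j := by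
  rw [sub_eq_zero]; exact dl_injective.eq_iff

lemma tr_apply (t : P ι) (ω : Om ι) (v : P ι) : tr t ω v = ω (v + t) := rfl
lemma tr_eq_comp (t : P ι) (ω : Om ι) : tr t ω = ω ∘ (· + t) := rfl
lemma tr_tr (s t : P ι) (ω : Om ι) : tr s (tr t ω) = tr (s + t) ω := by
  funext v; simp [tr, add_assoc]
@[simp] lemma tr_zero (ω : Om ι) : tr 0 ω = ω := by funext v; simp [tr]
lemma tr_iterate (n : ℕ) (ω : Om ι) : (tr (zp 1))^[n] ω = tr (zp n) ω := by
  induction n with
  | zero => simp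
  | succ n ih => rw [Function.iterate_succ_apply', ih, tr_tr, ← zp_add]; congr 2; push_cast; ring

lemma mem_PS {S : Set ℚ} {v : P ι} : v ∈ PS S ↔ ∀ y, y ∉ S → v.2 y = 0 := Iff.rfl
lemma PS_mono {S S' : Set ℚ} (h : S ⊆ S') : (PS S : Set (P ι)) ⊆ PS S' :=
  fun _ hv y hy => hv y fun h' => hy (h h')
lemma PS_add {S : Set ℚ} {v w : P ι} (hv : v ∈ PS S) (hw : w ∈ PS S) : v + w ∈ PS S :=
  fun y hy => by simp [hv y hy, hw y hy]
lemma PS_sub {S : Set ℚ} {v w : P ι} (hv : v ∈ PS S) (hw : w ∈ PS S) : v - w ∈ PS S :=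
  fun y hy => by simp [hv y hy, hw y hy]
lemma zp_mem_PS (S : Set ℚ) (n : ℤ) : (zp n : P ι) ∈ PS S := fun _ _ => rfl
lemma gam_mem_PS {S : Set ℚ} {c : ℚ} (hc : c ∈ S) (x : ι → ℤ) : gam c x ∈ PS S := by
  intro y hy
  have : c ≠ y := fun h => hy (h ▸ hc)
  simp [this]
lemma mem_PS_iff_support {S : Set ℚ} {v : P ι} : v ∈ PS S ↔ (v.2.support : Set ℚ) ⊆ S := by
  constructor
  · intro h y hy
    by_contra hyS
    exact (Finsupp.mem_support_iff.1 hy) (h y hyS)
  · intro h y hy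
    by_contra h0
    exact hy (h (Finsupp.mem_support_iff.2 h0))
lemma mem_PS_empty {v : P ι} : v ∈ PS ∅ ↔ v.2 = 0 :=
  ⟨fun h => Finsupp.ext fun y => h y (by simp), fun h y _ => by simp [h]⟩
lemma PS_univ : (PS Set.univ : Set (P ι)) = Set.univ := by
  ext v; simp [PS]

lemma mem_sh {t v : P ι} {X : Set (P ι)} : v ∈ sh t X ↔ v - t ∈ X := Iff.rfl
lemma up_singleton (A : ℚ) (i : ι) (X : Set (P ι)) : up A {i} X = sh (gam A (dl i)) X := by
  ext v; simp [up, sh]
lemma up_mono {A : ℚ} {U V : Set ι} {X Y : Set (P ι)} (h : U ⊆ V) (h' : X ⊆ Y) :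
    up A U X ⊆ up A V Y := fun _ ⟨i, hi, hv⟩ => ⟨i, h hi, h' hv⟩
lemma up_union (A : ℚ) (U V : Set ι) (X : Set (P ι)) : up A (U ∪ V) X = up A U X ∪ up A V X := by
  ext v; simp only [up, Set.mem_ofPred_eq, Set.mem_union, or_and_right, exists_or]

@[simp] lemma sub_fst (g : ι → ℕ) (c : ℚ) (v : P ι) :
    (sub g c v).1 = v.1 + ∑ i, v.2 c i * (g i : ℤ) := rfl
@[simp] lemma sub_snd (g : ι → ℕ) (c : ℚ) (v : P ι) : (sub g c v).2 = v.2.erase c := rfl
lemma sub_add' (g : ι → ℕ) (c : ℚ) (v w : P ι) : sub g c (v + w) = sub g c v + sub g c w := by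
  ext1
  · simp [add_mul, Finset.sum_add_distrib]; ring
  · simp [Finsupp.erase_add]
lemma sub_eq_self (g : ι → ℕ) {c : ℚ} {v : P ι} (h : v.2 c = 0) : sub g c v = v := by
  ext1
  · simp [h]
  · simp [Finsupp.erase_of_notMem_support (Finsupp.notMem_support_iff.2 h)]
lemma sub_gam (g : ι → ℕ) (c : ℚ) (i : ι) : sub g c (gam c (dl i)) = zp (g i) := by
  ext1
  · simp [dl, Pi.single_apply]
  · simp

@[simp] lemma piv_fst (c c' : ℚ) (x : ι → ℤ) (v : P ι) : (piv c c' x v).1 = v.1 := rfl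
lemma piv_self {c c' : ℚ} (h : c' ≠ c) (x : ι → ℤ) (v : P ι) : (piv c c' x v).2 c = x := by
  simp [piv, h]
lemma piv_new {c c' : ℚ} (h : c' ≠ c) (x : ι → ℤ) (v : P ι) :
    (piv c c' x v).2 c' = v.2 c' + (v.2 c - x) := by
  simp [piv, h.symm]
lemma piv_other {c c' y : ℚ} (h : y ≠ c) (h' : y ≠ c') (x : ι → ℤ) (v : P ι) :
    (piv c c' x v).2 y = v.2 y := by
  simp [piv, h.symm, h'.symm]
lemma piv_eq_self {c c' : ℚ} {x : ι → ℤ} {v : P ι} (h : v.2 c = x) : piv c c' x v = v := by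
  simp [piv, h]
lemma piv_mem_PS {S : Set ℚ} {c c' : ℚ} (hc : c ∈ S) (hc' : c' ∈ S) (x : ι → ℤ) {v : P ι}
    (hv : v ∈ PS S) : piv c c' x v ∈ PS S := by
  intro y hy
  rw [piv_other (fun h : y = c => hy (h ▸ hc)) (fun h : y = c' => hy (h ▸ hc')), hv y hy]
lemma piv_add_gam {c c' A : ℚ} (h : A ≠ c) (x y : ι → ℤ) (v : P ι) :
    piv c c' x (v + gam A y) = piv c c' x v + gam A y := by
  ext1
  · simp
  · simp [piv, h]; abel
lemma piv_sub_gam {c c' A : ℚ} (h : A ≠ c) (x y : ι → ℤ) (v : P ι) :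
    piv c c' x v - gam A y = piv c c' x (v - gam A y) := by
  rw [sub_eq_iff_eq_add, ← piv_add_gam h, sub_add_cancel]

@[simp] lemma ren_fst (ρ : ℚ → ℚ) (v : P ι) : (ren ρ v).1 = v.1 := rfl
lemma ren_add (ρ : ℚ → ℚ) (v w : P ι) : ren ρ (v + w) = ren ρ v + ren ρ w := by
  simp [ren, Finsupp.mapDomain_add]
lemma ren_apply {ρ : ℚ → ℚ} {C : Set ℚ} (hρ : Set.InjOn ρ C) {v : P ι} (hv : v ∈ PS C) {y : ℚ}
    (hy : y ∈ C) : (ren ρ v).2 (ρ y) = v.2 y :=
  Finsupp.mapDomain_apply' C v.2 (mem_PS_iff_support.1 hv) hρ hy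
lemma ren_mem_PS {ρ : ℚ → ℚ} {C S : Set ℚ} (h : Set.MapsTo ρ C S) {v : P ι} (hv : v ∈ PS C) :
    ren ρ v ∈ PS S := by
  classical
  rw [mem_PS_iff_support] at hv ⊢
  intro y hy
  have := Finsupp.mapDomain_support (f := ρ) (s := v.2) hy
  obtain ⟨z, hz, rfl⟩ := Finset.mem_image.1 this
  exact h (hv hz)
lemma ren_eq_self {ρ : ℚ → ℚ} {v : P ι} (h : ∀ y, v.2 y ≠ 0 → ρ y = y) : ren ρ v = v := by
  ext1
  · rfl
  · show v.2.mapDomain ρ = v.2
    rw [Finsupp.mapDomain_congr (g := id) fun y hy => h y (Finsupp.mem_support_iff.1 hy),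
      Finsupp.mapDomain_id]
lemma piv_eq_ren (c c' : ℚ) (x : ι → ℤ) (v : P ι) :
    piv c c' x v = ren (Function.update id c c') (v - gam c x) + gam c x := by
  classical
  ext1
  · simp
  · have h1 : (v - gam c x).2 = (v.2.erase c) + Finsupp.single c (v.2 c - x) := by
      rw [Finsupp.single_sub, ← add_sub_assoc, Finsupp.erase_add_single]; rfl
    have h2 : (v.2.erase c).mapDomain (Function.update id c c') = v.2.erase c := by
      rw [Finsupp.mapDomain_congr (g := id), Finsupp.mapDomain_id]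
      intro y hy
      have : y ≠ c := by
        rintro rfl
        simp at hy
      simp [this]
    show v.2 + _ + _ = (v - gam c x).2.mapDomain _ + Finsupp.single c x
    rw [h1, Finsupp.mapDomain_add, h2, Finsupp.mapDomain_single, Function.update_self,
      Finsupp.single_sub c x]
    rw [eq_sub_of_add_eq (Finsupp.erase_add_single c v.2)]
    abel

/-- the finite set of active coordinates of a finite set of positions -/
noncomputable def act (s : Finset (P ι)) : Finset ℚ := s.biUnion fun v => v.2.support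

lemma mem_act {s : Finset (P ι)} {y : ℚ} : y ∈ act s ↔ ∃ v ∈ s, v.2 y ≠ 0 := by
  simp [act]
lemma mem_PS_act {s : Finset (P ι)} {v : P ι} (hv : v ∈ s) : v ∈ PS (act s : Set ℚ) := by
  intro y hy
  by_contra h
  exact hy (Finset.mem_coe.2 (mem_act.2 ⟨v, hv, h⟩))

/-- below `c` and above `a` there is an interval free of the finite set `C` -/
lemma exists_gap (C : Finset ℚ) {a c : ℚ} (h : a < c) :
    ∃ a', a ≤ a' ∧ a' < c ∧ ∀ y ∈ C, y < c → y ≤ a' := by
  classical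
  refine ⟨(insert a (C.filter (· < c))).max' (Finset.insert_nonempty _ _),
    Finset.le_max' _ _ (Finset.mem_insert_self _ _), ?_, fun y hy hyc => Finset.le_max' _ _ ?_⟩
  · rw [Finset.max'_lt_iff]
    intro y hy
    rcases Finset.mem_insert.1 hy with rfl | hy
    · exact h
    · exact (Finset.mem_filter.1 hy).2
  · exact Finset.mem_insert_of_mem (Finset.mem_filter.2 ⟨hy, hyc⟩)

lemma DependsOn.comp_pos {β : Type} {f : Om ι → β} {s : Finset (P ι)}
    (hf : DependsOn f (s : Set (P ι))) (φ : P ι → P ι) :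
    DependsOn (fun ω : Om ι => f (ω ∘ φ)) ((s.image φ : Finset (P ι)) : Set (P ι)) := by
  intro x y h
  exact hf fun v hv => h _ (Finset.mem_coe.2 (Finset.mem_image_of_mem φ (Finset.mem_coe.1 hv)))

lemma DependsOn.comp_congr {β : Type} {f : Om ι → β} {s : Set (P ι)}
    (hf : DependsOn f s) {φ ψ : P ι → P ι} (h : ∀ v ∈ s, φ v = ψ v) (ω : Om ι) :
    f (ω ∘ φ) = f (ω ∘ ψ) :=
  hf fun v hv => by simp [h v hv]

lemma DependsOn.comp_fix {β : Type} {f : Om ι → β} {s : Set (P ι)}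
    (hf : DependsOn f s) {φ : P ι → P ι} (h : ∀ v ∈ s, φ v = v) (ω : Om ι) :
    f (ω ∘ φ) = f ω :=
  hf fun v hv => by simp [h v hv]

end Crest.Agent.R69
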