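import Crest.Agent.R69.Cent

/-!
# R69: the endomorphism of the character group

Proof filled by helper96.

`Rel w w'` means: there are `ur` (`𝒢r`-measurable) and `uc` (`𝒢c`-measurable) with `ur = uc` `κ₂`-a.e.,
`w = ur` `κ₁`-a.e., `w' = uc ∘ τ` `κ₁`-a.e.
* `Rel` is closed under products and conjugation, `Rel 1 1`, and `∫ (F ∘ τ) w' dκ₁ = ∫ F uc dκ₂ =
  ∫ F ur dκ₂ = ∫ F w dκ₁` for `SB 𝒵 F` (`int_eq_of_map_on`, `int_eq_of_eq_on`).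
* Let `S` = set of `w : Ω → Circle` whose coercion is an `a`-character for `κ₁` with `∫ F w dκ₁ ≠ 0` for some
  `SB 𝒵 F`.  Every `w ∈ S` has a successor `w' ∈ S` with `Rel w w'`: `w` is a `b`-character for `κ₁`
  (`Good.cr`); strict versions `ur, e, e'` (`AEStronglyMeasurable.mk`) satisfy the same identities
  `κ₂`-a.e. (the exceptional sets are `𝒢r`-measurable), so `ur` is a `b`-character for `κ₂` correlating with
  `F`, hence an `a`-character for `κ₂` (`Good.rc`); strict versions `uc, ε, ε'` composed with `τ` give an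
  `a`-character for `κ₁` correlating with `F ∘ τ`; modify it on a null set to be `Circle`-valued.
* `Γ` = `Additive` of the subgroup of `ℕ → Ω → Circle` of sequences `w` with all `w n` `a`-characters for
  `κ₁` and `Rel (w n) (w (n+1))`; `χ w = w 0`, `σ` = shift.  Every element of `S` starts such a sequence
  (iterate the successor map on the subtype `S`); `Good.complete` (with `conj F` witnessing membership in
  `S`) gives completeness.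
-/

set_option autoImplicit false
open MeasureTheory ProbabilityTheory Filter Topology
open scoped ComplexConjugate

namespace Crest.Agent.R69

universe u
variable {Ω : Type u} {a b : Fin 3 → MeasurableSpace Ω} {𝒵 𝒢c 𝒢r : MeasurableSpace Ω}
  {m0 : MeasurableSpace Ω}

lemma au_ae {𝒢 : MeasurableSpace Ω} {m0 : MeasurableSpace Ω} {ν μ : Measure Ω} {θ : Ω → Ω}
    (H : ∀ s, MeasurableSet[𝒢] s → ν s = μ (θ ⁻¹' s)) {f g : Ω → ℂ} (hf : Measurable[𝒢] f)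
    (hg : Measurable[𝒢] g) (h : f =ᵐ[ν] g) : (fun ω => f (θ ω)) =ᵐ[μ] fun ω => g (θ ω) := by
  have hs : MeasurableSet[𝒢] {ω | f ω = g ω} := @measurableSet_eq_fun Ω ℂ 𝒢 _ _ f g hf hg
  have h1 : ν {ω | f ω = g ω}ᶜ = 0 := h
  rw [H _ hs.compl] at h1
  exact h1

lemma au_ae_uni {𝒢 : MeasurableSpace Ω} {m0 : MeasurableSpace Ω} {ν μ : Measure Ω} {θ : Ω → Ω}
    (H : ∀ s, MeasurableSet[𝒢] s → ν s = μ (θ ⁻¹' s)) {f : Ω → ℂ} (hf : Measurable[𝒢] f)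
    (h : ∀ᵐ ω ∂ν, ‖f ω‖ = 1) : ∀ᵐ ω ∂μ, ‖f (θ ω)‖ = 1 := by
  have hs : MeasurableSet[𝒢] (f ⁻¹' {z : ℂ | ‖z‖ = 1}) :=
    hf (measurableSet_eq_fun measurable_norm measurable_const)
  have h1 : ν (f ⁻¹' {z : ℂ | ‖z‖ = 1})ᶜ = 0 := h
  rw [H _ hs.compl] at h1
  exact h1

lemma au_mk {𝒢 : MeasurableSpace Ω} {m0 : MeasurableSpace Ω} {ν : Measure Ω} {f : Ω → ℂ}
    (hf : AEStronglyMeasurable[𝒢] f ν) : ∃ g, Measurable[𝒢] g ∧ f =ᵐ[ν] g := by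
  obtain ⟨g, hg, h⟩ := hf
  exact ⟨g, hg.measurable, h⟩

lemma au_aesm {𝒢 : MeasurableSpace Ω} {m0 : MeasurableSpace Ω} {ν : Measure Ω} {f : Ω → ℂ}
    (hf : Measurable[𝒢] f) : AEStronglyMeasurable[𝒢] f ν :=
  ⟨f, hf.stronglyMeasurable, ae_eq_refl _⟩

/-- transfer of characters -/
lemma au_chr {𝒳 𝒴 𝒲 𝒢 : MeasurableSpace Ω} {m0 : MeasurableSpace Ω} {ν μ : Measure Ω} {θ : Ω → Ω}
    (hX : 𝒳 ≤ 𝒢) (hY : 𝒴 ≤ 𝒢) (hW : 𝒲 ≤ 𝒢) (hθX : Measurable[𝒳, 𝒳] θ) (hθY : Measurable[𝒴, 𝒴] θ)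
    (hθW : Measurable[𝒲, 𝒲] θ) (H : ∀ s, MeasurableSet[𝒢] s → ν s = μ (θ ⁻¹' s)) {w : Ω → ℂ}
    (h : Chr ν 𝒳 𝒴 𝒲 w) :
    ∃ u, Measurable[𝒢] u ∧ w =ᵐ[ν] u ∧ Chr μ 𝒳 𝒴 𝒲 fun ω => u (θ ω) := by
  obtain ⟨hw, e, e', he, he', h1, h1', h2⟩ := h
  obtain ⟨u, hu, hwu⟩ := au_mk hw
  obtain ⟨g, hg, heg⟩ := au_mk he
  obtain ⟨g', hg', heg'⟩ := au_mk he'
  have hu' : Measurable[𝒢] u := hu.mono hW le_rfl
  have hg1 : Measurable[𝒢] g := hg.mono hX le_rfl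
  have hg1' : Measurable[𝒢] g' := hg'.mono hY le_rfl
  refine ⟨u, hu', hwu, au_aesm (hu.comp hθW), fun ω => g (θ ω), fun ω => g' (θ ω),
    au_aesm (hg.comp hθX), au_aesm (hg'.comp hθY), ?_, ?_, ?_⟩
  · refine au_ae_uni H hg1 ?_
    filter_upwards [h1, heg] with ω h1 h2
    rwa [← h2]
  · refine au_ae_uni H hg1' ?_
    filter_upwards [h1', heg'] with ω h1 h2
    rwa [← h2]
  · refine au_ae H hu' (g := fun ω => g ω * g' ω) (hg1.mul hg1') ?_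
    filter_upwards [hwu, heg, heg', h2] with ω h1 h2 h3 h4
    rw [← h1, ← h2, ← h3, h4]

lemma au_circle {m0 : MeasurableSpace Ω} {ν : Measure Ω} {w : Ω → ℂ} (h : ∀ᵐ ω ∂ν, ‖w ω‖ = 1) :
    ∃ w' : Ω → Circle, w =ᵐ[ν] fun ω => (w' ω : ℂ) := by
  have key : ∀ z : ℂ, ∃ c : Circle, ‖z‖ = 1 → z = c := by
    intro z
    by_cases hz : ‖z‖ = 1
    · exact ⟨⟨z, mem_sphere_zero_iff_norm.2 hz⟩, fun _ => rfl⟩
    · exact ⟨1, fun h => absurd h hz⟩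
  choose c hc using key
  refine ⟨fun ω => c (w ω), ?_⟩
  filter_upwards [h] with ω hω using hc _ hω

/-- the successor relation -/
def au_Rel (𝒢c 𝒢r : MeasurableSpace Ω) {m0 : MeasurableSpace Ω} (κ₁ κ₂ : Measure Ω) (τ : Ω → Ω)
    (w w' : Ω → ℂ) : Prop :=
  ∃ ur uc : Ω → ℂ, Measurable[𝒢r] ur ∧ Measurable[𝒢c] uc ∧ ur =ᵐ[κ₂] uc ∧ w =ᵐ[κ₁] ur ∧
    w' =ᵐ[κ₁] fun ω => uc (τ ω)

section Rel
variable {κ₁ κ₂ : Measure Ω} {τ : Ω → Ω} {w w' v v' : Ω → ℂ}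

lemma au_Rel.one : au_Rel 𝒢c 𝒢r κ₁ κ₂ τ (fun _ => 1) (fun _ => 1) :=
  ⟨fun _ => 1, fun _ => 1, measurable_const, measurable_const, ae_eq_refl _, ae_eq_refl _,
    ae_eq_refl _⟩

lemma au_Rel.mul (h : au_Rel 𝒢c 𝒢r κ₁ κ₂ τ w w') (h' : au_Rel 𝒢c 𝒢r κ₁ κ₂ τ v v') :
    au_Rel 𝒢c 𝒢r κ₁ κ₂ τ (fun ω => w ω * v ω) (fun ω => w' ω * v' ω) := by
  obtain ⟨ur, uc, h1, h2, h3, h4, h5⟩ := h
  obtain ⟨vr, vc, k1, k2, k3, k4, k5⟩ := h'
  exact ⟨fun ω => ur ω * vr ω, fun ω => uc ω * vc ω, h1.mul k1, h2.mul k2, h3.mul k3, h4.mul k4,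
    h5.mul k5⟩

lemma au_Rel.conj (h : au_Rel 𝒢c 𝒢r κ₁ κ₂ τ w w') :
    au_Rel 𝒢c 𝒢r κ₁ κ₂ τ (fun ω => conj (w ω)) (fun ω => conj (w' ω)) := by
  obtain ⟨ur, uc, h1, h2, h3, h4, h5⟩ := h
  have hc : Measurable (fun z : ℂ => (starRingEnd ℂ) z) := Complex.continuous_conj.measurable
  refine ⟨fun ω => (starRingEnd ℂ) (ur ω), fun ω => (starRingEnd ℂ) (uc ω), hc.comp h1, hc.comp h2,
    ?_, ?_, ?_⟩
  · filter_upwards [h3] with ω h using by rw [h]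
  · filter_upwards [h4] with ω h using by rw [h]
  · filter_upwards [h5] with ω h using by rw [h]

lemma au_Rel.int [IsProbabilityMeasure κ₁] [IsProbabilityMeasure κ₂]
    (h : au_Rel 𝒢c 𝒢r κ₁ κ₂ τ w w') (hc : 𝒢c ≤ m0) (hr : 𝒢r ≤ m0)
    (hZc : 𝒵 ≤ 𝒢c) (hZr : 𝒵 ≤ 𝒢r) (hτc : Measurable[𝒢c, 𝒢c] τ)
    (Hr : ∀ s, MeasurableSet[𝒢r] s → κ₂ s = κ₁ s)
    (Hc : ∀ s, MeasurableSet[𝒢c] s → κ₂ s = κ₁ (τ ⁻¹' s)) {F : Ω → ℂ} (hF : SB 𝒵 F) :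
    ∫ ω, F (τ ω) * w' ω ∂κ₁ = ∫ ω, F ω * w ω ∂κ₁ := by
  obtain ⟨ur, uc, h1, h2, h3, h4, h5⟩ := h
  have e1 : ∫ ω, F ω * uc ω ∂κ₂ = ∫ ω, F (τ ω) * uc (τ ω) ∂κ₁ :=
    int_eq_of_map_on (f := fun ω => F ω * uc ω) hc hτc Hc ((hF.mono hZc).1.mul h2)
  have e2 : ∫ ω, F ω * ur ω ∂κ₂ = ∫ ω, F ω * ur ω ∂κ₁ :=
    int_eq_of_eq_on (f := fun ω => F ω * ur ω) hr Hr ((hF.mono hZr).1.mul h1)
  calc _ = ∫ ω, F (τ ω) * uc (τ ω) ∂κ₁ := by
        refine integral_congr_ae ?_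
        filter_upwards [h5] with ω h using by rw [h]
    _ = ∫ ω, F ω * ur ω ∂κ₂ := by
        rw [← e1]
        refine integral_congr_ae ?_
        filter_upwards [h3] with ω h using by rw [h]
    _ = _ := by
        rw [e2]
        refine integral_congr_ae ?_
        filter_upwards [h4] with ω h using by rw [h]

end Rel

theorem exists_charSys (κ₁ κ₂ : Measure Ω) [IsProbabilityMeasure κ₁] [IsProbabilityMeasure κ₂]
    {τ : Ω → Ω} (hc : 𝒢c ≤ m0) (hr : 𝒢r ≤ m0) (ha : ∀ j, a j ≤ 𝒢c) (hb : ∀ j, b j ≤ 𝒢r)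
    (hZc : 𝒵 ≤ 𝒢c) (hZr : 𝒵 ≤ 𝒢r) (hτa : ∀ j, Measurable[a j, a j] τ)
    (hτc : Measurable[𝒢c, 𝒢c] τ) (hτZ : Measurable[𝒵, 𝒵] τ)
    (Hr : ∀ s, MeasurableSet[𝒢r] s → κ₂ s = κ₁ s)
    (Hc : ∀ s, MeasurableSet[𝒢c] s → κ₂ s = κ₁ (τ ⁻¹' s))
    (h₁ : Good κ₁ 𝒵 a b) (h₂ : Good κ₂ 𝒵 a b) :
    ∃ (Γ : Type u) (_ : AddCommGroup Γ) (χ : Γ → Ω → ℂ) (σ : Module.End ℤ Γ),
      IsCharSys κ₁ 𝒵 τ χ σ := by
  let S : (Ω → Circle) → Prop := fun w => Chr κ₁ (a 0) (a 1) (a 2) (fun ω => (w ω : ℂ)) ∧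
    ∃ F, SB 𝒵 F ∧ ∫ ω, F ω * w ω ∂κ₁ ≠ 0
  have hsucc : ∀ w : {w // S w}, ∃ w' : {w // S w},
      au_Rel 𝒢c 𝒢r κ₁ κ₂ τ (fun ω => (w.1 ω : ℂ)) (fun ω => (w'.1 ω : ℂ)) := by
    rintro ⟨w, hw, F, hF, hF0⟩
    have hb1 := h₁.cr _ F hw hF hF0
    obtain ⟨ur, hur, e1, hb2⟩ := au_chr (ν := κ₁) (μ := κ₂) (θ := id) (hb 0) (hb 1) (hb 2)
      (@measurable_id Ω (b 0)) (@measurable_id Ω (b 1)) (@measurable_id Ω (b 2))
      (fun s hs => (Hr s hs).symm) hb1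
    have hF2 : ∫ ω, F ω * ur ω ∂κ₂ ≠ 0 := by
      rw [int_eq_of_eq_on (μ := κ₁) (f := fun ω => F ω * ur ω) hr Hr ((hF.mono hZr).1.mul hur)]
      have : ∫ ω, F ω * ur ω ∂κ₁ = ∫ ω, F ω * w ω ∂κ₁ := by
        refine integral_congr_ae ?_
        filter_upwards [e1] with ω h using by rw [h]
      rwa [this]
    have ha2 := h₂.rc _ F hb2 hF hF2
    obtain ⟨uc, huc, e2, ha1⟩ := au_chr (ν := κ₂) (μ := κ₁) (θ := τ) (ha 0) (ha 1) (ha 2)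
      (hτa 0) (hτa 1) (hτa 2) Hc ha2
    obtain ⟨w', e3⟩ := au_circle ha1.uni
    have hrel : au_Rel 𝒢c 𝒢r κ₁ κ₂ τ (fun ω => (w ω : ℂ)) (fun ω => (w' ω : ℂ)) :=
      ⟨ur, uc, hur, huc, e2, e1, e3.symm⟩
    refine ⟨⟨w', ha1.congr e3, fun ω => F (τ ω), hF.comp' hτZ, ?_⟩, hrel⟩
    rwa [hrel.int hc hr hZc hZr hτc Hr Hc hF]
  choose succ hsucc using hsucc
  let G : Subgroup (ℕ → Ω → Circle) :=
    { carrier := {w | ∀ n, Chr κ₁ (a 0) (a 1) (a 2) (fun ω => (w n ω : ℂ)) ∧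
        au_Rel 𝒢c 𝒢r κ₁ κ₂ τ (fun ω => (w n ω : ℂ)) (fun ω => (w (n + 1) ω : ℂ))}
      one_mem' := fun n => ⟨Chr.const (c := 1) norm_one, au_Rel.one⟩
      mul_mem' := fun {v w} hv hw n => ⟨(hv n).1.mul (hw n).1, (hv n).2.mul (hw n).2⟩
      inv_mem' := fun {w} hw n => by
        simp only [Pi.inv_apply, Circle.coe_inv_eq_conj]
        exact ⟨(hw n).1.conj, (hw n).2.conj⟩ }
  let sh : G →* G :=
    { toFun := fun w => ⟨fun n => w.1 (n + 1), fun n => w.2 (n + 1)⟩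
      map_one' := rfl
      map_mul' := fun _ _ => rfl }
  refine ⟨Additive G, inferInstance, fun x ω => ((Additive.toMul x).1 0 ω : ℂ),
    (MonoidHom.toAdditive sh).toIntLinearMap, ?_, ?_, ?_, ?_, ?_, ?_⟩
  · intro x
    exact (((Additive.toMul x).2 0).1.b.mono ((ha 2).trans hc)).aesm
  · intro x
    exact Eventually.of_forall fun ω => Circle.norm_coe _
  · intro x y
    exact Eventually.of_forall fun ω => rfl
  · intro x hx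
    exact h₁.dich _ ((Additive.toMul x).2 0).1 hx
  · intro F hF x
    exact ((Additive.toMul x).2 0).2.int hc hr hZc hZr hτc Hr Hc hF
  · intro F hF ε hε
    obtain ⟨n, w, c, hw, hle⟩ := h₁.complete F hF ε hε
    have hx : ∀ j, ∃ x : Additive G, w j =ᵐ[κ₁] fun ω => ((Additive.toMul x).1 0 ω : ℂ) := by
      intro j
      obtain ⟨w', e⟩ := au_circle (hw j).1.uni
      have hS : S w' := by
        refine ⟨(hw j).1.congr e, fun ω => conj (F ω), hF.conj, fun h0 => (hw j).2 ?_⟩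
        have h1 : ∫ ω, F ω * conj (w j ω) ∂κ₁ = conj (∫ ω, conj (F ω) * w' ω ∂κ₁) := by
          rw [← integral_conj]
          refine integral_congr_ae ?_
          filter_upwards [e] with ω h
          rw [h, map_mul, Complex.conj_conj]
        rw [h1, h0, map_zero]
      refine ⟨Additive.ofMul ⟨fun n => (succ^[n] ⟨w', hS⟩).1, fun n => ⟨(succ^[n] ⟨w', hS⟩).2.1, ?_⟩⟩,
        e⟩
      simp only [Function.iterate_succ_apply']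
      exact hsucc _
    choose x hx using hx
    refine ⟨n, x, c, fun j h0 => (hw j).2 ?_, le_of_eq_of_le ?_ hle⟩
    · rw [← h0]
      refine integral_congr_ae ?_
      filter_upwards [hx j] with ω h using by rw [h]
    · refine integral_congr_ae ?_
      filter_upwards [Filter.eventually_all.2 hx] with ω h
      simp only [h]

end Crest.Agent.R69
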