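import Crest.Agent.R69.Basic

/-!
# R69: basic API for bounded functions and complex conditional expectations

Useful Mathlib: `condExp_bilin_of_aestronglyMeasurable_left (ContinuousLinearMap.mul ℝ ℂ)`,
`ContinuousLinearMap.comp_condExp_comm` (with `Complex.conjCLE`), `ae_bdd_norm_condExp_of_ae_bdd_norm`,
`condExp_of_aestronglyMeasurable'`, `condExp_indep_eq`, `integral_condExp`,
`condExp_condExp_of_le`, `Integrable.bdd_mul`, `MemLp.of_bound`.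
-/

set_option autoImplicit false
open MeasureTheory ProbabilityTheory Filter Topology
open scoped ComplexConjugate

namespace Crest.Agent.R69

universe u
variable {Ω : Type u} {𝒜 ℬ 𝒢 𝒢' : MeasurableSpace Ω} {m0 : MeasurableSpace Ω} {μ : Measure Ω}
  {f g : Ω → ℂ}

/-! ### `SB` -/

lemma SB.mono (hf : SB 𝒢 f) (h : 𝒢 ≤ 𝒢') : SB 𝒢' f := ⟨hf.1.mono h le_rfl, hf.2⟩
lemma SB.const (c : ℂ) : SB 𝒢 (fun _ : Ω => c) := ⟨measurable_const, ‖c‖, fun _ => le_rfl⟩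
lemma SB.add (hf : SB 𝒢 f) (hg : SB 𝒢 g) : SB 𝒢 (fun ω => f ω + g ω) := by
  obtain ⟨h1, C, hC⟩ := hf
  obtain ⟨h2, D, hD⟩ := hg
  exact ⟨h1.add h2, C + D, fun ω => (norm_add_le _ _).trans (add_le_add (hC ω) (hD ω))⟩
lemma SB.sub (hf : SB 𝒢 f) (hg : SB 𝒢 g) : SB 𝒢 (fun ω => f ω - g ω) := by
  obtain ⟨h1, C, hC⟩ := hf
  obtain ⟨h2, D, hD⟩ := hg
  exact ⟨h1.sub h2, C + D, fun ω => (norm_sub_le _ _).trans (add_le_add (hC ω) (hD ω))⟩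
lemma SB.mul (hf : SB 𝒢 f) (hg : SB 𝒢 g) : SB 𝒢 (fun ω => f ω * g ω) := by
  obtain ⟨h1, C, hC⟩ := hf
  obtain ⟨h2, D, hD⟩ := hg
  refine ⟨h1.mul h2, C * D, fun ω => ?_⟩
  rw [norm_mul]
  exact mul_le_mul (hC ω) (hD ω) (norm_nonneg _) ((norm_nonneg _).trans (hC ω))
lemma SB.conj (hf : SB 𝒢 f) : SB 𝒢 (fun ω => conj (f ω)) := by
  obtain ⟨h1, C, hC⟩ := hf
  exact ⟨Complex.continuous_conj.measurable.comp h1, C, fun ω => by simpa using hC ω⟩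
lemma SB.comp {Ω' : Type*} {𝒢₁ : MeasurableSpace Ω'} {θ : Ω' → Ω} (hf : SB 𝒢 f)
    (hθ : Measurable[𝒢₁, 𝒢] θ) : Measurable[𝒢₁] (fun ω => f (θ ω)) ∧ ∃ C : ℝ, ∀ ω, ‖f (θ ω)‖ ≤ C := by
  obtain ⟨h1, C, hC⟩ := hf
  exact ⟨h1.comp hθ, C, fun ω => hC _⟩
lemma SB.comp' {θ : Ω → Ω} (hf : SB 𝒢 f) (hθ : Measurable[𝒢', 𝒢] θ) : SB 𝒢' (fun ω => f (θ ω)) :=
  hf.comp hθ
lemma SB.prod {κ : Type*} (s : Finset κ) {a : κ → Ω → ℂ} (h : ∀ i ∈ s, SB 𝒢 (a i)) :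
    SB 𝒢 (fun ω => ∏ i ∈ s, a i ω) := by
  classical
  induction s using Finset.induction_on with
  | empty => simpa using SB.const (𝒢 := 𝒢) 1
  | insert i s hi ih =>
    simp only [Finset.prod_insert hi]
    exact (h i (Finset.mem_insert_self _ _)).mul (ih fun j hj => h j (Finset.mem_insert_of_mem hj))
lemma SB.b (hf : SB 𝒢 f) : B μ 𝒢 f := by
  obtain ⟨h1, C, hC⟩ := hf
  exact ⟨h1.stronglyMeasurable.aestronglyMeasurable, C, Eventually.of_forall hC⟩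

/-! ### `B` -/

lemma B.aesm (hf : B μ 𝒢 f) : AEStronglyMeasurable[𝒢] f μ := hf.1
lemma B.mono (hf : B μ 𝒢 f) (h : 𝒢 ≤ 𝒢') : B μ 𝒢' f := ⟨hf.1.mono h, hf.2⟩
/-- change the σ-algebra -/
lemma B.of_aesm (hf : B μ 𝒢 f) (h : AEStronglyMeasurable[𝒢'] f μ) : B μ 𝒢' f := ⟨h, hf.2⟩
lemma B.congr (hf : B μ 𝒢 f) (h : f =ᵐ[μ] g) : B μ 𝒢 g := by
  obtain ⟨h1, C, hC⟩ := hf
  refine ⟨h1.congr h, C, ?_⟩
  filter_upwards [hC, h] with ω h1 h2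
  rwa [← h2]
lemma B.const (c : ℂ) : B μ 𝒢 (fun _ : Ω => c) := (SB.const c).b
lemma B.add (hf : B μ 𝒢 f) (hg : B μ 𝒢 g) : B μ 𝒢 (fun ω => f ω + g ω) := by
  obtain ⟨h1, C, hC⟩ := hf
  obtain ⟨h2, D, hD⟩ := hg
  refine ⟨h1.add h2, C + D, ?_⟩
  filter_upwards [hC, hD] with ω h3 h4
  exact (norm_add_le _ _).trans (add_le_add h3 h4)
lemma B.sub (hf : B μ 𝒢 f) (hg : B μ 𝒢 g) : B μ 𝒢 (fun ω => f ω - g ω) := by
  obtain ⟨h1, C, hC⟩ := hf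
  obtain ⟨h2, D, hD⟩ := hg
  refine ⟨h1.sub h2, C + D, ?_⟩
  filter_upwards [hC, hD] with ω h3 h4
  exact (norm_sub_le _ _).trans (add_le_add h3 h4)
lemma B.mul (hf : B μ 𝒢 f) (hg : B μ 𝒢 g) : B μ 𝒢 (fun ω => f ω * g ω) := by
  obtain ⟨h1, C, hC⟩ := hf
  obtain ⟨h2, D, hD⟩ := hg
  refine ⟨h1.mul h2, C * D, ?_⟩
  filter_upwards [hC, hD] with ω h3 h4
  rw [norm_mul]
  exact mul_le_mul h3 h4 (norm_nonneg _) ((norm_nonneg _).trans h3)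
lemma B.conj (hf : B μ 𝒢 f) : B μ 𝒢 (fun ω => conj (f ω)) := by
  obtain ⟨h1, C, hC⟩ := hf
  refine ⟨Complex.continuous_conj.comp_aestronglyMeasurable h1, C, ?_⟩
  filter_upwards [hC] with ω h3
  simpa using h3
lemma B.prod {κ : Type*} (s : Finset κ) {a : κ → Ω → ℂ} (h : ∀ i ∈ s, B μ 𝒢 (a i)) :
    B μ 𝒢 (fun ω => ∏ i ∈ s, a i ω) := by
  classical
  induction s using Finset.induction_on with
  | empty => simpa using B.const (μ := μ) (𝒢 := 𝒢) 1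
  | insert i s hi ih =>
    simp only [Finset.prod_insert hi]
    exact (h i (Finset.mem_insert_self _ _)).mul (ih fun j hj => h j (Finset.mem_insert_of_mem hj))
lemma B.sum {κ : Type*} (s : Finset κ) {a : κ → Ω → ℂ} (h : ∀ i ∈ s, B μ 𝒢 (a i)) :
    B μ 𝒢 (fun ω => ∑ i ∈ s, a i ω) := by
  classical
  induction s using Finset.induction_on with
  | empty => simpa using B.const (μ := μ) (𝒢 := 𝒢) 0
  | insert i s hi ih =>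
    simp only [Finset.sum_insert hi]
    exact (h i (Finset.mem_insert_self _ _)).add (ih fun j hj => h j (Finset.mem_insert_of_mem hj))
lemma B.indicator {s : Set Ω} (hs : MeasurableSet[𝒢] s) :
    B μ 𝒢 (s.indicator fun _ => (1 : ℂ)) := by
  refine SB.b ⟨measurable_const.indicator hs, 1, fun ω => ?_⟩
  by_cases h : ω ∈ s <;> simp [h]
lemma B.of_uni (hf : AEStronglyMeasurable[𝒢] f μ) (h : ∀ᵐ ω ∂μ, ‖f ω‖ = 1) : B μ 𝒢 f := ⟨hf, 1, h.mono fun _ h => h.le⟩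
/-- a strict version (truncate `hf.1.mk f` where its norm exceeds the bound) -/
lemma B.exists_sb (hf : B μ 𝒢 f) : ∃ g, SB 𝒢 g ∧ f =ᵐ[μ] g := by
  classical
  obtain ⟨h1, C, hC⟩ := hf
  have hm : Measurable[𝒢] (h1.mk f) := h1.stronglyMeasurable_mk.measurable
  refine ⟨fun ω => if ‖h1.mk f ω‖ ≤ C then h1.mk f ω else 0, ⟨?_, max C 0, fun ω => ?_⟩, ?_⟩
  · have hs : MeasurableSet[𝒢] {ω | ‖h1.mk f ω‖ ≤ C} :=
      hm (measurableSet_le measurable_norm measurable_const : MeasurableSet {z : ℂ | ‖z‖ ≤ C})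
    exact Measurable.ite hs hm measurable_const
  · dsimp only
    split_ifs with h
    · exact h.trans (le_max_left _ _)
    · simp
  · filter_upwards [hC, h1.ae_eq_mk] with ω h2 h3
    rw [← h3, if_pos h2]
lemma B.memLp [IsFiniteMeasure μ] (hf : B μ 𝒢 f) (h : 𝒢 ≤ m0) (p : ENNReal) : MemLp f p μ := by
  obtain ⟨h1, C, hC⟩ := hf
  exact MemLp.of_bound (h1.mono h) C hC
lemma B.integrable [IsFiniteMeasure μ] (hf : B μ 𝒢 f) (h : 𝒢 ≤ m0) : Integrable f μ := memLp_one_iff_integrable.mp (hf.memLp h 1)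
lemma B.mul_integrable (hf : B μ 𝒢 f) (h : 𝒢 ≤ m0) (hg : Integrable g μ) :
    Integrable (fun ω => f ω * g ω) μ := by
  obtain ⟨h1, C, hC⟩ := hf
  exact hg.bdd_mul (h1.mono h) hC
lemma B.integrable_mul (hf : B μ 𝒢 f) (h : 𝒢 ≤ m0) (hg : Integrable g μ) :
    Integrable (fun ω => g ω * f ω) μ := by
  obtain ⟨h1, C, hC⟩ := hf
  exact hg.mul_bdd (h1.mono h) hC
lemma B.mul_memLp (hf : B μ 𝒢 f) (h : 𝒢 ≤ m0) {p : ENNReal} (hg : MemLp g p μ) :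
    MemLp (fun ω => f ω * g ω) p μ := by
  obtain ⟨h1, C, hC⟩ := hf
  refine hg.of_le_mul (c := C) ((h1.mono h).mul hg.1) ?_
  filter_upwards [hC] with ω h2
  rw [norm_mul]
  exact mul_le_mul_of_nonneg_right h2 (norm_nonneg _)
lemma B.condExp (hf : B μ 𝒜 f) (𝒢 : MeasurableSpace Ω) : B μ 𝒢 (μ[f | 𝒢]) := by
  obtain ⟨-, C, hC⟩ := hf
  exact ⟨stronglyMeasurable_condExp.aestronglyMeasurable, C, ae_bdd_norm_condExp_of_ae_bdd_norm hC⟩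
lemma aesm_comp_mp {Ω' : Type*} {𝒢₁ : MeasurableSpace Ω'} {m1 : MeasurableSpace Ω'}
    {μ₁ : Measure Ω'} {θ : Ω' → Ω} (hθ : MeasurePreserving θ μ₁ μ) (hθ' : Measurable[𝒢₁, 𝒢] θ)
    (hf : AEStronglyMeasurable[𝒢] f μ) : AEStronglyMeasurable[𝒢₁] (fun ω => f (θ ω)) μ₁ := by
  obtain ⟨g, hg, hfg⟩ := hf
  exact ⟨fun ω => g (θ ω), hg.comp_measurable hθ', hθ.quasiMeasurePreserving.ae_eq_comp hfg⟩
lemma B.comp_mp {θ : Ω → Ω} (hθ : MeasurePreserving θ μ μ) (hθ' : Measurable[𝒢', 𝒢] θ)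
    (hf : B μ 𝒢 f) : B μ 𝒢' (fun ω => f (θ ω)) := by
  obtain ⟨h1, C, hC⟩ := hf
  exact ⟨aesm_comp_mp hθ hθ' h1, C, hθ.quasiMeasurePreserving.ae hC⟩

/-! ### conditional expectations -/

variable [IsProbabilityMeasure μ]

lemma ce_mul_left (hf : B μ 𝒢 f) (h : 𝒢 ≤ m0) (hg : Integrable g μ) :
    μ[fun ω => f ω * g ω | 𝒢] =ᵐ[μ] fun ω => f ω * (μ[g | 𝒢]) ω :=
  condExp_bilin_of_aestronglyMeasurable_left (ContinuousLinearMap.mul ℝ ℂ) hf.1 (hf.mul_integrable h hg) hg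
lemma ce_mul_right (hf : B μ 𝒢 f) (h : 𝒢 ≤ m0) (hg : Integrable g μ) :
    μ[fun ω => g ω * f ω | 𝒢] =ᵐ[μ] fun ω => (μ[g | 𝒢]) ω * f ω :=
  condExp_bilin_of_aestronglyMeasurable_right (ContinuousLinearMap.mul ℝ ℂ) hf.1 (hf.integrable_mul h hg) hg
lemma ce_conj (hf : Integrable f μ) (𝒢 : MeasurableSpace Ω) :
    μ[fun ω => conj (f ω) | 𝒢] =ᵐ[μ] fun ω => conj ((μ[f | 𝒢]) ω) :=
  (ContinuousLinearMap.comp_condExp_comm (m := 𝒢) hf (Complex.conjCLE : ℂ →L[ℝ] ℂ)).symm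
lemma ce_const_mul (c : ℂ) (f : Ω → ℂ) (𝒢 : MeasurableSpace Ω) :
    μ[fun ω => c * f ω | 𝒢] =ᵐ[μ] fun ω => c * (μ[f | 𝒢]) ω := condExp_smul c f 𝒢
lemma ce_sub (hf : Integrable f μ) (hg : Integrable g μ) (𝒢 : MeasurableSpace Ω) :
    μ[fun ω => f ω - g ω | 𝒢] =ᵐ[μ] fun ω => (μ[f | 𝒢]) ω - (μ[g | 𝒢]) ω := condExp_sub hf hg 𝒢
lemma ce_add (hf : Integrable f μ) (hg : Integrable g μ) (𝒢 : MeasurableSpace Ω) :
    μ[fun ω => f ω + g ω | 𝒢] =ᵐ[μ] fun ω => (μ[f | 𝒢]) ω + (μ[g | 𝒢]) ω := condExp_add hf hg 𝒢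
lemma ce_of_aesm (h : 𝒢 ≤ m0) (hf : AEStronglyMeasurable[𝒢] f μ) (hi : Integrable f μ) :
    μ[f | 𝒢] =ᵐ[μ] f := condExp_of_aestronglyMeasurable' h hf hi
lemma ce_aesm (f : Ω → ℂ) (𝒢 : MeasurableSpace Ω) : AEStronglyMeasurable[𝒢] (μ[f | 𝒢]) μ :=
  stronglyMeasurable_condExp.aestronglyMeasurable
lemma ce_tower (h : 𝒜 ≤ ℬ) (hℬ : ℬ ≤ m0) (f : Ω → ℂ) : μ[μ[f | ℬ] | 𝒜] =ᵐ[μ] μ[f | 𝒜] :=
  condExp_condExp_of_le h hℬ
/-- if the conditional expectation on `ℬ` is `𝒜`-measurable, it is the one on `𝒜` -/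
lemma ce_eq_of_aesm (h : 𝒜 ≤ ℬ) (hℬ : ℬ ≤ m0) (hf : AEStronglyMeasurable[𝒜] (μ[f | ℬ]) μ) :
    μ[f | ℬ] =ᵐ[μ] μ[f | 𝒜] :=
  (ce_of_aesm (h.trans hℬ) hf integrable_condExp).symm.trans (ce_tower h hℬ f)
lemma int_mul_ce (hf : B μ 𝒢 f) (h : 𝒢 ≤ m0) (hg : Integrable g μ) :
    ∫ ω, f ω * (μ[g | 𝒢]) ω ∂μ = ∫ ω, f ω * g ω ∂μ := by
  rw [← integral_congr_ae (ce_mul_left hf h hg), integral_condExp h]
lemma int_ce_mul (hf : B μ 𝒢 f) (h : 𝒢 ≤ m0) (hg : Integrable g μ) :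
    ∫ ω, (μ[g | 𝒢]) ω * f ω ∂μ = ∫ ω, g ω * f ω ∂μ := by
  rw [← integral_congr_ae (ce_mul_right hf h hg), integral_condExp h]
/-- self-adjointness, one factor bounded -/
lemma int_ce_comm (hf : B μ m0 f) (h : 𝒢 ≤ m0) (hg : Integrable g μ) :
    ∫ ω, (μ[f | 𝒢]) ω * g ω ∂μ = ∫ ω, f ω * (μ[g | 𝒢]) ω ∂μ := by
  rw [← int_mul_ce (hf.condExp 𝒢) h hg]
  have hi : Integrable (fun ω => f ω * (μ[g | 𝒢]) ω) μ := hf.mul_integrable le_rfl integrable_condExp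
  have h1 : μ[fun ω => f ω * (μ[g | 𝒢]) ω | 𝒢] =ᵐ[μ] fun ω => (μ[f | 𝒢]) ω * (μ[g | 𝒢]) ω :=
    condExp_bilin_of_aestronglyMeasurable_right (ContinuousLinearMap.mul ℝ ℂ) (ce_aesm g 𝒢) hi
      (hf.integrable le_rfl)
  rw [← integral_congr_ae h1, integral_condExp h]
/-- the `L²` version of `int_mul_ce` -/
lemma int_mul_ce_L2 (h : 𝒢 ≤ m0) (hf : MemLp f 2 μ) (hf' : AEStronglyMeasurable[𝒢] f μ)
    (hg : MemLp g 2 μ) : ∫ ω, f ω * (μ[g | 𝒢]) ω ∂μ = ∫ ω, f ω * g ω ∂μ := by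
  have h1 : μ[fun ω => f ω * g ω | 𝒢] =ᵐ[μ] fun ω => f ω * (μ[g | 𝒢]) ω :=
    condExp_bilin_of_aestronglyMeasurable_left (ContinuousLinearMap.mul ℝ ℂ) hf' (hf.integrable_mul hg)
      (hg.integrable one_le_two)
  rw [← integral_congr_ae h1, integral_condExp h]
lemma memLp_ce (hf : MemLp f 2 μ) (𝒢 : MeasurableSpace Ω) : MemLp (μ[f | 𝒢]) 2 μ := hf.condExp one_le_two
lemma ce_indep (h𝒜 : 𝒜 ≤ m0) (hℬ : ℬ ≤ m0) (hi : Indep 𝒜 ℬ μ) (hf : AEStronglyMeasurable[𝒜] f μ) :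
    μ[f | ℬ] =ᵐ[μ] fun _ => ∫ ω, f ω ∂μ := by
  have h1 := condExp_indep_eq h𝒜 hℬ hf.stronglyMeasurable_mk hi
  rw [integral_congr_ae hf.ae_eq_mk]
  exact (condExp_congr_ae hf.ae_eq_mk).trans h1
lemma int_mul_indep (h𝒜 : 𝒜 ≤ m0) (hℬ : ℬ ≤ m0) (hi : Indep 𝒜 ℬ μ)
    (hf : AEStronglyMeasurable[𝒜] f μ) (hg : AEStronglyMeasurable[ℬ] g μ) :
    ∫ ω, f ω * g ω ∂μ = (∫ ω, f ω ∂μ) * ∫ ω, g ω ∂μ := by
  have h1 : IndepFun (hf.mk f) (hg.mk g) μ := by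
    rw [IndepFun_iff_Indep]
    exact indep_of_indep_of_le hi hf.stronglyMeasurable_mk.measurable.comap_le
      hg.stronglyMeasurable_mk.measurable.comap_le
  have h2 : IndepFun f g μ := h1.congr hf.ae_eq_mk.symm hg.ae_eq_mk.symm
  exact h2.integral_fun_mul_eq_mul_integral (hf.mono h𝒜) (hg.mono hℬ)
/-- `∫ f * conj f = ∫ ‖f‖²` -/
lemma int_mul_conj (f : Ω → ℂ) :
    ∫ ω, f ω * conj (f ω) ∂μ = ((∫ ω, ‖f ω‖ ^ 2 ∂μ : ℝ) : ℂ) := by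
  rw [← integral_complex_ofReal]
  refine integral_congr_ae (Eventually.of_forall fun ω => ?_)
  simp only [Complex.mul_conj, Complex.normSq_eq_norm_sq]
lemma ae_zero_of_int_sq (hf : MemLp f 2 μ) (h : ∫ ω, ‖f ω‖ ^ 2 ∂μ ≤ 0) : f =ᵐ[μ] fun _ => 0 := by
  have hi : Integrable (fun ω => ‖f ω‖ ^ 2) μ := (memLp_two_iff_integrable_sq_norm hf.1).mp hf
  have h0 : ∫ ω, ‖f ω‖ ^ 2 ∂μ = 0 := le_antisymm h (integral_nonneg fun ω => by positivity)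
  rw [integral_eq_zero_iff_of_nonneg (fun ω => by positivity) hi] at h0
  filter_upwards [h0] with ω hω
  simpa using hω
/-- Cauchy–Schwarz -/
lemma norm_int_mul_le (hf : MemLp f 2 μ) (hg : MemLp g 2 μ) :
    ‖∫ ω, f ω * g ω ∂μ‖ ≤ √(∫ ω, ‖f ω‖ ^ 2 ∂μ) * √(∫ ω, ‖g ω‖ ^ 2 ∂μ) := by
  have h1 := integral_mul_norm_le_Lp_mul_Lq (μ := μ) (f := f) (g := g) Real.HolderConjugate.two_two
    (by simpa using hf) (by simpa using hg)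
  refine (norm_integral_le_integral_norm _).trans ?_
  simp only [norm_mul]
  refine h1.trans (le_of_eq ?_)
  rw [Real.sqrt_eq_rpow, Real.sqrt_eq_rpow]
  simp only [Real.rpow_two]
lemma int_norm_le_sqrt (hf : MemLp f 2 μ) : ∫ ω, ‖f ω‖ ∂μ ≤ √(∫ ω, ‖f ω‖ ^ 2 ∂μ) := by
  have h1 := integral_mul_norm_le_Lp_mul_Lq (μ := μ) (f := f) (g := fun _ => (1 : ℂ))
    Real.HolderConjugate.two_two (by simpa using hf) (memLp_const _)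
  rw [Real.sqrt_eq_rpow]
  simpa [Real.rpow_two] using h1
/-- `‖f - g‖² = ‖f‖² - 2 Re ⟨f, g⟩ + ‖g‖²` -/
lemma int_norm_sub_sq (hf : MemLp f 2 μ) (hg : MemLp g 2 μ) :
    ∫ ω, ‖f ω - g ω‖ ^ 2 ∂μ =
      ∫ ω, ‖f ω‖ ^ 2 ∂μ - 2 * (∫ ω, f ω * conj (g ω) ∂μ).re + ∫ ω, ‖g ω‖ ^ 2 ∂μ := by
  have hi1 : Integrable (fun ω => ‖f ω‖ ^ 2) μ := (memLp_two_iff_integrable_sq_norm hf.1).mp hf
  have hi2 : Integrable (fun ω => ‖g ω‖ ^ 2) μ := (memLp_two_iff_integrable_sq_norm hg.1).mp hg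
  have hg' : MemLp (fun ω => conj (g ω)) 2 μ :=
    hg.of_le (Complex.continuous_conj.comp_aestronglyMeasurable hg.1) (Eventually.of_forall fun ω => by simp)
  have hi3 : Integrable (fun ω => f ω * conj (g ω)) μ := hf.integrable_mul hg'
  have hi4 : Integrable (fun ω => 2 * (f ω * conj (g ω)).re) μ := hi3.re.const_mul 2
  have e1 : (∫ ω, f ω * conj (g ω) ∂μ).re = ∫ ω, (f ω * conj (g ω)).re ∂μ := (integral_re hi3).symm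
  have hi5 : Integrable (fun ω => ‖f ω‖ ^ 2 - 2 * (f ω * conj (g ω)).re) μ := hi1.sub hi4
  rw [e1, ← integral_const_mul, ← integral_sub hi1 hi4, ← integral_add hi5 hi2]
  refine integral_congr_ae (Eventually.of_forall fun ω => ?_)
  simp only [← Complex.normSq_eq_norm_sq, Complex.normSq_sub]
  ring

end Crest.Agent.R69
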