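import Crest.Agent.R69.BApi

/-!
# R69: extensionality, Pythagoras, completed σ-algebras, multilinear approximation

All proofs complete.
-/

set_option autoImplicit false
set_option linter.unusedSectionVars false
open MeasureTheory ProbabilityTheory Filter Topology
open scoped ComplexConjugate

namespace Crest.Agent.R69

universe u
variable {Ω : Type u} {𝒜 ℬ 𝒞 𝒢 𝒳 𝒴 : MeasurableSpace Ω} {m0 : MeasurableSpace Ω} {μ : Measure Ω}
  {f g : Ω → ℂ}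

/-! ### completed σ-algebras -/

lemma le_full (𝒢 : MeasurableSpace Ω) : 𝒢 ≤ full μ 𝒢 := le_eventuallyMeasurableSpace

lemma measurable_full_of_aesm (hf : AEStronglyMeasurable[𝒢] f μ) : Measurable[full μ 𝒢] f := 
  Measurable.eventuallyMeasurable_of_eventuallyEq (m := 𝒢) (l := ae μ)
    hf.stronglyMeasurable_mk.measurable hf.ae_eq_mk

/-- A function measurable for the completion agrees a.e. with a `𝒢`-measurable one.
Proof: `f` is strongly measurable for `full μ 𝒢`; use `StronglyMeasurable.induction`-style argument: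
a simple function (finite sum of indicators of sets a.e. equal to `𝒢`-sets) is
`AEStronglyMeasurable[𝒢]`, and `aestronglyMeasurable_of_tendsto_ae` (or `AEStronglyMeasurable` of the
pointwise limit of `StronglyMeasurable.approx`) passes to the limit. -/
lemma aesm_of_measurable_full (hf : Measurable[full μ 𝒢] f) : AEStronglyMeasurable[𝒢] f μ := by
  have hs : StronglyMeasurable[full μ 𝒢] f := hf.stronglyMeasurable
  refine @StronglyMeasurable.induction Ω ℂ (full μ 𝒢) _ _ (fun f _ => AEStronglyMeasurable[𝒢] f μ)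
    ?_ ?_ ?_ f hs
  · intro c s hs
    obtain ⟨t, ht, hst⟩ := hs
    refine ⟨t.indicator fun _ => c, stronglyMeasurable_const.indicator ht, ?_⟩
    exact indicator_ae_eq_of_ae_eq_set hst
  · intro f g _ _ _ _ h1 h2
    exact h1.add h2
  · intro F g _ _ h1 h2
    refine ⟨fun x => limUnder atTop fun n => (h1 n).mk (F n) x,
      @StronglyMeasurable.limUnder ℕ Ω ℂ 𝒢 _ _ atTop _ _ _ _ fun n => (h1 n).stronglyMeasurable_mk, ?_⟩
    have h3 : ∀ᵐ x ∂μ, ∀ n, F n x = (h1 n).mk (F n) x := ae_all_iff.2 fun n => (h1 n).ae_eq_mk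
    filter_upwards [h3] with x hx
    have h4 := h2 x
    rw [show (fun n => F n x) = fun n => (h1 n).mk (F n) x from funext hx] at h4
    exact h4.limUnder_eq.symm

lemma aesm_full_iff : AEStronglyMeasurable[full μ 𝒢] f μ ↔ AEStronglyMeasurable[𝒢] f μ :=
  ⟨fun h => (aesm_of_measurable_full h.stronglyMeasurable_mk.measurable).congr h.ae_eq_mk.symm,
    fun h => h.mono (le_full 𝒢)⟩

/-- take the `𝒜`-measurable version `hf.mk f`; it is measurable for `full μ 𝒢` too -/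
lemma aesm_inf_full_iff :
    AEStronglyMeasurable[𝒜 ⊓ full μ 𝒢] f μ ↔
      AEStronglyMeasurable[𝒜] f μ ∧ AEStronglyMeasurable[𝒢] f μ := by
  have l1 : 𝒜 ⊓ full μ 𝒢 ≤ 𝒜 := inf_le_left
  have l2 : 𝒜 ⊓ full μ 𝒢 ≤ full μ 𝒢 := inf_le_right
  refine ⟨fun h => ⟨h.mono l1, aesm_full_iff.1 (h.mono l2)⟩, fun ⟨h1, h2⟩ => ?_⟩
  have h3 : Measurable[full μ 𝒢] (h1.mk f) := measurable_full_of_aesm (h2.congr h1.ae_eq_mk)
  have h4 : Measurable[𝒜] (h1.mk f) := h1.stronglyMeasurable_mk.measurable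
  have h5 : Measurable[𝒜 ⊓ full μ 𝒢] (h1.mk f) := fun s hs => ⟨h4 hs, h3 hs⟩
  exact ⟨h1.mk f, h5.stronglyMeasurable, h1.ae_eq_mk⟩

lemma aesm_DD_iff {C : Fin 3 → Fin 3 → MeasurableSpace Ω} :
    AEStronglyMeasurable[DD μ C] f μ ↔ AEStronglyMeasurable[C 2 2] f μ ∧
      AEStronglyMeasurable[C 0 2 ⊔ C 1 2] f μ ∧ AEStronglyMeasurable[C 2 0 ⊔ C 2 1] f μ := by
  have h1 := aesm_inf_full_iff (μ := μ) (f := f) (𝒜 := C 2 2 ⊓ full μ (C 0 2 ⊔ C 1 2))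
    (𝒢 := C 2 0 ⊔ C 2 1)
  have h2 := aesm_inf_full_iff (μ := μ) (f := f) (𝒜 := C 2 2) (𝒢 := C 0 2 ⊔ C 1 2)
  rw [h2, and_assoc] at h1
  exact h1

variable [IsProbabilityMeasure μ]

/-! ### extensionality -/

/-- π-λ: an integrable function whose integrals over a generating π-system (and `univ`) vanish has
vanishing conditional expectation (`MeasurableSpace.induction_on_inter`, `integral_iUnion`,
`ae_eq_condExp_of_forall_setIntegral_eq`). -/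
lemma ce_eq_zero_of_pi {π : Set (Set Ω)} (hπ : IsPiSystem π)
    (hgen : 𝒢 = MeasurableSpace.generateFrom π) (h : 𝒢 ≤ m0) (hf : Integrable f μ)
    (h0 : ∫ ω, f ω ∂μ = 0) (hs : ∀ s ∈ π, ∫ ω in s, f ω ∂μ = 0) : μ[f | 𝒢] =ᵐ[μ] fun _ => 0 := by
  have key : ∀ t, MeasurableSet[𝒢] t → ∫ ω in t, f ω ∂μ = 0 := by
    refine @MeasurableSpace.induction_on_inter Ω 𝒢 (fun t _ => ∫ ω in t, f ω ∂μ = 0) π hgen hπ
      (by simp) hs ?_ ?_
    · intro t ht h1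
      rw [setIntegral_compl (h t ht) hf, h0, h1, sub_zero]
    · intro F hd hF h1
      rw [integral_iUnion (fun i => h _ (hF i)) hd hf.integrableOn]
      simp [h1]
  refine (ae_eq_condExp_of_forall_setIntegral_eq h hf (fun s _ _ => (integrable_const _).integrableOn)
    (fun s hs _ => ?_) stronglyMeasurable_const.aestronglyMeasurable).symm
  rw [key s hs]; simp

lemma bext_int_ind (f : Ω → ℂ) {s : Set Ω} (hs : MeasurableSet[m0] s) :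
    ∫ ω, f ω * s.indicator (fun _ => (1 : ℂ)) ω ∂μ = ∫ ω in s, f ω ∂μ := by
  rw [← integral_indicator hs]
  refine integral_congr_ae (ae_of_all _ fun ω => ?_)
  by_cases hω : ω ∈ s <;> simp [hω]

lemma bext_ce_eq (h : 𝒢 ≤ m0) (hf : Integrable f μ) (hg : Integrable g μ)
    (hg' : AEStronglyMeasurable[𝒢] g μ)
    (H : ∀ u, B μ 𝒢 u → ∫ ω, f ω * u ω ∂μ = ∫ ω, g ω * u ω ∂μ) : μ[f | 𝒢] =ᵐ[μ] g := by
  refine (ae_eq_condExp_of_forall_setIntegral_eq h hf (fun s _ _ => hg.integrableOn)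
    (fun s hs _ => ?_) hg').symm
  rw [← bext_int_ind f (h s hs), ← bext_int_ind g (h s hs), H _ (B.indicator hs)]

lemma ae_eq_of_forall_B (h : 𝒢 ≤ m0) (hf : Integrable f μ) (hg : Integrable g μ)
    (hf' : AEStronglyMeasurable[𝒢] f μ) (hg' : AEStronglyMeasurable[𝒢] g μ)
    (H : ∀ u, B μ 𝒢 u → ∫ ω, f ω * u ω ∂μ = ∫ ω, g ω * u ω ∂μ) : f =ᵐ[μ] g :=
  (ce_of_aesm h hf' hf).symm.trans (bext_ce_eq h hf hg hg' H)

/-- characterisation of the conditional expectation by bounded test functions -/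
lemma ce_eq_of_forall_B (h : 𝒢 ≤ m0) (hf : Integrable f μ) (hg : Integrable g μ)
    (hg' : AEStronglyMeasurable[𝒢] g μ)
    (H : ∀ u, B μ 𝒢 u → ∫ ω, f ω * u ω ∂μ = ∫ ω, g ω * u ω ∂μ) : μ[f | 𝒢] =ᵐ[μ] g :=
  bext_ce_eq h hf hg hg' H

/-- products are total in `𝒳 ⊔ 𝒴` (π-system of intersections `s ∩ t`) -/
lemma ce_sup_eq_zero (h𝒳 : 𝒳 ≤ m0) (h𝒴 : 𝒴 ≤ m0) (hf : Integrable f μ)
    (H : ∀ x y, B μ 𝒳 x → B μ 𝒴 y → ∫ ω, f ω * (x ω * y ω) ∂μ = 0) :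
    μ[f | 𝒳 ⊔ 𝒴] =ᵐ[μ] fun _ => 0 := by
  refine ce_eq_zero_of_pi (π := {u | ∃ s t, MeasurableSet[𝒳] s ∧ MeasurableSet[𝒴] t ∧ u = s ∩ t})
    ?_ ?_ (sup_le h𝒳 h𝒴) hf ?_ ?_
  · rintro _ ⟨s, t, hs, ht, rfl⟩ _ ⟨s', t', hs', ht', rfl⟩ -
    exact ⟨s ∩ s', t ∩ t', hs.inter hs', ht.inter ht', Set.inter_inter_inter_comm _ _ _ _⟩
  · refine le_antisymm (sup_le (fun s hs => ?_) (fun t ht => ?_)) (MeasurableSpace.generateFrom_le ?_)
    · exact MeasurableSpace.measurableSet_generateFrom ⟨s, Set.univ, hs, .univ, by simp⟩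
    · exact MeasurableSpace.measurableSet_generateFrom ⟨Set.univ, t, .univ, ht, by simp⟩
    · rintro _ ⟨s, t, hs, ht, rfl⟩
      have h1 : MeasurableSet[𝒳 ⊔ 𝒴] s := (le_sup_left : 𝒳 ≤ 𝒳 ⊔ 𝒴) s hs
      have h2 : MeasurableSet[𝒳 ⊔ 𝒴] t := (le_sup_right : 𝒴 ≤ 𝒳 ⊔ 𝒴) t ht
      exact h1.inter h2
  · simpa using H _ _ (B.const 1) (B.const 1)
  · rintro _ ⟨s, t, hs, ht, rfl⟩
    rw [← bext_int_ind f ((h𝒳 s hs).inter (h𝒴 t ht)), ← H _ _ (B.indicator hs) (B.indicator ht)]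
    refine integral_congr_ae (ae_of_all _ fun ω => ?_)
    by_cases h1 : ω ∈ s <;> by_cases h2 : ω ∈ t <;> simp [h1, h2]

lemma int_eq_of_prod (h𝒳 : 𝒳 ≤ m0) (h𝒴 : 𝒴 ≤ m0) (hf : Integrable f μ) (hg : Integrable g μ)
    (H : ∀ x y, B μ 𝒳 x → B μ 𝒴 y → ∫ ω, f ω * (x ω * y ω) ∂μ = ∫ ω, g ω * (x ω * y ω) ∂μ)
    {z : Ω → ℂ} (hz : B μ (𝒳 ⊔ 𝒴) z) : ∫ ω, f ω * z ω ∂μ = ∫ ω, g ω * z ω ∂μ := by
  have hle : 𝒳 ⊔ 𝒴 ≤ m0 := sup_le h𝒳 h𝒴
  have hfg : Integrable (fun ω => f ω - g ω) μ := hf.sub hg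
  have h0 := ce_sup_eq_zero h𝒳 h𝒴 hfg fun x y hx hy => by
    have hxy : B μ m0 (fun ω => x ω * y ω) := (hx.mono h𝒳).mul (hy.mono h𝒴)
    simp only [sub_mul]
    rw [integral_sub (hxy.integrable_mul le_rfl hf) (hxy.integrable_mul le_rfl hg), H x y hx hy, sub_self]
  have h1 := int_ce_mul (𝒢 := 𝒳 ⊔ 𝒴) hz hle hfg
  have h2 : ∫ ω, (μ[fun ω => f ω - g ω | 𝒳 ⊔ 𝒴]) ω * z ω ∂μ = 0 := by
    refine integral_eq_zero_of_ae ?_
    filter_upwards [h0] with ω hω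
    simp [hω]
  rw [h2] at h1
  simp only [sub_mul] at h1
  rw [integral_sub (hz.integrable_mul hle hf) (hz.integrable_mul hle hg)] at h1
  exact sub_eq_zero.1 h1.symm

lemma ae_eq_of_forall_prod (h𝒳 : 𝒳 ≤ m0) (h𝒴 : 𝒴 ≤ m0) (hf : Integrable f μ) (hg : Integrable g μ)
    (hf' : AEStronglyMeasurable[𝒳 ⊔ 𝒴] f μ) (hg' : AEStronglyMeasurable[𝒳 ⊔ 𝒴] g μ)
    (H : ∀ x y, B μ 𝒳 x → B μ 𝒴 y → ∫ ω, f ω * (x ω * y ω) ∂μ = ∫ ω, g ω * (x ω * y ω) ∂μ) :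
    f =ᵐ[μ] g :=
  ae_eq_of_forall_B (𝒢 := 𝒳 ⊔ 𝒴) (sup_le h𝒳 h𝒴) hf hg hf' hg' fun _ hu =>
    int_eq_of_prod h𝒳 h𝒴 hf hg H hu

lemma ce_sup_eq_of_prod (h𝒳 : 𝒳 ≤ m0) (h𝒴 : 𝒴 ≤ m0) (hf : Integrable f μ) (hg : Integrable g μ)
    (hg' : AEStronglyMeasurable[𝒳 ⊔ 𝒴] g μ)
    (H : ∀ x y, B μ 𝒳 x → B μ 𝒴 y → ∫ ω, f ω * (x ω * y ω) ∂μ = ∫ ω, g ω * (x ω * y ω) ∂μ) :
    μ[f | 𝒳 ⊔ 𝒴] =ᵐ[μ] g :=
  ce_eq_of_forall_B (𝒢 := 𝒳 ⊔ 𝒴) (sup_le h𝒳 h𝒴) hf hg hg' fun _ hu =>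
    int_eq_of_prod h𝒳 h𝒴 hf hg H hu

/-! ### Pythagoras -/

lemma bext_ce_conj (h : 𝒢 ≤ m0) (hf : MemLp f 2 μ) (hg : MemLp g 2 μ)
    (hg' : AEStronglyMeasurable[𝒢] g μ) :
    ∫ ω, (μ[f | 𝒢]) ω * conj (g ω) ∂μ = ∫ ω, f ω * conj (g ω) ∂μ := by
  have hc : MemLp (fun ω => conj (g ω)) 2 μ := hg.star
  have hc' : AEStronglyMeasurable[𝒢] (fun ω => conj (g ω)) μ :=
    Complex.continuous_conj.comp_aestronglyMeasurable hg'
  have := int_mul_ce_L2 h hc hc' hf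
  simpa only [mul_comm] using this

/-- the variational inequality: `0 ≤ ‖E[f|𝒢] - g‖²` and `⟨f, g⟩ = ⟨E[f|𝒢], g⟩` -/
lemma var_le (h : 𝒢 ≤ m0) (hf : MemLp f 2 μ) (hg : MemLp g 2 μ) (hg' : AEStronglyMeasurable[𝒢] g μ) :
    2 * (∫ ω, f ω * conj (g ω) ∂μ).re - ∫ ω, ‖g ω‖ ^ 2 ∂μ ≤ ∫ ω, ‖(μ[f | 𝒢]) ω‖ ^ 2 ∂μ := by
  have h1 := int_norm_sub_sq (memLp_ce hf 𝒢) hg
  have h2 : 0 ≤ ∫ ω, ‖(μ[f | 𝒢]) ω - g ω‖ ^ 2 ∂μ := integral_nonneg fun ω => by positivity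
  rw [bext_ce_conj h hf hg hg'] at h1
  linarith

lemma int_mul_conj_ce (h : 𝒢 ≤ m0) (hf : MemLp f 2 μ) :
    ∫ ω, f ω * conj ((μ[f | 𝒢]) ω) ∂μ = ((∫ ω, ‖(μ[f | 𝒢]) ω‖ ^ 2 ∂μ : ℝ) : ℂ) := by
  rw [← bext_ce_conj h hf (memLp_ce hf 𝒢) (ce_aesm f 𝒢), int_mul_conj]

lemma bext_pyth (h : 𝒢 ≤ m0) (hf : MemLp f 2 μ) :
    ∫ ω, ‖f ω - (μ[f | 𝒢]) ω‖ ^ 2 ∂μ = ∫ ω, ‖f ω‖ ^ 2 ∂μ - ∫ ω, ‖(μ[f | 𝒢]) ω‖ ^ 2 ∂μ := by
  rw [int_norm_sub_sq hf (memLp_ce hf 𝒢), int_mul_conj_ce h hf, Complex.ofReal_re]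
  ring

lemma int_sq_ce_le (h : 𝒢 ≤ m0) (hf : MemLp f 2 μ) :
    ∫ ω, ‖(μ[f | 𝒢]) ω‖ ^ 2 ∂μ ≤ ∫ ω, ‖f ω‖ ^ 2 ∂μ := by
  have h1 := bext_pyth h hf
  have h2 : 0 ≤ ∫ ω, ‖f ω - (μ[f | 𝒢]) ω‖ ^ 2 ∂μ := integral_nonneg fun ω => by positivity
  linarith

/-- `‖f - E[f|𝒢]‖² = ‖f‖² - ‖E[f|𝒢]‖² ≤ 0` -/
lemma aesm_of_sq_le (h : 𝒢 ≤ m0) (hf : MemLp f 2 μ)
    (H : ∫ ω, ‖f ω‖ ^ 2 ∂μ ≤ ∫ ω, ‖(μ[f | 𝒢]) ω‖ ^ 2 ∂μ) : AEStronglyMeasurable[𝒢] f μ := by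
  have h1 := bext_pyth h hf
  have h2 : MemLp (fun ω => f ω - (μ[f | 𝒢]) ω) 2 μ := hf.sub (memLp_ce hf 𝒢)
  have h3 := ae_zero_of_int_sq h2 (by linarith)
  refine (ce_aesm f 𝒢).congr ?_
  filter_upwards [h3] with ω hω
  exact (sub_eq_zero.1 hω).symm

/-- apply `aesm_of_sq_le` to `E[f|ℬ]` and use the tower property -/
lemma aesm_ce_of_sq_le (h : 𝒞 ≤ ℬ) (hℬ : ℬ ≤ m0) (hf : MemLp f 2 μ)
    (H : ∫ ω, ‖(μ[f | ℬ]) ω‖ ^ 2 ∂μ ≤ ∫ ω, ‖(μ[f | 𝒞]) ω‖ ^ 2 ∂μ) :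
    AEStronglyMeasurable[𝒞] (μ[f | ℬ]) μ := by
  refine aesm_of_sq_le (h.trans hℬ) (memLp_ce hf ℬ) (H.trans (le_of_eq ?_))
  refine integral_congr_ae ?_
  filter_upwards [ce_tower (μ := μ) h hℬ f] with ω hω
  rw [hω]

/-- bounded functions are dense in `L²(𝒢)` (truncation and dominated convergence) -/
lemma exists_B_close (h : 𝒢 ≤ m0) (hf : MemLp f 2 μ) (hf' : AEStronglyMeasurable[𝒢] f μ) {ε : ℝ}
    (hε : 0 < ε) : ∃ g, B μ 𝒢 g ∧ ∫ ω, ‖f ω - g ω‖ ^ 2 ∂μ ≤ ε := by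
  set F := hf'.mk f with hF
  have hFm : StronglyMeasurable[𝒢] F := hf'.stronglyMeasurable_mk
  have hs : ∀ n : ℕ, MeasurableSet[𝒢] {ω | ‖F ω‖ ≤ n} := fun n =>
    measurableSet_le hFm.norm.measurable measurable_const
  let G : ℕ → Ω → ℂ := fun n => {ω | ‖F ω‖ ≤ n}.indicator F
  have hG : ∀ n, StronglyMeasurable[𝒢] (G n) := fun n => hFm.indicator (hs n)
  have hlim : Tendsto (fun n => ∫ ω, ‖f ω - G n ω‖ ^ 2 ∂μ) atTop (𝓝 (∫ _ω, (0 : ℝ) ∂μ)) := by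
    refine tendsto_integral_of_dominated_convergence (fun ω => ‖f ω‖ ^ 2) (fun n => ?_)
      ((memLp_two_iff_integrable_sq_norm hf.1).1 hf) (fun n => ?_) ?_
    · exact (hf.1.sub ((hG n).mono h).aestronglyMeasurable).norm.pow 2
    · filter_upwards [hf'.ae_eq_mk] with ω hω
      rw [Real.norm_eq_abs, abs_of_nonneg (by positivity)]
      by_cases h1 : ‖F ω‖ ≤ n
      · have : G n ω = f ω := by rw [hω]; exact Set.indicator_of_mem (s := {ω | ‖F ω‖ ≤ n}) h1 F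
        rw [this]; simp
      · have : G n ω = 0 := Set.indicator_of_notMem (s := {ω | ‖F ω‖ ≤ n}) h1 F
        rw [this, sub_zero]
    · filter_upwards [hf'.ae_eq_mk] with ω hω
      refine tendsto_const_nhds.congr' ?_
      filter_upwards [tendsto_natCast_atTop_atTop.eventually_ge_atTop ‖F ω‖] with n hn
      have : G n ω = f ω := by rw [hω]; exact Set.indicator_of_mem (s := {ω | ‖F ω‖ ≤ n}) hn F
      rw [this]; simp
  rw [integral_zero] at hlim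
  obtain ⟨n, hn⟩ := (hlim.eventually (ge_mem_nhds hε)).exists
  refine ⟨G n, ⟨(hG n).aestronglyMeasurable, n, ae_of_all _ fun ω => ?_⟩, hn⟩
  by_cases h1 : ‖F ω‖ ≤ n
  · rwa [show G n ω = F ω from Set.indicator_of_mem (s := {ω | ‖F ω‖ ≤ n}) h1 F]
  · rw [show G n ω = 0 from Set.indicator_of_notMem (s := {ω | ‖F ω‖ ≤ n}) h1 F]; simp

/-! ### composition with measure preserving maps -/

lemma ce_comp_mp {Ω' : Type*} {m1 : MeasurableSpace Ω'} {μ₁ : Measure Ω'} [IsProbabilityMeasure μ₁]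
    {θ : Ω' → Ω} (hθ : MeasurePreserving θ μ₁ μ) (h : 𝒢 ≤ m0) (hf : Integrable f μ) :
    μ₁[fun ω => f (θ ω) | 𝒢.comap θ] =ᵐ[μ₁] fun ω => (μ[f | 𝒢]) (θ ω) := by
  have hle : 𝒢.comap θ ≤ m1 := (MeasurableSpace.comap_mono h).trans hθ.measurable.comap_le
  have key : ∀ {g : Ω → ℂ}, Integrable g μ → ∀ t, MeasurableSet[m0] t →
      ∫ ω in θ ⁻¹' t, g (θ ω) ∂μ₁ = ∫ ω in t, g ω ∂μ := by
    intro g hg t ht
    rw [← setIntegral_map ht (by rw [hθ.map_eq]; exact hg.1) hθ.measurable.aemeasurable, hθ.map_eq]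
  have hi : Integrable (fun ω => (μ[f | 𝒢]) (θ ω)) μ₁ :=
    (hθ.integrable_comp integrable_condExp.1).2 integrable_condExp
  refine (ae_eq_condExp_of_forall_setIntegral_eq hle ((hθ.integrable_comp hf.1).2 hf)
    (fun s _ _ => hi.integrableOn) ?_ ?_).symm
  · rintro _ ⟨t, ht, rfl⟩ _
    rw [key integrable_condExp t (h t ht), setIntegral_condExp h hf ht]
    exact (key hf t (h t ht)).symm
  · exact aesm_comp_mp hθ (comap_measurable θ) (ce_aesm f 𝒢)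

/-- two measures that agree on `𝒢` have the same integrals of `𝒢`-functions (`integral_trim`) -/
lemma int_eq_of_eq_on {ν : Measure Ω} (h : 𝒢 ≤ m0) (H : ∀ s, MeasurableSet[𝒢] s → ν s = μ s)
    (hf : Measurable[𝒢] f) : ∫ ω, f ω ∂ν = ∫ ω, f ω ∂μ := by
  have e : ν.trim h = μ.trim h := by
    refine @Measure.ext Ω 𝒢 _ _ fun s hs => ?_
    rw [trim_measurableSet_eq h hs, trim_measurableSet_eq h hs, H s hs]
  rw [integral_trim h hf.stronglyMeasurable, integral_trim h hf.stronglyMeasurable, e]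

/-- ... and if `ν = τ_* μ` on `𝒢`, then `∫ f dν = ∫ f ∘ τ dμ` -/
lemma int_eq_of_map_on {ν : Measure Ω} {τ : Ω → Ω} (h : 𝒢 ≤ m0) (hτ : Measurable[𝒢, 𝒢] τ)
    (H : ∀ s, MeasurableSet[𝒢] s → ν s = μ (τ ⁻¹' s))
    (hf : Measurable[𝒢] f) : ∫ ω, f ω ∂ν = ∫ ω, f (τ ω) ∂μ := by
  have e : ν.trim h = @Measure.map Ω Ω 𝒢 𝒢 τ (μ.trim h) := by
    refine @Measure.ext Ω 𝒢 _ _ fun s hs => ?_
    rw [trim_measurableSet_eq h hs, @Measure.map_apply Ω Ω 𝒢 𝒢 _ _ hτ _ hs,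
      trim_measurableSet_eq h (hτ hs), H s hs]
  have hfτ : Measurable[𝒢] fun ω => f (τ ω) := hf.comp hτ
  rw [integral_trim h hf.stronglyMeasurable, integral_trim h hfτ.stronglyMeasurable, e]
  exact @integral_map_of_stronglyMeasurable Ω ℂ _ _ 𝒢 (μ.trim h) Ω 𝒢 τ hτ f hf.stronglyMeasurable

lemma bext_prod_integrable {ι Ω' : Type*} [Fintype ι] {m1 : MeasurableSpace Ω'}
    {μ₁ : Measure Ω'} [IsProbabilityMeasure μ₁] (θ : ι → Ω' → Ω)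
    (hθ : ∀ i, MeasurePreserving (θ i) μ₁ μ) (h : 𝒢 ≤ m0) {a : ι → Ω → ℂ} (ha : ∀ i, B μ 𝒢 (a i)) :
    Integrable (fun ω => ∏ i, a i (θ i ω)) μ₁ := by
  refine B.integrable (𝒢 := m1) (B.prod Finset.univ fun i _ => ?_) le_rfl
  obtain ⟨C, hC⟩ := (ha i).2
  exact ⟨((ha i).1.mono h).comp_measurePreserving (hθ i), C, (hθ i).quasiMeasurePreserving.ae hC⟩

lemma bext_swap {ι Ω' : Type*} [Fintype ι] [DecidableEq ι] {m1 : MeasurableSpace Ω'}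
    {μ₁ : Measure Ω'} [IsProbabilityMeasure μ₁] (θ : ι → Ω' → Ω)
    (hθ : ∀ i, MeasurePreserving (θ i) μ₁ μ) (h : 𝒢 ≤ m0) {a : ι → Ω → ℂ} (ha : ∀ i, B μ 𝒢 (a i))
    (i : ι) {b : Ω → ℂ} (hb : B μ 𝒢 b) (C : ι → ℝ) (hC : ∀ j, ∀ᵐ ω ∂μ, ‖a j ω‖ ≤ C j) :
    dist (∫ ω, ∏ j, a j (θ j ω) ∂μ₁) (∫ ω, ∏ j, Function.update a i b j (θ j ω) ∂μ₁) ≤
      (∏ j ∈ Finset.univ.erase i, C j) * ∫ ω, ‖a i ω - b ω‖ ∂μ := by
  have ha' : ∀ j, B μ 𝒢 (Function.update a i b j) := fun j => by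
    by_cases hj : j = i
    · subst hj; rw [Function.update_self]; exact hb
    · rw [Function.update_of_ne hj]; exact ha j
  have hn : Integrable (fun ω => ‖a i ω - b ω‖) μ := (((ha i).sub hb).integrable h).norm
  have e : ∫ ω, ‖a i ω - b ω‖ ∂μ = ∫ ω, ‖a i (θ i ω) - b (θ i ω)‖ ∂μ₁ := by
    rw [← integral_map (f := fun ω => ‖a i ω - b ω‖) (hθ i).measurable.aemeasurable
      (by rw [(hθ i).map_eq]; exact hn.1), (hθ i).map_eq]
  rw [dist_eq_norm, ← integral_sub (bext_prod_integrable θ hθ h ha) (bext_prod_integrable θ hθ h ha'), e,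
    ← integral_const_mul]
  refine norm_integral_le_of_norm_le (((hθ i).integrable_comp hn.1).2 hn |>.const_mul _) ?_
  have h1 : ∀ᵐ ω ∂μ₁, ∀ j, ‖a j (θ j ω)‖ ≤ C j :=
    ae_all_iff.2 fun j => (hθ j).quasiMeasurePreserving.ae (hC j)
  filter_upwards [h1] with ω hω
  rw [← Finset.mul_prod_erase _ _ (Finset.mem_univ i), ← Finset.mul_prod_erase _ _ (Finset.mem_univ i),
    Function.update_self, Finset.prod_congr rfl (fun j hj =>
      show Function.update a i b j (θ j ω) = a j (θ j ω) by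
        rw [Function.update_of_ne (Finset.ne_of_mem_erase hj)]), ← sub_mul, norm_mul, mul_comm, norm_prod]
  exact mul_le_mul_of_nonneg_right
    (Finset.prod_le_prod (fun j _ => norm_nonneg _) fun j _ => hω j) (norm_nonneg _)

/-- Multilinear limits pass from an `L¹`-dense class `𝒮` to all bounded functions.
Proof: induction on the set `s` of slots that are allowed to be general.  To add the slot `i`,
replace `a i` by `b ∈ 𝒮` with `∫ ‖a i - b‖ ≤ ε`; both sides move by at most `K ε` where `K` is the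
product of essential bounds of the other `a j` (all maps are measure preserving). -/
lemma multi_lim {ι N Ω' : Type*} [Fintype ι] [DecidableEq ι] {m1 : MeasurableSpace Ω'}
    {μ₁ : Measure Ω'} [IsProbabilityMeasure μ₁] (l : Filter N) (θ : N → ι → Ω → Ω)
    (θ' : ι → Ω' → Ω) (hθ : ∀ n i, MeasurePreserving (θ n i) μ μ)
    (hθ' : ∀ i, MeasurePreserving (θ' i) μ₁ μ) (h : 𝒢 ≤ m0) (𝒮 : Set (Ω → ℂ))
    (h𝒮 : ∀ b ∈ 𝒮, B μ 𝒢 b)
    (hd : ∀ a, B μ 𝒢 a → ∀ ε : ℝ, 0 < ε → ∃ b ∈ 𝒮, ∫ ω, ‖a ω - b ω‖ ∂μ ≤ ε)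
    (H : ∀ a : ι → Ω → ℂ, (∀ i, a i ∈ 𝒮) →
      Tendsto (fun n => ∫ ω, ∏ i, a i (θ n i ω) ∂μ) l (𝓝 (∫ ω, ∏ i, a i (θ' i ω) ∂μ₁)))
    (a : ι → Ω → ℂ) (ha : ∀ i, B μ 𝒢 (a i)) :
    Tendsto (fun n => ∫ ω, ∏ i, a i (θ n i ω) ∂μ) l (𝓝 (∫ ω, ∏ i, a i (θ' i ω) ∂μ₁)) := by
  have key : ∀ s : Finset ι, ∀ a : ι → Ω → ℂ, (∀ i, B μ 𝒢 (a i)) → (∀ i ∉ s, a i ∈ 𝒮) →
      Tendsto (fun n => ∫ ω, ∏ i, a i (θ n i ω) ∂μ) l (𝓝 (∫ ω, ∏ i, a i (θ' i ω) ∂μ₁)) := by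
    intro s
    induction s using Finset.induction_on with
    | empty => exact fun a _ h2 => H a fun i => h2 i (Finset.notMem_empty i)
    | insert i s _ ih =>
      intro a ha h2
      have hC : ∀ j, ∃ C : ℝ, 0 ≤ C ∧ ∀ᵐ ω ∂μ, ‖a j ω‖ ≤ C := fun j => by
        obtain ⟨C, hC⟩ := (ha j).2
        exact ⟨max C 0, le_max_right _ _, hC.mono fun ω hω => hω.trans (le_max_left _ _)⟩
      choose C hC0 hC using hC
      set K := ∏ j ∈ Finset.univ.erase i, C j with hK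
      have hK0 : 0 ≤ K := Finset.prod_nonneg fun j _ => hC0 j
      rw [Metric.tendsto_nhds]
      intro ε hε
      obtain ⟨b, hb, hab⟩ := hd (a i) (ha i) (ε / (3 * (K + 1))) (by positivity)
      have ha' : ∀ j, B μ 𝒢 (Function.update a i b j) := fun j => by
        by_cases hj : j = i
        · subst hj; rw [Function.update_self]; exact h𝒮 b hb
        · rw [Function.update_of_ne hj]; exact ha j
      have h3 := ih (Function.update a i b) ha' fun j hj => by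
        by_cases hji : j = i
        · subst hji; rw [Function.update_self]; exact hb
        · rw [Function.update_of_ne hji]; exact h2 j (by simp [hji, hj])
      have hKe : K * (ε / (3 * (K + 1))) ≤ ε / 3 := by
        rw [mul_div_assoc', div_le_div_iff₀ (by positivity) (by norm_num)]
        nlinarith
      have e1 := (bext_swap θ' hθ' h ha i (h𝒮 b hb) C hC).trans
        ((mul_le_mul_of_nonneg_left hab hK0).trans hKe)
      filter_upwards [Metric.tendsto_nhds.1 h3 (ε / 3) (by positivity)] with n hn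
      have e2 := (bext_swap (θ n) (hθ n) h ha i (h𝒮 b hb) C hC).trans
        ((mul_le_mul_of_nonneg_left hab hK0).trans hKe)
      have t1 := dist_triangle4 (∫ ω, ∏ j, a j (θ n j ω) ∂μ)
        (∫ ω, ∏ j, Function.update a i b j (θ n j ω) ∂μ)
        (∫ ω, ∏ j, Function.update a i b j (θ' j ω) ∂μ₁) (∫ ω, ∏ j, a j (θ' j ω) ∂μ₁)
      rw [dist_comm] at e1
      linarith
  exact key Finset.univ a ha fun i hi => absurd (Finset.mem_univ i) hi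

end Crest.Agent.R69
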