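import Mathlib

/-!
# R69 (Rokhlin multiple mixing): abstract measure-theoretic definitions

Conventions for all abstract files: `m0` is the ambient σ-algebra (declare it LAST among the
σ-algebra variables so that it is the default instance), `μ` a probability measure, sub-σ-algebras
come with explicit hypotheses `𝒢 ≤ m0`.  All functions are complex valued; products are written as
lambdas `fun ω => f ω * g ω`, conjugates as `fun ω => conj (f ω)`.
-/

set_option autoImplicit false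
set_option warn.classDefReducibility false
open MeasureTheory ProbabilityTheory Filter Topology
open scoped ComplexConjugate

namespace Crest.Agent.R69

universe u
variable {Ω : Type u}

/-- everywhere bounded and (strictly) `𝒢`-measurable -/
def SB (𝒢 : MeasurableSpace Ω) (f : Ω → ℂ) : Prop :=
  Measurable[𝒢] f ∧ ∃ C : ℝ, ∀ ω, ‖f ω‖ ≤ C

/-- essentially bounded and `𝒢`-measurable modulo `μ`-null sets -/
def B {m0 : MeasurableSpace Ω} (μ : Measure Ω) (𝒢 : MeasurableSpace Ω) (f : Ω → ℂ) : Prop :=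
  AEStronglyMeasurable[𝒢] f μ ∧ ∃ C : ℝ, ∀ᵐ ω ∂μ, ‖f ω‖ ≤ C

/-- `CI μ 𝒜 ℬ 𝒞` (used with `𝒞 ≤ ℬ`): conditional expectations on `ℬ` of bounded `𝒜`-functions are
`𝒞`-measurable, i.e. `𝒜` and `ℬ` are conditionally independent given `𝒞`. -/
def CI {m0 : MeasurableSpace Ω} (μ : Measure Ω) (𝒜 ℬ 𝒞 : MeasurableSpace Ω) : Prop :=
  ∀ f : Ω → ℂ, B μ 𝒜 f → AEStronglyMeasurable[𝒞] (μ[f | ℬ]) μ

/-- sets that agree with a `𝒢`-set up to a `μ`-null set -/
def full {m0 : MeasurableSpace Ω} (μ : Measure Ω) (𝒢 : MeasurableSpace Ω) : MeasurableSpace Ω :=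
  eventuallyMeasurableSpace 𝒢 (ae μ)

/-- a character of the triple `(𝒳, 𝒴, 𝒵)`: a `𝒵`-function that is a product of unimodular
`𝒳`- and `𝒴`-functions -/
def Chr {m0 : MeasurableSpace Ω} (μ : Measure Ω) (𝒳 𝒴 𝒵 : MeasurableSpace Ω) (w : Ω → ℂ) : Prop :=
  AEStronglyMeasurable[𝒵] w μ ∧ ∃ e e' : Ω → ℂ, AEStronglyMeasurable[𝒳] e μ ∧
    AEStronglyMeasurable[𝒴] e' μ ∧ (∀ᵐ ω ∂μ, ‖e ω‖ = 1) ∧ (∀ᵐ ω ∂μ, ‖e' ω‖ = 1) ∧
    w =ᵐ[μ] fun ω => e ω * e' ω

/-- the σ-algebra generated by the cells in `s` of a 3×3 grid -/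
def Cs (C : Fin 3 → Fin 3 → MeasurableSpace Ω) (s : Finset (Fin 3 × Fin 3)) : MeasurableSpace Ω :=
  ⨆ p ∈ s, C p.1 p.2

/-- row `i` of the grid -/
def rowS (C : Fin 3 → Fin 3 → MeasurableSpace Ω) (i : Fin 3) : MeasurableSpace Ω :=
  C i 0 ⊔ C i 1 ⊔ C i 2

/-- column `j` of the grid -/
def colS (C : Fin 3 → Fin 3 → MeasurableSpace Ω) (j : Fin 3) : MeasurableSpace Ω :=
  C 0 j ⊔ C 1 j ⊔ C 2 j

/-- The abstract 3×3 grid. -/
structure Grid {m0 : MeasurableSpace Ω} (μ : Measure Ω)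
    (C : Fin 3 → Fin 3 → MeasurableSpace Ω) : Prop where
  le : ∀ i j, C i j ≤ m0
  rowI : ∀ i i', i ≠ i' → Indep (rowS C i) (rowS C i') μ
  colI : ∀ j j', j ≠ j' → Indep (colS C j) (colS C j') μ
  a3 : ∀ (ρ : Finset (Fin 3)) (j : Fin 3), ρ ≠ Finset.univ →
    CI μ (Cs C (ρ ×ˢ {j})) (Cs C (Finset.univ ×ˢ {j}ᶜ)) (Cs C (ρ ×ˢ {j}ᶜ))
  a4 : ∀ (i : Fin 3) (σ : Finset (Fin 3)), σ ≠ Finset.univ →
    CI μ (Cs C ({i} ×ˢ σ)) (Cs C ({i}ᶜ ×ˢ Finset.univ)) (Cs C ({i}ᶜ ×ˢ σ))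

/-- the functions of the corner `(2,2)` that are determined both by the rest of their column and by
the rest of their row -/
def DD {m0 : MeasurableSpace Ω} (μ : Measure Ω) (C : Fin 3 → Fin 3 → MeasurableSpace Ω) :
    MeasurableSpace Ω :=
  C 2 2 ⊓ full μ (C 0 2 ⊔ C 1 2) ⊓ full μ (C 2 0 ⊔ C 2 1)

/-- `Kop μ R0 R1 G G' = M_G ∘ M_{G'}^*` where `M_G f = E[G f | R0]`, `M_G^* x = E[conj G x | R1]`. -/
noncomputable def Kop {m0 : MeasurableSpace Ω} (μ : Measure Ω) (R0 R1 : MeasurableSpace Ω)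
    (G G' x : Ω → ℂ) : Ω → ℂ :=
  μ[fun ω => G ω * (μ[fun ω' => conj (G' ω') * x ω' | R1]) ω | R0]

/-- The output of the grid analysis in one fibre: a small column system `a`, a small row system `b`. -/
structure Good {m0 : MeasurableSpace Ω} (μ : Measure Ω) (𝒵 : MeasurableSpace Ω)
    (a b : Fin 3 → MeasurableSpace Ω) : Prop where
  dich : ∀ w, Chr μ (a 0) (a 1) (a 2) w → ∫ ω, w ω ∂μ ≠ 0 → ∃ c : ℂ, w =ᵐ[μ] fun _ => c
  cr : ∀ w F, Chr μ (a 0) (a 1) (a 2) w → SB 𝒵 F → ∫ ω, F ω * w ω ∂μ ≠ 0 →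
    Chr μ (b 0) (b 1) (b 2) w
  rc : ∀ w F, Chr μ (b 0) (b 1) (b 2) w → SB 𝒵 F → ∫ ω, F ω * w ω ∂μ ≠ 0 →
    Chr μ (a 0) (a 1) (a 2) w
  complete : ∀ F, SB 𝒵 F → ∀ ε : ℝ, 0 < ε → ∃ (n : ℕ) (w : Fin n → Ω → ℂ) (c : Fin n → ℂ),
    (∀ j, Chr μ (a 0) (a 1) (a 2) (w j) ∧ ∫ ω, F ω * conj (w j ω) ∂μ ≠ 0) ∧
    ∫ ω, ‖F ω - ∑ j, c j * w j ω‖ ^ 2 ∂μ ≤ ε

/-- A group of characters with an endomorphism `σ` intertwining `τ` on bounded `𝒵`-functions. -/
structure IsCharSys {m0 : MeasurableSpace Ω} (μ : Measure Ω) (𝒵 : MeasurableSpace Ω) (τ : Ω → Ω)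
    {Γ : Type u} [AddCommGroup Γ] (χ : Γ → Ω → ℂ) (σ : Module.End ℤ Γ) : Prop where
  meas : ∀ a, AEStronglyMeasurable[m0] (χ a) μ
  uni : ∀ a, ∀ᵐ ω ∂μ, ‖χ a ω‖ = 1
  add : ∀ a b, χ (a + b) =ᵐ[μ] fun ω => χ a ω * χ b ω
  dich : ∀ a, ∫ ω, χ a ω ∂μ ≠ 0 → ∃ c : ℂ, χ a =ᵐ[μ] fun _ => c
  inter : ∀ F, SB 𝒵 F → ∀ a, ∫ ω, F (τ ω) * χ (σ a) ω ∂μ = ∫ ω, F ω * χ a ω ∂μ
  complete : ∀ F, SB 𝒵 F → ∀ ε : ℝ, 0 < ε → ∃ (n : ℕ) (a : Fin n → Γ) (c : Fin n → ℂ),
    (∀ j, ∫ ω, F ω * conj (χ (a j) ω) ∂μ ≠ 0) ∧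
    ∫ ω, ‖F ω - ∑ j, c j * χ (a j) ω‖ ^ 2 ∂μ ≤ ε

section CsApi
variable {C : Fin 3 → Fin 3 → MeasurableSpace Ω}

lemma le_Cs {s : Finset (Fin 3 × Fin 3)} {i j : Fin 3} (h : (i, j) ∈ s) : C i j ≤ Cs C s :=
  le_iSup₂_of_le (f := fun p (_ : p ∈ s) => C p.1 p.2) (i, j) h le_rfl

lemma Cs_le {s : Finset (Fin 3 × Fin 3)} {𝒳 : MeasurableSpace Ω}
    (h : ∀ i j, (i, j) ∈ s → C i j ≤ 𝒳) : Cs C s ≤ 𝒳 :=
  iSup₂_le fun p hp => h p.1 p.2 hp

/-- use as `Cs_mono (by decide)` -/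
lemma Cs_mono {s t : Finset (Fin 3 × Fin 3)} (h : s ⊆ t) : Cs C s ≤ Cs C t :=
  Cs_le fun _ _ hp => le_Cs (h hp)

lemma Cs_union (s t : Finset (Fin 3 × Fin 3)) : Cs C (s ∪ t) = Cs C s ⊔ Cs C t := by
  apply le_antisymm
  · refine Cs_le fun i j h => ?_
    rcases Finset.mem_union.1 h with h | h
    · exact (le_Cs h).trans le_sup_left
    · exact (le_Cs h).trans le_sup_right
  · exact sup_le (Cs_mono Finset.subset_union_left) (Cs_mono Finset.subset_union_right)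

lemma Cs_singleton (i j : Fin 3) : Cs C {(i, j)} = C i j := by
  apply le_antisymm
  · refine Cs_le fun i' j' h => ?_
    obtain ⟨rfl, rfl⟩ := Prod.mk.inj (Finset.mem_singleton.1 h)
    exact le_rfl
  · exact le_Cs (Finset.mem_singleton_self _)

lemma Cs_insert (i j : Fin 3) (s : Finset (Fin 3 × Fin 3)) :
    Cs C (insert (i, j) s) = C i j ⊔ Cs C s := by
  rw [Finset.insert_eq, Cs_union, Cs_singleton]

lemma rowS_eq (i : Fin 3) : rowS C i = Cs C ({i} ×ˢ Finset.univ) := by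
  apply le_antisymm
  · exact sup_le (sup_le (le_Cs (by simp)) (le_Cs (by simp))) (le_Cs (by simp))
  · refine Cs_le fun i' j h => ?_
    obtain rfl : i = i' := by simpa using h
    fin_cases j
    · exact le_sup_left.trans le_sup_left
    · exact le_sup_right.trans le_sup_left
    · exact le_sup_right

lemma colS_eq (j : Fin 3) : colS C j = Cs C (Finset.univ ×ˢ {j}) := by
  apply le_antisymm
  · exact sup_le (sup_le (le_Cs (by simp)) (le_Cs (by simp))) (le_Cs (by simp))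
  · refine Cs_le fun i j' h => ?_
    obtain rfl : j = j' := by simpa using h
    fin_cases i
    · exact le_sup_left.trans le_sup_left
    · exact le_sup_right.trans le_sup_left
    · exact le_sup_right

lemma le_rowS (i j : Fin 3) : C i j ≤ rowS C i := by
  rw [rowS_eq]; exact le_Cs (by simp)

lemma le_colS (i j : Fin 3) : C i j ≤ colS C j := by
  rw [colS_eq]; exact le_Cs (by simp)

lemma Cs_perm (e e' : Equiv.Perm (Fin 3)) (s t : Finset (Fin 3)) :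
    Cs (fun i j => C (e i) (e' j)) (s ×ˢ t) = Cs C (s.map e.toEmbedding ×ˢ t.map e'.toEmbedding) := by
  apply le_antisymm
  · refine Cs_le fun i j h => le_Cs ?_
    simp only [Finset.mem_product] at h ⊢
    exact ⟨Finset.mem_map_of_mem _ h.1, Finset.mem_map_of_mem _ h.2⟩
  · refine Cs_le fun i j h => ?_
    simp only [Finset.mem_product, Finset.mem_map, Equiv.coe_toEmbedding] at h
    obtain ⟨⟨i', hi, rfl⟩, ⟨j', hj, rfl⟩⟩ := h
    exact le_Cs (C := fun i j => C (e i) (e' j)) (Finset.mem_product.2 ⟨hi, hj⟩)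

variable {m0 : MeasurableSpace Ω} {μ : Measure Ω}

lemma Grid.Cs_le (h : Grid μ C) (s : Finset (Fin 3 × Fin 3)) : Cs C s ≤ m0 :=
  R69.Cs_le fun i j _ => h.le i j

lemma Grid.rowS_le (h : Grid μ C) (i : Fin 3) : rowS C i ≤ m0 := by
  rw [rowS_eq]; exact h.Cs_le _

lemma Grid.colS_le (h : Grid μ C) (j : Fin 3) : colS C j ≤ m0 := by
  rw [colS_eq]; exact h.Cs_le _

lemma Grid.DD_le (h : Grid μ C) : DD μ C ≤ m0 :=
  (inf_le_left.trans inf_le_left).trans (h.le 2 2)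

private lemma map_compl_singleton (e : Equiv.Perm (Fin 3)) (j : Fin 3) :
    ({j}ᶜ : Finset (Fin 3)).map e.toEmbedding = {e j}ᶜ := by
  ext x
  simp only [Finset.mem_map, Finset.mem_compl, Finset.mem_singleton, Equiv.coe_toEmbedding]
  constructor
  · rintro ⟨y, hy, rfl⟩ h
    exact hy (e.injective h)
  · intro h
    exact ⟨e.symm x, fun h' => h (by rw [← h', Equiv.apply_symm_apply]), by simp⟩

private lemma map_ne_univ (e : Equiv.Perm (Fin 3)) {s : Finset (Fin 3)} (h : s ≠ Finset.univ) :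
    s.map e.toEmbedding ≠ Finset.univ := by
  intro h'
  apply h
  apply Finset.eq_univ_of_card
  have := congrArg Finset.card h'
  simpa using this

/-- rows and columns of a grid may be permuted -/
lemma Grid.perm (h : Grid μ C) (e e' : Equiv.Perm (Fin 3)) :
    Grid μ (fun i j => C (e i) (e' j)) where
  le i j := h.le _ _
  rowI i i' hi := by
    have := h.rowI (e i) (e i') (fun h' => hi (e.injective h'))
    rw [rowS_eq, rowS_eq] at this ⊢
    rw [Cs_perm, Cs_perm]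
    simpa using this
  colI j j' hj := by
    have := h.colI (e' j) (e' j') (fun h' => hj (e'.injective h'))
    rw [colS_eq, colS_eq] at this ⊢
    rw [Cs_perm, Cs_perm]
    simpa using this
  a3 ρ j hρ := by
    have := h.a3 (ρ.map e.toEmbedding) (e' j) (map_ne_univ e hρ)
    rw [Cs_perm, Cs_perm, Cs_perm, map_compl_singleton]
    simpa using this
  a4 i σ hσ := by
    have := h.a4 (e i) (σ.map e'.toEmbedding) (map_ne_univ e' hσ)
    rw [Cs_perm, Cs_perm, Cs_perm, map_compl_singleton]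
    simpa using this

/-- swap rows `0` and `1` -/
def swapRow (C : Fin 3 → Fin 3 → MeasurableSpace Ω) : Fin 3 → Fin 3 → MeasurableSpace Ω :=
  fun i j => C (Equiv.swap 0 1 i) j

/-- swap columns `0` and `1` -/
def swapCol (C : Fin 3 → Fin 3 → MeasurableSpace Ω) : Fin 3 → Fin 3 → MeasurableSpace Ω :=
  fun i j => C i (Equiv.swap 0 1 j)

lemma Grid.swapRow (h : Grid μ C) : Grid μ (swapRow C) := h.perm (Equiv.swap 0 1) 1
lemma Grid.swapCol (h : Grid μ C) : Grid μ (swapCol C) := h.perm 1 (Equiv.swap 0 1)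

@[simp] lemma swapRow_zero (j : Fin 3) : swapRow C 0 j = C 1 j := rfl
@[simp] lemma swapRow_one (j : Fin 3) : swapRow C 1 j = C 0 j := rfl
@[simp] lemma swapRow_two (j : Fin 3) : swapRow C 2 j = C 2 j := rfl
@[simp] lemma swapCol_zero (i : Fin 3) : swapCol C i 0 = C i 1 := rfl
@[simp] lemma swapCol_one (i : Fin 3) : swapCol C i 1 = C i 0 := rfl
@[simp] lemma swapCol_two (i : Fin 3) : swapCol C i 2 = C i 2 := rfl

lemma rowS_swapRow_zero : rowS (swapRow C) 0 = rowS C 1 := rfl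
lemma rowS_swapRow_one : rowS (swapRow C) 1 = rowS C 0 := rfl
lemma rowS_swapRow_two : rowS (swapRow C) 2 = rowS C 2 := rfl
lemma colS_swapCol_zero : colS (swapCol C) 0 = colS C 1 := rfl
lemma colS_swapCol_one : colS (swapCol C) 1 = colS C 0 := rfl
lemma colS_swapCol_two : colS (swapCol C) 2 = colS C 2 := rfl

lemma rowS_swapCol (i : Fin 3) : rowS (swapCol C) i = rowS C i := by
  simp only [rowS, swapCol_zero, swapCol_one, swapCol_two, sup_comm (C i 1) (C i 0)]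

lemma colS_swapRow (j : Fin 3) : colS (swapRow C) j = colS C j := by
  simp only [colS, swapRow_zero, swapRow_one, swapRow_two, sup_comm (C 1 j) (C 0 j)]

lemma DD_swapRow : DD μ (swapRow C) = DD μ C := by
  simp only [DD, swapRow_zero, swapRow_one, swapRow_two, sup_comm (C 1 2) (C 0 2)]

lemma DD_swapCol : DD μ (swapCol C) = DD μ C := by
  simp only [DD, swapCol_zero, swapCol_one, swapCol_two, sup_comm (C 2 1) (C 2 0)]

end CsApi

end Crest.Agent.R69
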