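import Crest.Agent.R69.BExt

/-!
# R69: calculus of conditional independence, centrality

(filled by helper65)
The basic tool is the weak form `CI_iff_int`; all extensions from products to `B μ (𝒳 ⊔ 𝒴)` go through
`int_eq_of_prod` / `ce_sup_eq_zero` of `BExt.lean`.
-/

set_option autoImplicit false
open MeasureTheory ProbabilityTheory Filter Topology
open scoped ComplexConjugate

namespace Crest.Agent.R69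

universe u
variable {Ω : Type u} {𝒜 𝒜' ℬ ℬ' 𝒞 𝒞' 𝒳 𝒴 𝒴' 𝒵 K0 K1 K2 B0 B2 B1' B2' : MeasurableSpace Ω}
  {m0 : MeasurableSpace Ω} {μ : Measure Ω} [IsProbabilityMeasure μ]

/-- `E[f|ℬ]` is `𝒞`-measurable iff `∫ f g = ∫ f E[g|𝒞]` for all bounded `ℬ`-functions `g`. -/
lemma aesm_ce_iff_int (h : 𝒞 ≤ ℬ) (hℬ : ℬ ≤ m0) {f : Ω → ℂ} (hf : Integrable f μ) :
    AEStronglyMeasurable[𝒞] (μ[f | ℬ]) μ ↔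
      ∀ g, B μ ℬ g → ∫ ω, f ω * g ω ∂μ = ∫ ω, f ω * (μ[g | 𝒞]) ω ∂μ := by
  have h𝒞 : 𝒞 ≤ m0 := h.trans hℬ
  constructor
  · intro H g hg
    have hg0 : B μ m0 g := hg.mono hℬ
    have hF : Integrable (μ[f | ℬ]) μ := integrable_condExp
    have h1 := int_ce_mul (𝒢 := ℬ) hg hℬ hf
    have h2 := int_ce_comm (𝒢 := 𝒞) hg0 h𝒞 hF
    have h3 := int_ce_mul (𝒢 := ℬ) ((hg.condExp 𝒞).mono h) hℬ hf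
    have h4 : ∫ ω, g ω * (μ[μ[f | ℬ] | 𝒞]) ω ∂μ = ∫ ω, (μ[f | ℬ]) ω * g ω ∂μ := by
      refine integral_congr_ae ?_
      filter_upwards [ce_of_aesm (𝒢 := 𝒞) h𝒞 H hF] with ω hω
      rw [hω, mul_comm]
    rw [← h1, ← h3, ← h4, ← h2]
    exact integral_congr_ae (Eventually.of_forall fun ω => mul_comm _ _)
  · intro H
    have h1 : μ[f | ℬ] =ᵐ[μ] μ[f | 𝒞] := by
      refine ce_eq_of_forall_B (𝒢 := ℬ) hℬ hf integrable_condExp ((ce_aesm f 𝒞).mono h) ?_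
      intro u hu
      have h2 := int_ce_comm (𝒢 := 𝒞) (hu.mono hℬ) h𝒞 hf
      rw [H u hu]
      calc ∫ ω, f ω * (μ[u | 𝒞]) ω ∂μ = ∫ ω, (μ[u | 𝒞]) ω * f ω ∂μ :=
            integral_congr_ae (Eventually.of_forall fun ω => mul_comm _ _)
        _ = ∫ ω, u ω * (μ[f | 𝒞]) ω ∂μ := h2
        _ = _ := integral_congr_ae (Eventually.of_forall fun ω => mul_comm _ _)
    exact (ce_aesm f 𝒞).congr h1.symm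

lemma CI_iff_int (h𝒜 : 𝒜 ≤ m0) (h : 𝒞 ≤ ℬ) (hℬ : ℬ ≤ m0) :
    CI μ 𝒜 ℬ 𝒞 ↔ ∀ f g, B μ 𝒜 f → B μ ℬ g →
      ∫ ω, f ω * g ω ∂μ = ∫ ω, f ω * (μ[g | 𝒞]) ω ∂μ := by
  constructor
  · intro H f g hf hg
    exact (aesm_ce_iff_int h hℬ (hf.integrable h𝒜)).1 (H f hf) g hg
  · intro H f hf
    exact (aesm_ce_iff_int h hℬ (hf.integrable h𝒜)).2 fun g hg => H f g hf hg

lemma CI.ce_eq (H : CI μ 𝒜 ℬ 𝒞) (h : 𝒞 ≤ ℬ) (hℬ : ℬ ≤ m0) {f : Ω → ℂ} (hf : B μ 𝒜 f) :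
    μ[f | ℬ] =ᵐ[μ] μ[f | 𝒞] := ce_eq_of_aesm h hℬ (H f hf)

/-- `CI` extends to integrable functions: `u = g - E[g|𝒞]` has `E[u|𝒜] = 0`. -/
lemma CI.integrable (H : CI μ 𝒜 ℬ 𝒞) (h𝒜 : 𝒜 ≤ m0) (h : 𝒞 ≤ ℬ) (hℬ : ℬ ≤ m0) {f : Ω → ℂ}
    (hf : Integrable f μ) (hf' : AEStronglyMeasurable[𝒜] f μ) :
    AEStronglyMeasurable[𝒞] (μ[f | ℬ]) μ := by
  have h𝒞 : 𝒞 ≤ m0 := h.trans hℬ
  refine (aesm_ce_iff_int h hℬ hf).2 fun g hg => ?_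
  have hg0 : B μ m0 g := hg.mono hℬ
  have hc0 : B μ m0 (μ[g | 𝒞]) := (hg.condExp 𝒞).mono h𝒞
  have h1 : μ[g | 𝒜] =ᵐ[μ] μ[μ[g | 𝒞] | 𝒜] := by
    refine ce_eq_of_forall_B (𝒢 := 𝒜) h𝒜 (hg0.integrable le_rfl) integrable_condExp
      (ce_aesm _ 𝒜) ?_
    intro a ha
    rw [int_ce_mul (𝒢 := 𝒜) ha h𝒜 integrable_condExp]
    have := (CI_iff_int h𝒜 h hℬ).1 H a g ha hg
    simpa only [mul_comm] using this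
  have h2 := int_ce_comm (𝒢 := 𝒜) hg0 h𝒜 hf
  have h3 := int_ce_comm (𝒢 := 𝒜) hc0 h𝒜 hf
  have h4 := ce_of_aesm (𝒢 := 𝒜) h𝒜 hf' hf
  calc ∫ ω, f ω * g ω ∂μ = ∫ ω, g ω * (μ[f | 𝒜]) ω ∂μ := by
        refine integral_congr_ae ?_
        filter_upwards [h4] with ω hω
        rw [hω, mul_comm]
    _ = ∫ ω, (μ[μ[g | 𝒞] | 𝒜]) ω * f ω ∂μ := by
        rw [← h2]
        refine integral_congr_ae ?_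
        filter_upwards [h1] with ω hω
        rw [hω]
    _ = _ := by
        rw [h3]
        refine integral_congr_ae ?_
        filter_upwards [h4] with ω hω
        rw [hω, mul_comm]

/-- a function measurable for both `𝒜` and `ℬ` is measurable for `𝒞` -/
lemma CI.aesm (H : CI μ 𝒜 ℬ 𝒞) (hℬ : ℬ ≤ m0) {f : Ω → ℂ} (hf : B μ 𝒜 f)
    (hf' : AEStronglyMeasurable[ℬ] f μ) : AEStronglyMeasurable[𝒞] f μ := by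
  exact (H f hf).congr (ce_of_aesm (𝒢 := ℬ) hℬ hf' ((hf.of_aesm hf').integrable hℬ))

lemma CI.mono_left (H : CI μ 𝒜 ℬ 𝒞) (h : 𝒜' ≤ 𝒜) : CI μ 𝒜' ℬ 𝒞 := fun f hf => H f (hf.mono h)
lemma CI.mono_right (H : CI μ 𝒜 ℬ 𝒞) (h : 𝒞 ≤ 𝒞') : CI μ 𝒜 ℬ 𝒞' := fun f hf => (H f hf).mono h
/-- shrink the middle σ-algebra -/
lemma CI.mono_mid (H : CI μ 𝒜 ℬ 𝒞) (h : 𝒞 ≤ ℬ') (h' : ℬ' ≤ ℬ) (hℬ : ℬ ≤ m0) : CI μ 𝒜 ℬ' 𝒞 := by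
  intro f hf
  exact (H f hf).congr (ce_eq_of_aesm (𝒜 := ℬ') (ℬ := ℬ) h' hℬ ((H f hf).mono h))

lemma CI_of_le (h : 𝒜 ≤ 𝒞) (h' : 𝒞 ≤ ℬ) (hℬ : ℬ ≤ m0) : CI μ 𝒜 ℬ 𝒞 := by
  intro f hf
  have h1 : B μ ℬ f := hf.mono (h.trans h')
  exact (hf.mono h).aesm.congr (ce_of_aesm (𝒢 := ℬ) hℬ h1.aesm (h1.integrable hℬ)).symm

/-- it suffices to test indicators of a generating π-system (`ce_eq_zero_of_pi` for `g - E[g|𝒞]`) -/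
lemma CI_of_pi {π : Set (Set Ω)} (hπ : IsPiSystem π) (hgen : 𝒜 = MeasurableSpace.generateFrom π)
    (h𝒜 : 𝒜 ≤ m0) (h : 𝒞 ≤ ℬ) (hℬ : ℬ ≤ m0)
    (H : ∀ s ∈ π, AEStronglyMeasurable[𝒞] (μ[s.indicator fun _ => (1 : ℂ) | ℬ]) μ) :
    CI μ 𝒜 ℬ 𝒞 := by
  have h𝒞 : 𝒞 ≤ m0 := h.trans hℬ
  refine (CI_iff_int h𝒜 h hℬ).2 fun f g hf hg => ?_
  have hgi : Integrable g μ := hg.integrable hℬ
  have hci : Integrable (μ[g | 𝒞]) μ := integrable_condExp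
  have hu : Integrable (fun ω => g ω - (μ[g | 𝒞]) ω) μ := hgi.sub hci
  have h0 : μ[fun ω => g ω - (μ[g | 𝒞]) ω | 𝒜] =ᵐ[μ] fun _ => 0 := by
    refine ce_eq_zero_of_pi hπ hgen h𝒜 hu ?_ ?_
    · rw [integral_sub hgi hci, integral_condExp h𝒞, sub_self]
    · intro s hs
      have hs' : MeasurableSet[𝒜] s := by
        rw [hgen]; exact MeasurableSpace.measurableSet_generateFrom hs
      have hs0 : MeasurableSet s := h𝒜 s hs'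
      have hb : B μ 𝒜 (s.indicator fun _ => (1 : ℂ)) := B.indicator hs'
      have h1 := (aesm_ce_iff_int h hℬ (hb.integrable h𝒜)).1 (H s hs) g hg
      have h2 : ∀ v : Ω → ℂ, ∫ ω, s.indicator (fun _ => (1 : ℂ)) ω * v ω ∂μ = ∫ ω in s, v ω ∂μ := by
        intro v
        rw [← integral_indicator hs0]
        refine integral_congr_ae (Eventually.of_forall fun ω => ?_)
        by_cases hω : ω ∈ s <;> simp [hω]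
      rw [h2, h2] at h1
      rw [integral_sub hgi.integrableOn hci.integrableOn, h1, sub_self]
  have h1 := int_mul_ce (𝒢 := 𝒜) hf h𝒜 hu
  have h2 : ∫ ω, f ω * (μ[fun ω => g ω - (μ[g | 𝒞]) ω | 𝒜]) ω ∂μ = 0 := by
    rw [← integral_zero Ω ℂ (μ := μ)]
    refine integral_congr_ae ?_
    filter_upwards [h0] with ω hω
    rw [hω, mul_zero]
  rw [h2] at h1
  simp only [mul_sub] at h1
  rw [integral_sub (hf.mul_integrable h𝒜 hgi) (hf.mul_integrable h𝒜 hci)] at h1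
  exact sub_eq_zero.1 h1.symm

/-- it suffices to test products -/
lemma CI_sup_of_prod (h𝒳 : 𝒳 ≤ m0) (h𝒴 : 𝒴 ≤ m0) (h : 𝒞 ≤ ℬ) (hℬ : ℬ ≤ m0)
    (H : ∀ x y, B μ 𝒳 x → B μ 𝒴 y → AEStronglyMeasurable[𝒞] (μ[fun ω => x ω * y ω | ℬ]) μ) :
    CI μ (𝒳 ⊔ 𝒴) ℬ 𝒞 := by
  have hs : 𝒳 ⊔ 𝒴 ≤ m0 := sup_le h𝒳 h𝒴
  refine (CI_iff_int hs h hℬ).2 fun f g hf hg => ?_
  have hgi : Integrable g μ := hg.integrable hℬ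
  have hci : Integrable (μ[g | 𝒞]) μ := integrable_condExp
  have h1 := int_eq_of_prod (𝒳 := 𝒳) (𝒴 := 𝒴) h𝒳 h𝒴 hgi hci (fun x y hx hy => by
    have hxy : B μ m0 (fun ω => x ω * y ω) := (hx.mono h𝒳).mul (hy.mono h𝒴)
    have := (aesm_ce_iff_int h hℬ (hxy.integrable le_rfl)).1 (H x y hx hy) g hg
    simpa only [mul_comm] using this) hf
  simpa only [mul_comm] using h1

/-- absorb `𝒞` (pull-out) -/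
lemma CI.absorb (H : CI μ 𝒜 ℬ 𝒞) (h𝒜 : 𝒜 ≤ m0) (h : 𝒞 ≤ ℬ) (hℬ : ℬ ≤ m0) :
    CI μ (𝒜 ⊔ 𝒞) ℬ 𝒞 := by
  refine CI_sup_of_prod h𝒜 (h.trans hℬ) h hℬ fun x y hx hy => ?_
  have h1 := ce_mul_right (𝒢 := ℬ) (hy.mono h) hℬ (hx.integrable h𝒜)
  exact ((H x hx).mul hy.aesm).congr h1.symm

/-- join: `E[a a'|ℬ] = E[β a'|ℬ]` with `β = E[a|ℬ ⊔ 𝒜'] ∈ 𝒞 ⊔ 𝒜'`, then `absorb`. -/
lemma CI.join (H : CI μ 𝒜 (ℬ ⊔ 𝒜') (𝒞 ⊔ 𝒜')) (H' : CI μ 𝒜' ℬ 𝒞) (h𝒜 : 𝒜 ≤ m0) (h𝒜' : 𝒜' ≤ m0)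
    (h : 𝒞 ≤ ℬ) (hℬ : ℬ ≤ m0) : CI μ (𝒜 ⊔ 𝒜') ℬ 𝒞 := by
  refine CI_sup_of_prod h𝒜 h𝒜' h hℬ fun x y hx hy => ?_
  have hs : ℬ ⊔ 𝒜' ≤ m0 := sup_le hℬ h𝒜'
  have hy' : B μ (ℬ ⊔ 𝒜') y := hy.mono le_sup_right
  have h1 := ce_mul_right (𝒢 := ℬ ⊔ 𝒜') hy' hs (hx.integrable h𝒜)
  have h2 := ce_tower (μ := μ) (𝒜 := ℬ) (ℬ := ℬ ⊔ 𝒜') le_sup_left hs (fun ω => x ω * y ω)
  have hβ : B μ (𝒜' ⊔ 𝒞) (μ[x | ℬ ⊔ 𝒜']) :=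
    ((hx.condExp (ℬ ⊔ 𝒜')).of_aesm (H x hx)).mono (sup_comm 𝒞 𝒜').le
  have hp : B μ (𝒜' ⊔ 𝒞) (fun ω => (μ[x | ℬ ⊔ 𝒜']) ω * y ω) := hβ.mul (hy.mono le_sup_left)
  have h3 := (H'.absorb h𝒜' h hℬ) _ hp
  refine h3.congr ?_
  exact (condExp_congr_ae h1.symm).trans h2

lemma CI_bot_of_indep (h𝒜 : 𝒜 ≤ m0) (hℬ : ℬ ≤ m0) (H : Indep 𝒜 ℬ μ) : CI μ 𝒜 ℬ ⊥ := by
  intro f hf
  exact (aestronglyMeasurable_const (m := ⊥)).congr (ce_indep h𝒜 hℬ H hf.aesm).symm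

/-- `E[1_s|ℬ] = E[1_s|⊥] = μ s` (`condExp_bot`), integrate over `t ∈ ℬ` -/
lemma CI.indep (H : CI μ 𝒜 ℬ ⊥) (h𝒜 : 𝒜 ≤ m0) (hℬ : ℬ ≤ m0) : Indep 𝒜 ℬ μ := by
  rw [Indep_iff]
  intro s t hs ht
  have hs0 : MeasurableSet s := h𝒜 s hs
  have ht0 : MeasurableSet t := hℬ t ht
  have h1 := (CI_iff_int h𝒜 bot_le hℬ).1 H _ _ (B.indicator hs) (B.indicator ht)
  rw [condExp_bot] at h1
  have h2 : ∀ u : Set Ω, MeasurableSet u →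
      ∫ ω, u.indicator (fun _ => (1 : ℂ)) ω ∂μ = (μ.real u : ℂ) := by
    intro u hu
    rw [integral_indicator hu]
    simp
  have h3 : ∫ ω, s.indicator (fun _ => (1 : ℂ)) ω * t.indicator (fun _ => (1 : ℂ)) ω ∂μ =
      (μ.real (s ∩ t) : ℂ) := by
    rw [← h2 _ (hs0.inter ht0)]
    refine integral_congr_ae (Eventually.of_forall fun ω => ?_)
    by_cases h1 : ω ∈ s <;> by_cases h2 : ω ∈ t <;> simp [h1, h2]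
  rw [h3, integral_mul_const, h2 s hs0, h2 t ht0] at h1
  have h4 : μ.real (s ∩ t) = μ.real s * μ.real t := by exact_mod_cast h1
  rw [← ENNReal.toReal_eq_toReal_iff' (measure_ne_top _ _)
    (ENNReal.mul_ne_top (measure_ne_top _ _) (measure_ne_top _ _)), ENNReal.toReal_mul]
  exact h4

/-- if `K0 ⟂ K1` then `E[x | 𝒳 ⊔ K1] = E[x | 𝒳]` for `x ∈ K0`, `𝒳 ≤ K0` -/
lemma ce_sup_indep (hK0 : K0 ≤ m0) (hK1 : K1 ≤ m0) (H : Indep K0 K1 μ) (h𝒳 : 𝒳 ≤ K0) {x : Ω → ℂ}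
    (hx : B μ K0 x) : μ[x | 𝒳 ⊔ K1] =ᵐ[μ] μ[x | 𝒳] := by
  have h𝒳0 : 𝒳 ≤ m0 := h𝒳.trans hK0
  have hxi : Integrable x μ := hx.integrable hK0
  refine ce_sup_eq_of_prod (𝒳 := 𝒳) (𝒴 := K1) h𝒳0 hK1 hxi integrable_condExp
    ((ce_aesm x 𝒳).mono le_sup_left) fun a b ha hb => ?_
  have hc : B μ K0 (μ[x | 𝒳]) := (hx.condExp 𝒳).mono h𝒳
  have h1 := int_mul_indep (𝒜 := K0) (ℬ := K1) hK0 hK1 H (hx.mul (ha.mono h𝒳)).aesm hb.aesm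
  have h2 := int_mul_indep (𝒜 := K0) (ℬ := K1) hK0 hK1 H (hc.mul (ha.mono h𝒳)).aesm hb.aesm
  have h3 := int_ce_mul (𝒢 := 𝒳) ha h𝒳0 hxi
  simp only [← mul_assoc]
  rw [h1, h2, h3]

/-- `E[x y | 𝒳 ⊔ K1] = E[x | 𝒳] y` -/
lemma CI_il2 (hK0 : K0 ≤ m0) (hK1 : K1 ≤ m0) (H : Indep K0 K1 μ) (h𝒳 : 𝒳 ≤ K0) (h𝒴 : 𝒴 ≤ K1) :
    CI μ (K0 ⊔ 𝒴) (𝒳 ⊔ K1) (𝒳 ⊔ 𝒴) := by
  have hs : 𝒳 ⊔ K1 ≤ m0 := sup_le (h𝒳.trans hK0) hK1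
  refine CI_sup_of_prod hK0 (h𝒴.trans hK1) (sup_le_sup_left h𝒴 𝒳) hs fun x y hx hy => ?_
  have hy' : B μ (𝒳 ⊔ K1) y := hy.mono (h𝒴.trans le_sup_right)
  have h1 := ce_mul_right (𝒢 := 𝒳 ⊔ K1) hy' hs (hx.integrable hK0)
  have h2 := ce_sup_indep hK0 hK1 H h𝒳 hx
  have hp : B μ (𝒳 ⊔ 𝒴) (fun ω => (μ[x | 𝒳]) ω * y ω) :=
    ((hx.condExp 𝒳).mono le_sup_left).mul (hy.mono le_sup_right)
  refine hp.aesm.congr ?_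
  filter_upwards [h1, h2] with ω e1 e2
  rw [e1, e2]

/-- the case `𝒳 = ⊥` -/
lemma CI_il (hK0 : K0 ≤ m0) (hK1 : K1 ≤ m0) (H : Indep K0 K1 μ) (h𝒴 : 𝒴 ≤ K1) :
    CI μ (K0 ⊔ 𝒴) K1 𝒴 := by
  have := CI_il2 (𝒳 := ⊥) hK0 hK1 H bot_le h𝒴
  rwa [bot_sup_eq, bot_sup_eq] at this

/-- three σ-algebras with `𝒳 ⟂ 𝒴 ⊔ 𝒴'` and `𝒴 ⟂ 𝒴'` are jointly independent
(`IndepSets.indep` with the π-system of intersections) -/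
lemma indep3 (h𝒳 : 𝒳 ≤ m0) (h𝒴 : 𝒴 ≤ m0) (h𝒴' : 𝒴' ≤ m0) (H : Indep 𝒳 (𝒴 ⊔ 𝒴') μ)
    (H' : Indep 𝒴 𝒴' μ) : Indep 𝒴' (𝒳 ⊔ 𝒴) μ := by
  have h1 : CI μ 𝒳 (𝒴' ⊔ 𝒴) (⊥ ⊔ 𝒴) := by
    rw [sup_comm 𝒴' 𝒴]
    exact (CI_bot_of_indep h𝒳 (sup_le h𝒴 h𝒴') H).mono_right bot_le
  have h2 : CI μ 𝒴 𝒴' ⊥ := CI_bot_of_indep h𝒴 h𝒴' H'
  exact ((h1.join h2 h𝒳 h𝒴 bot_le h𝒴').indep (sup_le h𝒳 h𝒴) h𝒴').symm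

/-- `E[z | 𝒳 ⊔ 𝒴] ∈ 𝒳` for `z ∈ K0 ⊔ 𝒴'`: first condition on `𝒳 ⊔ K1` (`CI_il2` gives
`𝒳 ⊔ 𝒴'`), then use `indep3` and `CI_il` with the pair `(𝒴', 𝒳 ⊔ 𝒴)`. -/
lemma CI_il3 (hK0 : K0 ≤ m0) (hK1 : K1 ≤ m0) (H : Indep K0 K1 μ) (h𝒳 : 𝒳 ≤ K0) (h𝒴 : 𝒴 ≤ K1)
    (h𝒴' : 𝒴' ≤ K1) (H' : Indep 𝒴 𝒴' μ) : CI μ (K0 ⊔ 𝒴') (𝒳 ⊔ 𝒴) 𝒳 := by
  intro z hz
  have h𝒳0 : 𝒳 ≤ m0 := h𝒳.trans hK0
  have hs : 𝒳 ⊔ K1 ≤ m0 := sup_le h𝒳0 hK1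
  have hs' : 𝒳 ⊔ 𝒴 ≤ m0 := sup_le h𝒳0 (h𝒴.trans hK1)
  have hw : B μ (𝒴' ⊔ 𝒳) (μ[z | 𝒳 ⊔ K1]) :=
    ((hz.condExp (𝒳 ⊔ K1)).of_aesm (CI_il2 hK0 hK1 H h𝒳 h𝒴' z hz)).mono (sup_comm 𝒳 𝒴').le
  have hi : Indep 𝒳 (𝒴 ⊔ 𝒴') μ :=
    indep_of_indep_of_le_right (indep_of_indep_of_le_left H h𝒳) (sup_le h𝒴 h𝒴')
  have h3 := indep3 h𝒳0 (h𝒴.trans hK1) (h𝒴'.trans hK1) hi H'
  have h4 := CI_il (K0 := 𝒴') (K1 := 𝒳 ⊔ 𝒴) (𝒴 := 𝒳) (h𝒴'.trans hK1) hs' h3 le_sup_left _ hw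
  exact h4.congr (ce_tower (μ := μ) (𝒜 := 𝒳 ⊔ 𝒴) (ℬ := 𝒳 ⊔ K1) (sup_le_sup_left h𝒴 𝒳) hs z)

end Crest.Agent.R69
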