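import Crest.Agent.R69.CI

/-!
# R69: centrality of closed triples, characters

All statements proved.
-/

set_option autoImplicit false
open MeasureTheory ProbabilityTheory Filter Topology
open scoped ComplexConjugate

namespace Crest.Agent.R69

universe u
variable {Ω : Type u} {𝒳 𝒴 𝒵 𝒳' 𝒴' 𝒵' K0 K1 K2 B0 B2 B1' B2' : MeasurableSpace Ω}
  {m0 : MeasurableSpace Ω} {μ : Measure Ω} [IsProbabilityMeasure μ]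

/-- `E[b y|𝒵] = E[β y|𝒵]` with `β = E[b|𝒴 ⊔ 𝒵] ∈ 𝒴 ⊔ B2`; then `CI_il` for the pair `(𝒴, 𝒵)`. -/
lemma cent1 (hB0 : B0 ≤ m0) (h𝒴 : 𝒴 ≤ m0) (h𝒵 : 𝒵 ≤ m0) (hB2 : B2 ≤ 𝒵) (hi : Indep 𝒴 𝒵 μ)
    (h1 : CI μ B0 (𝒴 ⊔ 𝒵) (𝒴 ⊔ B2)) : CI μ (B0 ⊔ 𝒴) 𝒵 B2 := by
  refine CI_sup_of_prod hB0 h𝒴 hB2 h𝒵 fun b y hb hy => ?_
  have hYZ : 𝒴 ⊔ 𝒵 ≤ m0 := sup_le h𝒴 h𝒵
  have hβ : B μ (𝒴 ⊔ B2) (μ[b | 𝒴 ⊔ 𝒵]) := (hb.condExp _).of_aesm (h1 b hb)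
  have e1 : μ[fun ω => b ω * y ω | 𝒴 ⊔ 𝒵] =ᵐ[μ] fun ω => (μ[b | 𝒴 ⊔ 𝒵]) ω * y ω :=
    ce_mul_right (hy.mono le_sup_left) hYZ (hb.integrable hB0)
  have e2 : μ[fun ω => b ω * y ω | 𝒵] =ᵐ[μ] μ[fun ω => (μ[b | 𝒴 ⊔ 𝒵]) ω * y ω | 𝒵] :=
    (ce_tower (𝒜 := 𝒵) (ℬ := 𝒴 ⊔ 𝒵) le_sup_right hYZ _).symm.trans (condExp_congr_ae e1)
  exact (CI_il h𝒴 h𝒵 hi hB2 _ (hβ.mul (hy.mono le_sup_left))).congr e2.symm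

/-- `P_{B2} J (x y) = J (P_{B0} x · y)`.  The right side is `B2`-measurable by `cent1`; test against
`b ∈ B2`: `∫ x y b = ∫ x y β` with `β = E[b|𝒳 ⊔ 𝒴] ∈ B0 ⊔ 𝒴`, and
`∫ x (y β) = ∫ E[x|B0 ⊔ 𝒴] y β = ∫ E[x|B0] y β` (`ce_sup_indep`) `= ∫ E[x|B0] y b`. -/
lemma cent (h𝒳 : 𝒳 ≤ m0) (h𝒴 : 𝒴 ≤ m0) (h𝒵 : 𝒵 ≤ m0) (hB0 : B0 ≤ 𝒳) (hB2 : B2 ≤ 𝒵)
    (hi : Indep 𝒳 𝒴 μ) (hi' : Indep 𝒴 𝒵 μ)
    (h1 : CI μ B0 (𝒴 ⊔ 𝒵) (𝒴 ⊔ B2)) (h2 : CI μ B2 (𝒳 ⊔ 𝒴) (B0 ⊔ 𝒴)) {x y : Ω → ℂ}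
    (hx : B μ 𝒳 x) (hy : B μ 𝒴 y) :
    μ[μ[fun ω => x ω * y ω | 𝒵] | B2] =ᵐ[μ] μ[fun ω => (μ[x | B0]) ω * y ω | 𝒵] := by
  have hB0' : B0 ≤ m0 := hB0.trans h𝒳
  have hB2' : B2 ≤ m0 := hB2.trans h𝒵
  have hXY : 𝒳 ⊔ 𝒴 ≤ m0 := sup_le h𝒳 h𝒴
  have hBY : B0 ⊔ 𝒴 ≤ m0 := sup_le hB0' h𝒴
  have hx0 : B μ B0 (μ[x | B0]) := hx.condExp B0
  have hp : B μ (B0 ⊔ 𝒴) (fun ω => (μ[x | B0]) ω * y ω) :=
    (hx0.mono le_sup_left).mul (hy.mono le_sup_right)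
  have hxy : B μ (𝒳 ⊔ 𝒴) (fun ω => x ω * y ω) :=
    (hx.mono le_sup_left).mul (hy.mono le_sup_right)
  have hg := cent1 hB0' h𝒴 h𝒵 hB2 hi' h1 _ hp
  refine (ce_tower hB2 h𝒵 _).trans (ce_eq_of_forall_B hB2' (hxy.integrable hXY)
    integrable_condExp hg fun u hu => ?_)
  have hβ : B μ (B0 ⊔ 𝒴) (μ[u | 𝒳 ⊔ 𝒴]) := (hu.condExp _).of_aesm (h2 u hu)
  have hyβ : B μ (B0 ⊔ 𝒴) (fun ω => y ω * (μ[u | 𝒳 ⊔ 𝒴]) ω) := (hy.mono le_sup_right).mul hβ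
  have hui : Integrable u μ := hu.integrable hB2'
  calc ∫ ω, x ω * y ω * u ω ∂μ = ∫ ω, x ω * y ω * (μ[u | 𝒳 ⊔ 𝒴]) ω ∂μ :=
        (int_mul_ce hxy hXY hui).symm
    _ = ∫ ω, x ω * (y ω * (μ[u | 𝒳 ⊔ 𝒴]) ω) ∂μ := by simp only [mul_assoc]
    _ = ∫ ω, (μ[x | B0 ⊔ 𝒴]) ω * (y ω * (μ[u | 𝒳 ⊔ 𝒴]) ω) ∂μ :=
        (int_ce_mul hyβ hBY (hx.integrable h𝒳)).symm
    _ = ∫ ω, (μ[x | B0]) ω * y ω * (μ[u | 𝒳 ⊔ 𝒴]) ω ∂μ := by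
        refine integral_congr_ae ?_
        filter_upwards [ce_sup_indep h𝒳 h𝒴 hi hB0 hx] with ω hω
        rw [hω, mul_assoc]
    _ = ∫ ω, (μ[x | B0]) ω * y ω * u ω ∂μ :=
        int_mul_ce (hp.mono (sup_le_sup_right hB0 _)) hXY hui
    _ = ∫ ω, (μ[fun ω => (μ[x | B0]) ω * y ω | 𝒵]) ω * u ω ∂μ :=
        (int_ce_mul (hu.mono hB2) h𝒵 (hp.integrable hBY)).symm

lemma cent_int3 (hK2 : K2 ≤ m0) (hB2 : B2 ≤ K2) (hB2' : B2' ≤ K2) {z u : Ω → ℂ} (hz : B μ m0 z)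
    (hu : B μ m0 u) :
    ∫ ω, (μ[μ[μ[z | K2] | B2] | B2']) ω * u ω ∂μ = ∫ ω, (μ[μ[u | B2'] | B2]) ω * z ω ∂μ := by
  have h1 : B μ m0 (μ[z | K2]) := (hz.condExp K2).mono hK2
  have h2 : B μ m0 (μ[μ[z | K2] | B2]) := (h1.condExp B2).mono (hB2.trans hK2)
  have h3 : B μ K2 (μ[μ[u | B2'] | B2]) := ((hu.condExp B2').condExp B2).mono hB2
  rw [int_ce_comm h2 (hB2'.trans hK2) (hu.integrable le_rfl),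
    int_ce_comm h1 (hB2.trans hK2) integrable_condExp,
    int_ce_mul h3 hK2 (hz.integrable le_rfl)]
  simp only [mul_comm]

/-- The two projections commute on the range of `J = E[· | K2]` on `K0 ⊔ K1`.
For `z = x y` both sides equal `J (P_{B0} x · P_{B1'} y)` by `cent` (used once with `(K0, K1, B0, B2)`
and once with `(K1, K0, B1', B2')`).  For general `z` test against `u ∈ B μ m0`: by `int_ce_comm`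
the claim becomes `∫ v z = ∫ v' z` with `v = E[E[u|B2']|B2]`, `v' = E[E[u|B2]|B2']`
(both are `K2`-measurable), which extends from products by `int_eq_of_prod`. -/
lemma cent_comm (hK0 : K0 ≤ m0) (hK1 : K1 ≤ m0) (hK2 : K2 ≤ m0) (h01 : Indep K0 K1 μ)
    (h02 : Indep K0 K2 μ) (h12 : Indep K1 K2 μ) (hB0 : B0 ≤ K0) (hB2 : B2 ≤ K2) (hB1' : B1' ≤ K1)
    (hB2' : B2' ≤ K2)
    (h1 : CI μ B0 (K1 ⊔ K2) (K1 ⊔ B2)) (h2 : CI μ B2 (K0 ⊔ K1) (B0 ⊔ K1))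
    (h3 : CI μ B1' (K0 ⊔ K2) (K0 ⊔ B2')) (h4 : CI μ B2' (K0 ⊔ K1) (K0 ⊔ B1'))
    {z : Ω → ℂ} (hz : B μ (K0 ⊔ K1) z) :
    μ[μ[μ[z | K2] | B2] | B2'] =ᵐ[μ] μ[μ[μ[z | K2] | B2'] | B2] := by
  have hK : K0 ⊔ K1 ≤ m0 := sup_le hK0 hK1
  have h4' : CI μ B2' (K1 ⊔ K0) (B1' ⊔ K0) := by
    rw [sup_comm K1 K0, sup_comm B1' K0]
    exact h4
  have cA : ∀ {x y : Ω → ℂ}, B μ K0 x → B μ K1 y →
      μ[μ[fun ω => x ω * y ω | K2] | B2] =ᵐ[μ] μ[fun ω => (μ[x | B0]) ω * y ω | K2] :=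
    fun hx hy => cent hK0 hK1 hK2 hB0 hB2 h01 h12 h1 h2 hx hy
  have cB : ∀ {x y : Ω → ℂ}, B μ K0 x → B μ K1 y →
      μ[μ[fun ω => x ω * y ω | K2] | B2'] =ᵐ[μ] μ[fun ω => x ω * (μ[y | B1']) ω | K2] := by
    intro x y hx hy
    have := cent hK1 hK0 hK2 hB1' hB2' h01.symm h02 h3 h4' hy hx
    simpa only [mul_comm (y _), mul_comm ((μ[y | B1']) _)] using this
  have hprod : ∀ {x y : Ω → ℂ}, B μ K0 x → B μ K1 y →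
      μ[μ[μ[fun ω => x ω * y ω | K2] | B2] | B2'] =ᵐ[μ]
        μ[μ[μ[fun ω => x ω * y ω | K2] | B2'] | B2] := by
    intro x y hx hy
    have hx0 : B μ K0 (μ[x | B0]) := (hx.condExp B0).mono hB0
    have hy0 : B μ K1 (μ[y | B1']) := (hy.condExp B1').mono hB1'
    exact ((condExp_congr_ae (cA hx hy)).trans (cB hx0 hy)).trans
      ((condExp_congr_ae (cB hx hy)).trans (cA hx hy0)).symm
  refine ae_eq_of_forall_B (𝒢 := m0) le_rfl integrable_condExp integrable_condExp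
    ((ce_aesm _ B2').mono (hB2'.trans hK2)) ((ce_aesm _ B2).mono (hB2.trans hK2)) fun u hu => ?_
  rw [cent_int3 hK2 hB2 hB2' (hz.mono hK) hu, cent_int3 hK2 hB2' hB2 (hz.mono hK) hu]
  refine int_eq_of_prod hK0 hK1 integrable_condExp integrable_condExp (fun x y hx hy => ?_) hz
  have hxy : B μ m0 (fun ω => x ω * y ω) := (hx.mono hK0).mul (hy.mono hK1)
  rw [← cent_int3 hK2 hB2 hB2' hxy hu, ← cent_int3 hK2 hB2' hB2 hxy hu]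
  refine integral_congr_ae ?_
  filter_upwards [hprod hx hy] with ω hω
  rw [hω]

/-- Determination lemma.  `ξ ∈ B2`, so `ξ₁ = E[ξ|B2'] = E[ξ₁|B2] ∈ B2` by `cent_comm`.  Then
`∫|ξ|² = ∫ η conj ξ = ∫ η conj ξ₁ = ∫ ξ conj ξ₁ = ∫|ξ₁|²` and `aesm_of_sq_le` applies. -/
lemma determined (hK0 : K0 ≤ m0) (hK1 : K1 ≤ m0) (hK2 : K2 ≤ m0) (h01 : Indep K0 K1 μ)
    (h02 : Indep K0 K2 μ) (h12 : Indep K1 K2 μ) (hB0 : B0 ≤ K0) (hB2 : B2 ≤ K2) (hB1' : B1' ≤ K1)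
    (hB2' : B2' ≤ K2)
    (h1 : CI μ B0 (K1 ⊔ K2) (K1 ⊔ B2)) (h2 : CI μ B2 (K0 ⊔ K1) (B0 ⊔ K1))
    (h3 : CI μ B1' (K0 ⊔ K2) (K0 ⊔ B2')) (h4 : CI μ B2' (K0 ⊔ K1) (K0 ⊔ B1'))
    {z ξ η : Ω → ℂ} (hz : B μ (K0 ⊔ K1) z) (hξ : ξ =ᵐ[μ] μ[z | K2]) (hη : B μ B2' η)
    (hξη : ξ =ᵐ[μ] μ[η | B2]) : AEStronglyMeasurable[B2'] ξ μ := by
  have hB2m : B2 ≤ m0 := hB2.trans hK2
  have hB2m' : B2' ≤ m0 := hB2'.trans hK2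
  have hξB : B μ B2 ξ := (hη.condExp B2).congr hξη.symm
  have hξi : Integrable ξ μ := hξB.integrable hB2m
  have hc := cent_comm hK0 hK1 hK2 h01 h02 h12 hB0 hB2 hB1' hB2' h1 h2 h3 h4 hz
  have e1 : μ[μ[z | K2] | B2] =ᵐ[μ] ξ :=
    (condExp_congr_ae hξ.symm).trans (ce_of_aesm hB2m hξB.aesm hξi)
  have e2 : μ[ξ | B2'] =ᵐ[μ] μ[μ[μ[z | K2] | B2'] | B2] := (condExp_congr_ae e1.symm).trans hc
  have hξ1 : B μ B2 (μ[ξ | B2']) := (hξB.condExp B2').of_aesm ((ce_aesm _ B2).congr e2.symm)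
  have hηi : Integrable η μ := hη.integrable hB2m'
  refine aesm_of_sq_le hB2m' (hξB.memLp hB2m 2) (le_of_eq ?_)
  have key : ∀ {v : Ω → ℂ}, B μ B2 v → ∫ ω, ξ ω * v ω ∂μ = ∫ ω, η ω * v ω ∂μ := by
    intro v hv
    rw [← int_ce_mul hv hB2m hηi]
    refine integral_congr_ae ?_
    filter_upwards [hξη] with ω hω
    rw [hω]
  apply Complex.ofReal_injective
  rw [← int_mul_conj, ← int_mul_conj_ce hB2m' (hξB.memLp hB2m 2), key hξB.conj, key hξ1.conj,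
    ← int_mul_ce hη hB2m' (hξB.conj.integrable hB2m)]
  refine integral_congr_ae ?_
  filter_upwards [ce_conj hξi B2'] with ω hω
  rw [hω]

/-! ### characters -/

omit [IsProbabilityMeasure μ] in
lemma Chr.uni {w : Ω → ℂ} (h : Chr μ 𝒳 𝒴 𝒵 w) : ∀ᵐ ω ∂μ, ‖w ω‖ = 1 := by
  obtain ⟨-, e, e', -, -, h1, h2, h3⟩ := h
  filter_upwards [h1, h2, h3] with ω h1 h2 h3
  rw [h3, norm_mul, h1, h2, mul_one]
omit [IsProbabilityMeasure μ] in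
lemma Chr.b {w : Ω → ℂ} (h : Chr μ 𝒳 𝒴 𝒵 w) : B μ 𝒵 w := by
  exact B.of_uni h.1 h.uni
omit [IsProbabilityMeasure μ] in
lemma Chr.aesm_sup {w : Ω → ℂ} (h : Chr μ 𝒳 𝒴 𝒵 w) : AEStronglyMeasurable[𝒳 ⊔ 𝒴] w μ := by
  obtain ⟨-, e, e', he, he', h1, h2, h3⟩ := h
  exact (((B.of_uni he h1).mono le_sup_left).mul
    ((B.of_uni he' h2).mono le_sup_right)).aesm.congr h3.symm
omit [IsProbabilityMeasure μ] in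
lemma Chr.mono {w : Ω → ℂ} (h : Chr μ 𝒳 𝒴 𝒵 w) (hx : 𝒳 ≤ 𝒳') (hy : 𝒴 ≤ 𝒴') (hz : 𝒵 ≤ 𝒵') :
    Chr μ 𝒳' 𝒴' 𝒵' w := by
  obtain ⟨hw, e, e', he, he', h1, h2, h3⟩ := h
  exact ⟨hw.mono hz, e, e', he.mono hx, he'.mono hy, h1, h2, h3⟩
omit [IsProbabilityMeasure μ] in
lemma Chr.congr {w w' : Ω → ℂ} (h : Chr μ 𝒳 𝒴 𝒵 w) (h' : w =ᵐ[μ] w') : Chr μ 𝒳 𝒴 𝒵 w' := by
  obtain ⟨hw, e, e', he, he', h1, h2, h3⟩ := h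
  exact ⟨hw.congr h', e, e', he, he', h1, h2, h'.symm.trans h3⟩
omit [IsProbabilityMeasure μ] in
lemma Chr.mul {w w' : Ω → ℂ} (h : Chr μ 𝒳 𝒴 𝒵 w) (h' : Chr μ 𝒳 𝒴 𝒵 w') :
    Chr μ 𝒳 𝒴 𝒵 (fun ω => w ω * w' ω) := by
  have hw := (h.b.mul h'.b).aesm
  obtain ⟨-, e, e', he, he', h1, h2, h3⟩ := h
  obtain ⟨-, f, f', hf, hf', g1, g2, g3⟩ := h'
  refine ⟨hw, fun ω => e ω * f ω, fun ω => e' ω * f' ω,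
    ((B.of_uni he h1).mul (B.of_uni hf g1)).aesm, ((B.of_uni he' h2).mul (B.of_uni hf' g2)).aesm,
    ?_, ?_, ?_⟩
  · filter_upwards [h1, g1] with ω h1 g1
    rw [norm_mul, h1, g1, mul_one]
  · filter_upwards [h2, g2] with ω h1 g1
    rw [norm_mul, h1, g1, mul_one]
  · filter_upwards [h3, g3] with ω h1 g1
    rw [h1, g1]
    ring
omit [IsProbabilityMeasure μ] in
lemma Chr.conj {w : Ω → ℂ} (h : Chr μ 𝒳 𝒴 𝒵 w) : Chr μ 𝒳 𝒴 𝒵 (fun ω => conj (w ω)) := by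
  have hw := h.b.conj.aesm
  obtain ⟨-, e, e', he, he', h1, h2, h3⟩ := h
  refine ⟨hw, fun ω => starRingEnd ℂ (e ω), fun ω => starRingEnd ℂ (e' ω),
    (B.of_uni he h1).conj.aesm, (B.of_uni he' h2).conj.aesm, ?_, ?_, ?_⟩
  · filter_upwards [h1] with ω h1
    rw [Complex.norm_conj, h1]
  · filter_upwards [h2] with ω h1
    rw [Complex.norm_conj, h1]
  · filter_upwards [h3] with ω h1
    rw [h1, map_mul]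
omit [IsProbabilityMeasure μ] in
lemma Chr.const {c : ℂ} (hc : ‖c‖ = 1) : Chr μ 𝒳 𝒴 𝒵 (fun _ => c) := by
  refine ⟨(B.const c).aesm, fun _ => c, fun _ => 1, (B.const c).aesm, (B.const 1).aesm,
    Eventually.of_forall fun _ => hc, Eventually.of_forall fun _ => norm_one,
    Eventually.of_forall fun _ => (mul_one c).symm⟩

/-- a unimodular function whose mean has modulus one is constant (`∫ ‖w - c‖² = 0`) -/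
lemma const_of_norm_int {w : Ω → ℂ} (hw : AEStronglyMeasurable[m0] w μ) (h1 : ∀ᵐ ω ∂μ, ‖w ω‖ = 1)
    (h : ‖∫ ω, w ω ∂μ‖ = 1) : w =ᵐ[μ] fun _ => ∫ ω, w ω ∂μ := by
  set c := ∫ ω, w ω ∂μ with hc
  have hwB : B μ m0 w := B.of_uni hw h1
  have hcB : B μ m0 (fun _ : Ω => c) := B.const c
  have e1 : ∫ ω, ‖w ω‖ ^ 2 ∂μ = 1 := by
    have : (fun ω => ‖w ω‖ ^ 2) =ᵐ[μ] fun _ => (1 : ℝ) := by
      filter_upwards [h1] with ω h1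
      rw [h1, one_pow]
    rw [integral_congr_ae this]
    simp
  have e2 : ∫ ω, w ω * conj c ∂μ = 1 := by
    rw [integral_mul_const, ← hc, Complex.mul_conj, Complex.normSq_eq_norm_sq, h]
    simp
  have e3 := int_norm_sub_sq (hwB.memLp le_rfl 2) (hcB.memLp le_rfl 2)
  rw [e1, e2, h] at e3
  have := ae_zero_of_int_sq ((hwB.sub hcB).memLp le_rfl 2) (by
    rw [e3]
    simp
    norm_num)
  filter_upwards [this] with ω hω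
  exact sub_eq_zero.1 hω

omit [IsProbabilityMeasure μ] in
lemma cent_norm_int_conj (f : Ω → ℂ) : ‖∫ ω, conj (f ω) ∂μ‖ = ‖∫ ω, f ω ∂μ‖ := by
  rw [integral_conj, RCLike.norm_conj]

lemma cent_mul_conj {a b : ℂ} (hb : ‖b‖ = 1) : a * b * conj b = a := by
  rw [mul_assoc, Complex.mul_conj, Complex.normSq_eq_norm_sq, hb]
  simp

/-- Dichotomy.  With `x, y, z` the moduli of the means of `w, e, e'`: `w = e e'`, `e = w conj e'`,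
`e' = w conj e` and pairwise independence give `x = y z`, `y = x z`, `z = x y`; `x ≠ 0` forces
`x = y = z = 1`. -/
lemma Chr.dich (h𝒳 : 𝒳 ≤ m0) (h𝒴 : 𝒴 ≤ m0) (h𝒵 : 𝒵 ≤ m0) (hxy : Indep 𝒳 𝒴 μ) (hxz : Indep 𝒳 𝒵 μ)
    (hyz : Indep 𝒴 𝒵 μ) {w : Ω → ℂ} (h : Chr μ 𝒳 𝒴 𝒵 w) (h0 : ∫ ω, w ω ∂μ ≠ 0) :
    ∃ c : ℂ, w =ᵐ[μ] fun _ => c := by
  have hu := h.uni
  obtain ⟨hw, e, e', he, he', h1, h2, h3⟩ := h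
  refine ⟨_, const_of_norm_int (hw.mono h𝒵) hu ?_⟩
  have a1 : ∫ ω, w ω ∂μ = (∫ ω, e ω ∂μ) * ∫ ω, e' ω ∂μ := by
    rw [integral_congr_ae h3]
    exact int_mul_indep h𝒳 h𝒴 hxy he he'
  have a2 : ∫ ω, e ω ∂μ = (∫ ω, w ω ∂μ) * ∫ ω, conj (e' ω) ∂μ := by
    rw [← int_mul_indep h𝒵 h𝒴 hyz.symm hw (B.of_uni he' h2).conj.aesm]
    refine integral_congr_ae ?_
    filter_upwards [h2, h3] with ω h2 h3
    rw [h3, cent_mul_conj h2]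
  have a3 : ∫ ω, e' ω ∂μ = (∫ ω, w ω ∂μ) * ∫ ω, conj (e ω) ∂μ := by
    rw [← int_mul_indep h𝒵 h𝒳 hxz.symm hw (B.of_uni he h1).conj.aesm]
    refine integral_congr_ae ?_
    filter_upwards [h1, h3] with ω h1 h3
    rw [h3, mul_comm (e ω), cent_mul_conj h1]
  have b2 := congrArg norm a2
  have b3 := congrArg norm a3
  rw [norm_mul, cent_norm_int_conj] at b2 b3
  have hy : ‖∫ ω, e ω ∂μ‖ ≠ 0 := by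
    intro h
    rw [norm_eq_zero] at h
    rw [h, zero_mul] at a1
    exact h0 a1
  rw [b3, ← mul_assoc] at b2
  have b4 : ‖∫ ω, w ω ∂μ‖ * ‖∫ ω, w ω ∂μ‖ = 1 := (mul_eq_right₀ hy).1 b2.symm
  have := norm_nonneg (∫ ω, w ω ∂μ)
  nlinarith

lemma cent_loc_aux (h𝒳 : 𝒳 ≤ m0) (h𝒴 : 𝒴 ≤ m0) (h𝒵 : 𝒵 ≤ m0) (hyx : Indep 𝒴 𝒳 μ)
    (hzx : Indep 𝒵 𝒳 μ) (hx : 𝒳' ≤ 𝒳) {w F e e' : Ω → ℂ} (he : AEStronglyMeasurable[𝒳] e μ)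
    (h1 : ∀ᵐ ω ∂μ, ‖e ω‖ = 1) (he' : B μ 𝒴 e') (hw : B μ 𝒵 w)
    (h3 : w =ᵐ[μ] fun ω => e' ω * e ω) (hF : B μ 𝒵 F)
    (hF' : AEStronglyMeasurable[𝒴 ⊔ 𝒳'] F μ) (h0 : ∫ ω, F ω * w ω ∂μ ≠ 0) :
    AEStronglyMeasurable[𝒳'] e μ := by
  have hFw : B μ 𝒵 (fun ω => F ω * w ω) := hF.mul hw
  have hFe : B μ (𝒴 ⊔ 𝒳') (fun ω => F ω * e' ω) := (hF.of_aesm hF').mul (he'.mono le_sup_left)
  have hm : B μ 𝒳' (μ[fun ω => F ω * e' ω | 𝒳]) :=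
    (hFe.condExp 𝒳).of_aesm (CI_il h𝒴 h𝒳 hyx hx _ hFe)
  have e1 : (fun ω => F ω * e' ω) =ᵐ[μ] fun ω => F ω * w ω * conj (e ω) := by
    filter_upwards [h1, h3] with ω h1 h3
    rw [h3, ← mul_assoc, cent_mul_conj h1]
  have e2 := (condExp_congr_ae (m := 𝒳) e1).trans
    (ce_mul_right (B.of_uni he h1).conj h𝒳 (hFw.integrable h𝒵))
  refine ((B.const (∫ ω, F ω * w ω ∂μ)⁻¹).mul hm).conj.aesm.congr ?_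
  filter_upwards [e2, ce_indep h𝒵 h𝒳 hzx hFw.aesm] with ω h2 h4
  rw [h2, h4, ← mul_assoc, inv_mul_cancel₀ h0, one_mul, Complex.conj_conj]

/-- Localisation.  `w = e e'`, `c = ∫ F w ≠ 0`.  `F e' = (F w) conj e`, so
`E[F e'|𝒳] = c · conj e` (pull-out, `𝒳 ⟂ 𝒵`), and the left side is `𝒳'`-measurable by `CI_il`
(`F e' ∈ 𝒴 ⊔ 𝒳'`).  Likewise `e' ∈ 𝒴'`.  Then `w ∈ 𝒳' ⊔ 𝒴'` and `CI.aesm` gives `w ∈ 𝒵'`. -/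
lemma Chr.localise (h𝒳 : 𝒳 ≤ m0) (h𝒴 : 𝒴 ≤ m0) (h𝒵 : 𝒵 ≤ m0) (hxy : Indep 𝒳 𝒴 μ)
    (hxz : Indep 𝒳 𝒵 μ) (hyz : Indep 𝒴 𝒵 μ) (hx : 𝒳' ≤ 𝒳) (hy : 𝒴' ≤ 𝒴)
    (hci : CI μ (𝒳' ⊔ 𝒴') 𝒵 𝒵') {w F : Ω → ℂ} (h : Chr μ 𝒳 𝒴 𝒵 w) (hF : B μ 𝒵 F)
    (hF' : AEStronglyMeasurable[𝒳' ⊔ 𝒴'] F μ) (h0 : ∫ ω, F ω * w ω ∂μ ≠ 0) :
    Chr μ 𝒳' 𝒴' 𝒵' w := by
  have hw := h.b
  obtain ⟨-, e, e', he, he', h1, h2, h3⟩ := h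
  have a1 : AEStronglyMeasurable[𝒳'] e μ :=
    cent_loc_aux h𝒳 h𝒴 h𝒵 hxy.symm hxz.symm hx he h1 (B.of_uni he' h2) hw
      (h3.trans (Eventually.of_forall fun ω => mul_comm _ _)) hF
      (hF'.mono (sup_le le_sup_right (hy.trans le_sup_left))) h0
  have a2 : AEStronglyMeasurable[𝒴'] e' μ :=
    cent_loc_aux h𝒴 h𝒳 h𝒵 hxy hyz.symm hy he' h2 (B.of_uni he h1) hw h3 hF
      (hF'.mono (sup_le_sup_right hx _)) h0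
  have a3 : B μ (𝒳' ⊔ 𝒴') w :=
    (((B.of_uni a1 h1).mono le_sup_left).mul ((B.of_uni a2 h2).mono le_sup_right)).congr h3.symm
  exact ⟨hci.aesm h𝒵 a3 hw.aesm, e, e', a1, a2, h1, h2, h3⟩

end Crest.Agent.R69
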