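import Crest.Agent.R69.Cyl

/-!
# R69: comparison of conditional expectations by law preserving maps
-/

set_option autoImplicit false
set_option linter.unusedSectionVars false
open MeasureTheory ProbabilityTheory Filter Topology
open scoped ComplexConjugate

namespace Crest.Agent.R69

variable {ι : Type} [Fintype ι] [DecidableEq ι] {X0 X1 X2 : Set (P ι)}

/-- every lower bound for `‖E[b | F X2]‖²` coming from a cylinder function is dominated by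
`‖E[b | F X1]‖²` -/
def Dom (μ : Measure (Om ι)) (X0 X2 X1 : Set (P ι)) : Prop :=
  ∀ b a : Om ι → ℂ, Cyl X0 b → Cyl X2 a →
    2 * (∫ ω, b ω * conj (a ω) ∂μ).re - ∫ ω, ‖a ω‖ ^ 2 ∂μ ≤ ∫ ω, ‖(μ[b | F X1]) ω‖ ^ 2 ∂μ

variable {μ : Measure (Om ι)} [IsProbabilityMeasure μ]

/-- Take `s` = union of the supports `s0 ⊆ X0` of `b` and `s2 ⊆ X2` of `a`.  Apply `LP` to
`b * conj a` and to `(‖a‖ ^ 2 : ℝ)` (coerced to `ℂ`); `b (ω ∘ φ) = b ω` (`DependsOn.comp_fix`),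
`a (ω ∘ φ)` is a cylinder function over `X1`; conclude with `var_le`. -/
lemma dom_of_LP (h : ∀ s0 s2 : Finset (P ι), (s0 : Set (P ι)) ⊆ X0 → (s2 : Set (P ι)) ⊆ X2 →
    ∃ φ : P ι → P ι, LP μ φ (s0 ∪ s2) ∧ (∀ v ∈ s0, φ v = v) ∧ ∀ v ∈ s2, φ v ∈ X1) :
    Dom μ X0 X2 X1 := by
  classical
  rintro b a ⟨s0, hs0, hb⟩ ⟨s2, hs2, ha⟩
  obtain ⟨φ, hLP, h0, h2⟩ := h s0 s2 hs0 hs2
  have hb' : DependsOn b ((s0 ∪ s2 : Finset (P ι)) : Set (P ι)) := hb.mono (by simp)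
  have ha' : DependsOn a ((s0 ∪ s2 : Finset (P ι)) : Set (P ι)) := ha.mono (by simp)
  have e1 := hLP (fun ω => b ω * conj (a ω)) (fun x y hxy => by simp only [hb' hxy, ha' hxy])
  have e2 := hLP (fun ω => ((‖a ω‖ ^ 2 : ℝ) : ℂ)) (fun x y hxy => by simp only [ha' hxy])
  rw [integral_complex_ofReal, integral_complex_ofReal, Complex.ofReal_inj] at e2
  simp only [DependsOn.comp_fix hb (fun v hv => h0 v hv)] at e1
  have hc : Cyl X1 (fun ω => a (ω ∘ φ)) :=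
    Cyl.comp_pos (X := s2) ⟨s2, subset_rfl, ha⟩ (fun v hv => h2 v hv)
  have hb0 : Cyl X0 b := ⟨s0, hs0, hb⟩
  rw [← e1, ← e2]
  exact var_le (F_le X1) ((hb0.b μ).memLp (F_le X0) 2) ((hc.b μ).memLp (F_le X1) 2) (hc.b μ).1

/-- Freezing: all coordinates of `C` can be replaced by integers.  Induction on the number of active
coordinates in `C` of the support `s2` of `a`.  If there is none, `s2 ⊆ X1` and `var_le` applies.
Otherwise let `c ∈ C` be the least one; by `hlow` and `h0` the hypothesis of `Fub` holds for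
`s0 ∪ s2` at `c`; `b (ω ∘ sub _ c) = b ω` (`sub_eq_self`), `a (ω ∘ sub _ c)` depends on the image of
`s2`, which lies in `X2` and has fewer active coordinates in `C`; the inequality passes to the limit
(`le_of_tendsto'`). -/
lemma dom_freeze {g : ℕ → ι → ℕ} {p : Ultrafilter ℕ} (hF : Fub g p μ) (C : Set ℚ)
    (h0 : ∀ v ∈ X0, ∀ c ∈ C, ∀ y, y ≤ c → v.2 y = 0)
    (hlow : ∀ v ∈ X2, ∀ c ∈ C, ∀ y, y < c → y ∉ C → v.2 y = 0)
    (hsub : ∀ v ∈ X2, ∀ c ∈ C, ∀ n, sub (g n) c v ∈ X2)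
    (h1 : ∀ v ∈ X2, (∀ c ∈ C, v.2 c = 0) → v ∈ X1) : Dom μ X0 X2 X1 := by
  classical
  rintro b a ⟨s0, hs0, hb⟩ ⟨s2, hs2, ha⟩
  have hb0 : Cyl X0 b := ⟨s0, hs0, hb⟩
  induction hN : ((act s2).filter (· ∈ C)).card using Nat.strong_induction_on generalizing a s2 with
  | _ N ih =>
  rcases ((act s2).filter (· ∈ C)).eq_empty_or_nonempty with hE | hE
  · have hc : Cyl X1 a := by
      refine ⟨s2, fun v hv => h1 v (hs2 hv) fun c hc => ?_, ha⟩
      by_contra hne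
      have : c ∈ (act s2).filter (· ∈ C) := Finset.mem_filter.2 ⟨mem_act.2 ⟨v, hv, hne⟩, hc⟩
      rw [hE] at this
      simp at this
    exact var_le (F_le X1) ((hb0.b μ).memLp (F_le X0) 2) ((hc.b μ).memLp (F_le X1) 2) (hc.b μ).1
  · set c := ((act s2).filter (· ∈ C)).min' hE with hcdef
    have hcmem := Finset.mem_filter.1 (Finset.min'_mem _ hE)
    rw [← hcdef] at hcmem
    have hlow' : ∀ v ∈ s0 ∪ s2, ∀ y, y < c → v.2 y = 0 := by
      intro v hv y hy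
      rcases Finset.mem_union.1 hv with hv | hv
      · exact h0 v (hs0 hv) c hcmem.2 y hy.le
      · by_cases hyC : y ∈ C
        · by_contra hne
          have := Finset.min'_le ((act s2).filter (· ∈ C)) y
            (Finset.mem_filter.2 ⟨mem_act.2 ⟨v, hv, hne⟩, hyC⟩)
          exact absurd hy (not_lt.2 this)
        · exact hlow v (hs2 hv) c hcmem.2 y hy hyC
    have hb' : DependsOn b ((s0 ∪ s2 : Finset (P ι)) : Set (P ι)) := hb.mono (by simp)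
    have ha' : DependsOn a ((s0 ∪ s2 : Finset (P ι)) : Set (P ι)) := ha.mono (by simp)
    have e1 := hF c _ hlow' (fun ω => b ω * conj (a ω)) (fun x y hxy => by simp only [hb' hxy, ha' hxy])
    have e2 := hF c _ hlow' (fun ω => ((‖a ω‖ ^ 2 : ℝ) : ℂ)) (fun x y hxy => by simp only [ha' hxy])
    have hfix : ∀ n ω, b (ω ∘ sub (g n) c) = b ω := fun n ω =>
      DependsOn.comp_fix hb (fun v hv => sub_eq_self _ (h0 v (hs0 hv) c hcmem.2 c le_rfl)) ω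
    simp only [hfix] at e1
    have e1' := (Complex.continuous_re.tendsto _).comp e1
    have e2' := (Complex.continuous_re.tendsto _).comp e2
    simp only [integral_complex_ofReal, Complex.ofReal_re, Function.comp_def] at e1' e2'
    refine le_of_tendsto' ((e1'.const_mul 2).sub e2') fun n => ?_
    refine ih _ ?_ (fun ω => a (ω ∘ sub (g n) c)) (s2.image (sub (g n) c)) ?_
      (DependsOn.comp_pos ha _) rfl
    · rw [← hN]
      apply Finset.card_lt_card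
      refine ⟨fun y hy => ?_, fun hsub' => ?_⟩
      · obtain ⟨hy1, hy2⟩ := Finset.mem_filter.1 hy
        obtain ⟨w, hw, hw'⟩ := mem_act.1 hy1
        obtain ⟨v, hv, rfl⟩ := Finset.mem_image.1 hw
        refine Finset.mem_filter.2 ⟨mem_act.2 ⟨v, hv, fun h => hw' ?_⟩, hy2⟩
        rw [sub_snd, Finsupp.erase_apply]
        split_ifs
        · rfl
        · exact h
      · obtain ⟨hy1, -⟩ := Finset.mem_filter.1 (hsub' (Finset.mem_filter.2 hcmem))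
        obtain ⟨w, hw, hw'⟩ := mem_act.1 hy1
        obtain ⟨v, hv, rfl⟩ := Finset.mem_image.1 hw
        exact hw' (by simp)
    · intro w hw
      obtain ⟨v, hv, rfl⟩ := Finset.mem_image.1 hw
      exact hsub v (hs2 hv) c hcmem.2 n

lemma comp_sq_close {f f' : Om ι → ℂ} (hf : MemLp f 2 μ) (hf' : MemLp f' 2 μ) {ε : ℝ} (hε : 0 ≤ ε)
    (h : ∫ ω, ‖f ω - f' ω‖ ^ 2 ∂μ ≤ ε ^ 2) :
    |∫ ω, ‖f' ω‖ ^ 2 ∂μ - ∫ ω, ‖f ω‖ ^ 2 ∂μ| ≤ 2 * √(∫ ω, ‖f ω‖ ^ 2 ∂μ) * ε + ε ^ 2 := by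
  have hd : MemLp (fun ω => f ω - f' ω) 2 μ := hf.sub hf'
  have hd' : MemLp (fun ω => conj (f ω - f' ω)) 2 μ := hd.star
  have h1 := int_norm_sub_sq hf hd
  simp only [sub_sub_cancel] at h1
  have h2 := norm_int_mul_le hf hd'
  simp only [RCLike.norm_conj] at h2
  have h3 : √(∫ ω, ‖f ω - f' ω‖ ^ 2 ∂μ) ≤ ε := Real.sqrt_le_iff.2 ⟨hε, h⟩
  have h4 : |(∫ ω, f ω * conj (f ω - f' ω) ∂μ).re| ≤ √(∫ ω, ‖f ω‖ ^ 2 ∂μ) * ε :=
    (Complex.abs_re_le_norm _).trans (h2.trans (by gcongr))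
  have h5 : 0 ≤ ∫ ω, ‖f ω - f' ω‖ ^ 2 ∂μ := integral_nonneg fun ω => by positivity
  rw [abs_le] at h4 ⊢
  constructor <;> nlinarith [sq_nonneg ε]

lemma Dom.comp_cyl (h : Dom μ X0 X2 X1) {b : Om ι → ℂ} (hb : Cyl X0 b) :
    ∫ ω, ‖(μ[b | F X2]) ω‖ ^ 2 ∂μ ≤ ∫ ω, ‖(μ[b | F X1]) ω‖ ^ 2 ∂μ := by
  have hb2 : MemLp b 2 μ := (hb.b μ).memLp (F_le X0) 2
  refine le_of_forall_pos_le_add fun ε hε => ?_
  obtain ⟨a, ha, hae⟩ := Cyl.dense (memLp_ce hb2 (F X2)) (ce_aesm b (F X2)) hε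
  have ha2 : MemLp a 2 μ := (ha.b μ).memLp (F_le X2) 2
  have h1 := h b a hb ha
  rw [int_norm_sub_sq (memLp_ce hb2 (F X2)) ha2, bext_ce_conj (F_le X2) hb2 ha2 (ha.b μ).1] at hae
  linarith

/-- For cylinder `b`: approximate `E[b|F X2]` by cylinder functions over `X2` (`Cyl.dense`) and use
`int_mul_conj_ce`.  For general `b` approximate by cylinder functions over `X0`; both sides are
continuous in `L²` (`int_sq_ce_le`, triangle inequality). -/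
lemma Dom.comp (h : Dom μ X0 X2 X1) {b : Om ι → ℂ} (hb : B μ (F X0) b) :
    ∫ ω, ‖(μ[b | F X2]) ω‖ ^ 2 ∂μ ≤ ∫ ω, ‖(μ[b | F X1]) ω‖ ^ 2 ∂μ := by
  have hb2 : MemLp b 2 μ := hb.memLp (F_le X0) 2
  set K := 2 * √(∫ ω, ‖(μ[b | F X2]) ω‖ ^ 2 ∂μ) + 2 * √(∫ ω, ‖(μ[b | F X1]) ω‖ ^ 2 ∂μ) with hK
  have key : ∀ ε : ℝ, 0 < ε → ∫ ω, ‖(μ[b | F X2]) ω‖ ^ 2 ∂μ ≤
      ∫ ω, ‖(μ[b | F X1]) ω‖ ^ 2 ∂μ + (K * ε + 2 * ε ^ 2) := by
    intro ε hε
    obtain ⟨b', hb', hbe⟩ := Cyl.dense hb2 hb.1 (pow_pos hε 2)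
    have hb'2 : MemLp b' 2 μ := (hb'.b μ).memLp (F_le X0) 2
    have hcl : ∀ Y : Set (P ι), ∫ ω, ‖(μ[b | F Y]) ω - (μ[b' | F Y]) ω‖ ^ 2 ∂μ ≤ ε ^ 2 := by
      intro Y
      refine le_trans (le_of_eq ?_) ((int_sq_ce_le (F_le Y) (hb2.sub hb'2)).trans hbe)
      refine integral_congr_ae ?_
      filter_upwards [condExp_sub (hb2.integrable one_le_two) (hb'2.integrable one_le_two) (F Y)]
        with ω hω
      rw [hω]; rfl
    have h1 := comp_sq_close (memLp_ce hb2 (F X2)) (memLp_ce hb'2 (F X2)) hε.le (hcl X2)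
    have h2 := comp_sq_close (memLp_ce hb2 (F X1)) (memLp_ce hb'2 (F X1)) hε.le (hcl X1)
    have h3 := h.comp_cyl hb'
    rw [abs_le] at h1 h2
    rw [hK]
    linarith [h1.1, h2.2]
  have hlim : Tendsto (fun ε : ℝ => ∫ ω, ‖(μ[b | F X1]) ω‖ ^ 2 ∂μ + (K * ε + 2 * ε ^ 2)) (𝓝[>] 0)
      (𝓝 (∫ ω, ‖(μ[b | F X1]) ω‖ ^ 2 ∂μ + (K * 0 + 2 * 0 ^ 2))) :=
    Tendsto.mono_left (Continuous.tendsto (by fun_prop) 0) nhdsWithin_le_nhds
  have := ge_of_tendsto hlim (eventually_nhdsWithin_of_forall fun ε hε => key ε hε)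
  simpa using this

lemma Dom.ci (h : Dom μ X0 X2 X1) (h12 : X1 ⊆ X2) : CI μ (F X0) (F X2) (F X1) :=
  fun _ hb => aesm_ce_of_sq_le (F_mono h12) (F_le X2) (hb.memLp (F_le X0) 2) (h.comp hb)

lemma Dom.transport (h : Dom μ X0 X2 X1) {b : Om ι → ℂ} (hb : B μ (F X0) b)
    (hb' : AEStronglyMeasurable[F X2] b μ) : AEStronglyMeasurable[F X1] b μ := by
  refine aesm_of_sq_le (F_le X1) (hb.memLp (F_le X0) 2) (le_trans (le_of_eq ?_) (h.comp hb))
  refine integral_congr_ae ?_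
  filter_upwards [ce_of_aesm (F_le X2) hb' (hb.integrable (F_le X0))] with ω hω
  rw [hω]

end Crest.Agent.R69
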