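import Crest.Agent.R69.Arr

/-!
# R69: typed coordinates

-/

set_option autoImplicit false
set_option linter.unusedSectionVars false

namespace Crest.Agent.R69

variable {ι : Type} [Fintype ι] [DecidableEq ι]

/-- A colouring of `ℚ` with finitely many colours, each colour class dense.  E.g. colour `q` by
`padicValRat 2 q` (or `padicValNat 2 q.den`) modulo the number of colours: `(2 j + 1) / 2 ^ m` has
valuation `-m`, and for large `m` in a given residue class such numbers meet every interval. -/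
lemma exists_dense_colouring (T : Type) [Fintype T] [Nonempty T] :
    ∃ τ : ℚ → T, ∀ a b : ℚ, a < b → ∀ t : T, ∃ c, a < c ∧ c < b ∧ τ c = t := by
  have hN : 0 < Fintype.card T := Fintype.card_pos
  let e := Fintype.equivFin T
  refine ⟨fun q => e.symm ⟨(-padicValRat 2 q).toNat % Fintype.card T, Nat.mod_lt _ hN⟩,
    fun a b hab t => ?_⟩
  obtain ⟨k, hk⟩ := exists_nat_gt (2 / (b - a))
  set m := (e t : ℕ) + Fintype.card T * k with hm
  have h1 : (k : ℚ) ≤ 2 ^ m := by
    have h2 : k ≤ m := le_add_left (Nat.le_mul_of_pos_left k hN)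
    exact_mod_cast h2.trans Nat.lt_two_pow_self.le
  have h2 : (0 : ℚ) < 2 ^ m := by positivity
  have h3 : 2 < 2 ^ m * (b - a) := by
    rw [div_lt_iff₀ (sub_pos.2 hab)] at hk
    exact hk.trans_le (mul_le_mul_of_nonneg_right h1 (sub_pos.2 hab).le)
  set j : ℤ := ⌊(a * 2 ^ m - 1) / 2⌋ + 1 with hj
  have h4 := Int.floor_le ((a * 2 ^ m - 1) / 2)
  have h5 := Int.lt_floor_add_one ((a * 2 ^ m - 1) / 2)
  refine ⟨((2 * j + 1 : ℤ) : ℚ) / 2 ^ m, ?_, ?_, ?_⟩
  · rw [lt_div_iff₀ h2, hj]
    push_cast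
    linarith
  · rw [div_lt_iff₀ h2, hj]
    push_cast
    linarith
  · have h6 : padicValRat 2 (((2 * j + 1 : ℤ) : ℚ) / 2 ^ m) = -m := by
      rw [padicValRat.div (Int.cast_ne_zero.2 (by omega)) h2.ne', padicValRat.of_int,
        padicValInt.eq_zero_of_not_dvd (by omega), padicValRat.pow]
      have := padicValRat.self (p := 2) one_lt_two
      simp only [Nat.cast_ofNat] at this
      simp [this]
    rw [Equiv.symm_apply_eq]
    ext
    simp only [h6, neg_neg, Int.toNat_natCast]
    rw [hm, Nat.add_mul_mod_self_left]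
    exact Nat.mod_eq_of_lt (e t).2

/-- colour by the subtype of admissible pairs `(i, J)` (nonempty: `(i, ∅)`) -/
theorem exists_typ [Nontrivial ι] : ∃ (bs : ℚ → ι) (Js : ℚ → Finset ι), Typ bs Js := by
  have : Nonempty {x : ι × Finset ι // x.1 ∉ x.2 ∧ insert x.1 x.2 ≠ Finset.univ} := by
    obtain ⟨i, j, hij⟩ := exists_pair_ne ι
    refine ⟨⟨(i, ∅), Finset.notMem_empty _, fun h => ?_⟩⟩
    have := Finset.mem_univ j
    rw [← h] at this
    simp [hij.symm] at this
  obtain ⟨τ, hτ⟩ := exists_dense_colouring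
    {x : ι × Finset ι // x.1 ∉ x.2 ∧ insert x.1 x.2 ≠ Finset.univ}
  refine ⟨fun c => (τ c).1.1, fun c => (τ c).1.2, fun c => (τ c).2.1, fun c => (τ c).2.2,
    fun a b hab i J hi hJ => ?_⟩
  obtain ⟨c, h1, h2, h3⟩ := hτ a b hab ⟨(i, J), hi, hJ⟩
  exact ⟨c, h1, h2, by simp only [h3], by simp only [h3]⟩

/-- a finite typed chain embeds in any interval (induction on `C` from the top or bottom,
`Finset.induction_on_max`, generalising the interval) -/
theorem Typ.chain {bs : ℚ → ι} {Js : ℚ → Finset ι} (h : Typ bs Js) (C : Finset ℚ) {a b : ℚ}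
    (hab : a < b) : ∃ ρ : ℚ → ℚ, StrictMonoOn ρ (C : Set ℚ) ∧
      ∀ c ∈ C, a < ρ c ∧ ρ c < b ∧ bs (ρ c) = bs c ∧ Js (ρ c) = Js c := by
  induction C using Finset.induction_on_max generalizing b with
  | empty => exact ⟨id, fun _ _ _ _ h => h, by simp⟩
  | insert c C hc ih =>
    obtain ⟨c', h1, h2, h3, h4⟩ := h.dense a b hab (bs c) (Js c) (h.nmem c) (h.small c)
    obtain ⟨ρ, hρ, hρ'⟩ := ih h1
    have hne : ∀ y ∈ C, Function.update ρ c c' y = ρ y :=
      fun y hy => Function.update_of_ne (hc y hy).ne _ _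
    refine ⟨Function.update ρ c c', fun x hx y hy hxy => ?_, fun y hy => ?_⟩
    · rcases Finset.mem_insert.1 hx with rfl | hx'
      · rcases Finset.mem_insert.1 hy with rfl | hy'
        · exact absurd hxy (lt_irrefl _)
        · exact absurd hxy (hc y hy').not_gt
      · rcases Finset.mem_insert.1 hy with rfl | hy'
        · rw [hne x hx', Function.update_self]
          exact (hρ' x hx').2.1
        · rw [hne x hx', hne y hy']
          exact hρ hx' hy' hxy
    · rcases Finset.mem_insert.1 hy with rfl | hy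
      · rw [Function.update_self]
        exact ⟨h1, h2, h3, h4⟩
      · rw [hne y hy]
        obtain ⟨g1, g2, g3⟩ := hρ' y hy
        exact ⟨g1, g2.trans h2, g3⟩

/-- a fresh coordinate of prescribed type just below `c` -/
theorem Typ.adj {bs : ℚ → ι} {Js : ℚ → Finset ι} (h : Typ bs Js) (C : Finset ℚ) {a c : ℚ}
    (hac : a < c) (i : ι) (J : Finset ι) (hi : i ∉ J) (hJ : insert i J ≠ Finset.univ) :
    ∃ c', a < c' ∧ c' < c ∧ (∀ y ∈ C, y < c → y < c') ∧ bs c' = i ∧ Js c' = J := by
  obtain ⟨a', h1, h2, h3⟩ := exists_gap C hac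
  obtain ⟨c', h4, h5, h6, h7⟩ := h.dense a' c h2 i J hi hJ
  exact ⟨c', h1.trans_lt h4, h5, fun y hy hyc => (h3 y hy hyc).trans_lt h4, h6, h7⟩

/-- a grouping exists when there are at least three digits -/
theorem exists_grp (h : 3 ≤ Fintype.card ι) : ∃ (l : ι) (gr : ι → Fin 3), Grp l gr := by
  obtain ⟨i, j, l, hij, hil, hjl⟩ := Fintype.two_lt_card_iff.1 h
  refine ⟨l, fun x => if x = l then 2 else if x = i then 0 else 1, fun a => ?_, fun x => ?_⟩
  · fin_cases a
    · exact ⟨i, by simp [hil]⟩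
    · exact ⟨j, by simp [hjl, hij.symm]⟩
    · exact ⟨l, by simp⟩
  · split_ifs with h1 h2 <;> simp [h1]

end Crest.Agent.R69
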