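import Crest.Agent.R69.Sym
import Crest.Agent.R69.Comp
import Crest.Agent.R69.Order

/-!
# R69: closed families of sub-σ-algebras of the rows
-/

set_option autoImplicit false
set_option linter.unusedSectionVars false
open MeasureTheory ProbabilityTheory Filter Topology
open scoped ComplexConjugate

namespace Crest.Agent.R69

variable {ι : Type} [Fintype ι] [DecidableEq ι] {g : ℕ → ι → ℕ} {p : Ultrafilter ℕ}
  {m : Measure (Om ι)} [IsProbabilityMeasure m]

lemma closed_sub_gam {A y : ℚ} (h : y ≠ A) (v : P ι) (x : ι → ℤ) : (v - gam A x).2 y = v.2 y := by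
  simp [h.symm]

lemma closed_up_union (A : ℚ) (U : Set ι) (X Y : Set (P ι)) :
    up A U (X ∪ Y) = up A U X ∪ up A U Y := by
  ext v
  simp only [up, Set.mem_ofPred_eq, Set.mem_union, and_or_left, exists_or]

/-- `dom_freeze` with `C = Iic 0`, then `Dom.ci`. -/
theorem IsModel.closedZ (h : IsModel g p m) (U V : Set ι) :
    CI m (F (up 2 U (PS ∅))) (F (up 2 V (PS (Set.Iic 0)))) (F (up 2 V (PS ∅))) := by
  refine Dom.ci (dom_freeze h.fub (Set.Iic 0) ?_ ?_ ?_ ?_) (up_mono le_rfl (PS_mono (Set.empty_subset _)))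
  · rintro v ⟨i, -, hv⟩ c hc y hy
    have hy2 : y ≠ 2 := by
      have : c ≤ 0 := hc
      intro e
      linarith
    rw [← closed_sub_gam hy2 v (dl i)]
    exact hv y (Set.notMem_empty y)
  · intro v _ c hc y hy hy'
    exact absurd (hy.le.trans hc) hy'
  · rintro v ⟨i, hi, hv⟩ c hc n
    refine ⟨i, hi, fun y hy => ?_⟩
    have hyc : y ≠ c := fun e => hy (e ▸ hc)
    have := hv y hy
    simpa [Finsupp.erase_ne hyc] using this
  · rintro v ⟨i, hi, hv⟩ h0
    refine ⟨i, hi, fun y _ => ?_⟩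
    by_cases hy : y ∈ Set.Iic (0 : ℚ)
    · have hy2 : y ≠ 2 := by
        have : y ≤ 0 := hy
        intro e
        linarith
      rw [closed_sub_gam hy2, h0 y hy]
    · exact hv y hy

/-- a union of slices -/
def closedSL (bs : ℚ → ι) (𝒮 : Set (ℚ × ι)) : Set (P ι) :=
  {v | v ∈ PS (Set.Iic 0) ∧ ∃ s ∈ 𝒮, v.2 s.1 = dl s.2 - dl (bs s.1)}

/-- the slices of atoms with at most `a` slices -/
def closedIdx (Js : ℚ → Finset ι) (a : ℕ) : Set (ℚ × ι) :=
  {s | s.1 ≤ 0 ∧ s.2 ∈ Js s.1 ∧ (Js s.1).card ≤ a}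

lemma closedSL_mono (bs : ℚ → ι) {𝒮 𝒯 : Set (ℚ × ι)} (h : 𝒮 ⊆ 𝒯) :
    closedSL bs 𝒮 ⊆ closedSL bs 𝒯 := fun _ ⟨hv, s, hs, e⟩ => ⟨hv, s, h hs, e⟩

lemma closedSL_union (bs : ℚ → ι) (𝒮 𝒯 : Set (ℚ × ι)) :
    closedSL bs (𝒮 ∪ 𝒯) = closedSL bs 𝒮 ∪ closedSL bs 𝒯 := by
  ext v
  simp only [closedSL, Set.mem_ofPred_eq, Set.mem_union, or_and_right, exists_or, and_or_left]

lemma closedIdx_mono (Js : ℚ → Finset ι) {a b : ℕ} (h : a ≤ b) : closedIdx Js a ⊆ closedIdx Js b :=
  fun _ ⟨h1, h2, h3⟩ => ⟨h1, h2, h3.trans h⟩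

lemma closedIdx_top (Js : ℚ → Finset ι) (a : ℕ) : closedIdx Js a ⊆ closedIdx Js (Fintype.card ι) :=
  fun _ ⟨h1, h2, _⟩ => ⟨h1, h2, Finset.card_le_univ _⟩

lemma closed_QB (bs : ℚ → ι) (Js : ℚ → Finset ι) (l : ι) :
    QB bs Js l = closedSL (Function.update bs 0 l)
      (closedIdx (Function.update Js 0 (Finset.univ.erase l)) (Fintype.card ι)) := by
  ext v
  constructor
  · rintro (⟨hv, i, hi, e⟩ | ⟨hv, r, hr, j, hj, e⟩)
    · refine ⟨hv, (0, i), ⟨le_rfl, ?_, Finset.card_le_univ _⟩, by simpa using e⟩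
      simpa using hi
    · have hr0 : r ≠ 0 := ne_of_lt hr
      refine ⟨hv, (r, j), ⟨le_of_lt hr, ?_, Finset.card_le_univ _⟩, ?_⟩
      · simpa [hr0] using hj
      · simpa [hr0] using e
  · rintro ⟨hv, ⟨r, j⟩, ⟨h1, h2, -⟩, e⟩
    by_cases hr0 : r = 0
    · subst hr0
      exact Or.inl ⟨hv, j, by simpa using h2, by simpa using e⟩
    · exact Or.inr ⟨hv, r, lt_of_le_of_ne h1 hr0, j, by simpa [hr0] using h2, by simpa [hr0] using e⟩

lemma closed_fin (bs : ℚ → ι) (𝒮 : Set (ℚ × ι)) (U : Set ι) (s : Finset (P ι))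
    (hs : (s : Set (P ι)) ⊆ up 2 U (closedSL bs 𝒮)) :
    ∃ L : Finset (ℚ × ι), (L : Set (ℚ × ι)) ⊆ 𝒮 ∧ (s : Set (P ι)) ⊆ up 2 U (closedSL bs L) := by
  classical
  induction s using Finset.induction_on with
  | empty => exact ⟨∅, by simp, by simp⟩
  | insert v s _ ih =>
    rw [Finset.coe_insert, Set.insert_subset_iff] at hs
    obtain ⟨⟨i, hi, hv, t, ht, e⟩, hs⟩ := hs
    obtain ⟨L, hL, hsL⟩ := ih hs
    refine ⟨insert t L, by rw [Finset.coe_insert]; exact Set.insert_subset ht hL, ?_⟩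
    rw [Finset.coe_insert, Finset.coe_insert]
    exact Set.insert_subset ⟨i, hi, hv, t, Set.mem_insert _ _, e⟩
      (hsL.trans (up_mono le_rfl (closedSL_mono bs (Set.subset_insert _ _))))

/-- adding one slice -/
lemma closed_step (h : IsModel g p m) {bs bs' : ℚ → ι} {Js Js' : ℚ → Finset ι} (hT : Typ bs Js)
    (hbs : ∀ r, r < 0 → bs' r = bs r) (hJs : ∀ r, r < 0 → Js' r = Js r) (hn : ∀ r, bs' r ∉ Js' r)
    (U V : Set ι) {a : ℕ} {𝒮 : Set (ℚ × ι)} (h1 : closedIdx Js' a ⊆ 𝒮)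
    (h2 : 𝒮 ⊆ closedIdx Js' (a + 1)) {t : ℚ × ι} (ht : t ∈ closedIdx Js' (a + 1)) :
    Dom m (up 2 U (closedSL bs' {t})) (up 2 V (PS (Set.Iic 0)) ∪ up 2 U (closedSL bs' 𝒮))
      (up 2 V (closedSL bs' (closedIdx Js' (Fintype.card ι))) ∪ up 2 U (closedSL bs' 𝒮)) := by
  classical
  obtain ⟨r, j⟩ := t
  obtain ⟨hr0, hj, hcard⟩ := ht
  simp only at hr0 hj hcard
  refine dom_of_LP fun s0 s2 hs0 hs2 => ?_
  obtain ⟨r', -, hr', hfresh, hb', hJ'⟩ := hT.adj (act (s0 ∪ s2)) (sub_one_lt r) j ((Js' r).erase j)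
    (Finset.notMem_erase _ _) (by
      rw [Finset.insert_erase hj]
      intro e
      exact hn r (e ▸ Finset.mem_univ _))
  have hr'0 : r' < 0 := hr'.trans_le hr0
  have hr2 : r ≠ 2 := by
    intro e
    linarith
  have hr'2 : r' ≠ 2 := by
    intro e
    linarith
  have hPS : ∀ w : P ι, w ∈ PS (Set.Iic 0) → piv r r' (dl j - dl (bs' r)) w ∈ PS (Set.Iic 0) :=
    fun w hw => piv_mem_PS (S := Set.Iic 0) hr0 hr'0.le _ hw
  refine ⟨piv r r' (dl j - dl (bs' r)),
    h.lp_piv hr' _ _ fun v hv y hy hvy => hfresh y (mem_act.2 ⟨v, hv, hvy⟩) hy, ?_, ?_⟩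
  · intro v hv
    obtain ⟨i, -, -, t, rfl, e⟩ := hs0 hv
    rw [closed_sub_gam hr2] at e
    exact piv_eq_self e
  · intro v hv
    have hact : ∀ y, v.2 y ≠ 0 → y < r → y < r' := fun y hy =>
      hfresh y (mem_act.2 ⟨v, Finset.mem_union_right _ hv, hy⟩)
    rcases hs2 hv with ⟨i, hi, hw⟩ | ⟨i, hi, hw, ⟨s, j'⟩, hs, e⟩
    · refine Or.inl ⟨i, hi, ?_⟩
      rw [piv_sub_gam hr2.symm]
      exact ⟨hPS _ hw, (r, j), ⟨hr0, hj, Finset.card_le_univ _⟩, piv_self hr'.ne _ _⟩
    · refine Or.inr ⟨i, hi, ?_⟩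
      rw [piv_sub_gam hr2.symm]
      obtain ⟨hs0', hj', -⟩ := h2 hs
      simp only at hs0' hj' e
      refine ⟨hPS _ hw, ?_⟩
      by_cases hsr : s = r
      · subst hsr
        by_cases hjj : j' = j
        · subst hjj
          exact ⟨(s, j'), hs, piv_self hr'.ne _ _⟩
        · refine ⟨(r', j'), h1 ⟨hr'0.le, ?_, ?_⟩, ?_⟩
          · simp only
            rw [hJs r' hr'0, hJ']
            exact Finset.mem_erase.2 ⟨hjj, hj'⟩
          · simp only
            rw [hJs r' hr'0, hJ', Finset.card_erase_of_mem hj]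
            omega
          · have h0 : v.2 r' = 0 := by
              by_contra h0
              exact lt_irrefl _ (hact r' h0 hr')
            simp only
            rw [piv_new hr'.ne, e, closed_sub_gam hr'2, h0, hbs r' hr'0, hb']
            abel
      · refine ⟨(s, j'), hs, ?_⟩
        have hs2' : s ≠ 2 := by
          intro e
          linarith
        have hne : v.2 s ≠ 0 := by
          rw [← closed_sub_gam hs2' v (dl i), e, Ne, dl_sub_eq_zero]
          intro e'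
          exact hn s (e' ▸ hj')
        have hsr' : s ≠ r' := by
          rcases lt_or_gt_of_ne hsr with h3 | h3
          · exact (hact s hne h3).ne
          · exact (hr'.trans h3).ne'
        simp only
        rw [piv_other hsr hsr', e]

lemma closed_all (h : IsModel g p m) {bs bs' : ℚ → ι} {Js Js' : ℚ → Finset ι} (hT : Typ bs Js)
    (hbs : ∀ r, r < 0 → bs' r = bs r) (hJs : ∀ r, r < 0 → Js' r = Js r) (hn : ∀ r, bs' r ∉ Js' r)
    (U V : Set ι) (a : ℕ) :
    CI m (F (up 2 U (closedSL bs' (closedIdx Js' a)))) (F (up 2 V (PS (Set.Iic 0))))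
      (F (up 2 V (closedSL bs' (closedIdx Js' (Fintype.card ι))))) := by
  classical
  have hsub : up 2 V (closedSL bs' (closedIdx Js' (Fintype.card ι))) ⊆ up 2 V (PS (Set.Iic 0)) :=
    up_mono le_rfl fun _ hv => hv.1
  induction a with
  | zero =>
    refine CI_of_le (F_mono ?_) (F_mono hsub) (F_le _)
    rintro v ⟨i, -, -, s, ⟨-, h1, h2⟩, -⟩
    exact absurd (Finset.card_pos.2 ⟨_, h1⟩) (by omega)
  | succ a ih =>
    have key : ∀ L : Finset (ℚ × ι), (L : Set (ℚ × ι)) ⊆ closedIdx Js' (a + 1) →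
        CI m (F (up 2 U (closedSL bs' (L ∪ closedIdx Js' a)))) (F (up 2 V (PS (Set.Iic 0))))
          (F (up 2 V (closedSL bs' (closedIdx Js' (Fintype.card ι))))) := by
      intro L
      induction L using Finset.induction_on with
      | empty =>
        intro _
        rw [Finset.coe_empty, Set.empty_union]
        exact ih
      | insert t L _ ihL =>
        intro hL
        rw [Finset.coe_insert, Set.insert_subset_iff] at hL
        rw [Finset.coe_insert, Set.insert_eq, Set.union_assoc, closedSL_union, closed_up_union,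
          F_union]
        refine CI.join ?_ (ihL hL.2) (F_le _) (F_le _) (F_mono hsub) (F_le _)
        rw [← F_union, ← F_union]
        exact Dom.ci (closed_step h hT hbs hJs hn U V Set.subset_union_right
          (Set.union_subset hL.2 (closedIdx_mono _ (Nat.le_succ a))) hL.1)
          (Set.union_subset_union_left _ hsub)
    refine CI_of_cyl (F_mono hsub) (F_le _) fun f ⟨s, hs, hf⟩ => ?_
    obtain ⟨L, hL, hsL⟩ := closed_fin bs' _ U s hs
    exact key L hL f (Cyl.b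
      ⟨s, hsL.trans (up_mono le_rfl (closedSL_mono _ Set.subset_union_left)), hf⟩ m)

/-- Let `bs' = update bs 0 l`, `Js' = update Js 0 (univ.erase l)`, so that
`QB bs Js l = ⋃ {slice (r, j) | r ≤ 0, j ∈ Js' r}` with
`slice (r, j) = {v ∈ PS (Iic 0) | v.2 r = dl j - dl (bs' r)}`.  Let `Q a` be the union of the slices with
`#(Js' r) ≤ a`; `Q 0 = ∅` and `Q (card ι) = QB`.  Show `CI (F (up 2 U (Q a))) ℬ 𝒞` by induction on `a`.
For the step show by induction on a finite set `L` of slices with `#(Js' r) ≤ a + 1` that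
`CI (F (up 2 U (Q a ∪ ⋃ L))) ℬ 𝒞`, and conclude with `CI_of_cyl` (a cylinder function over
`up 2 U (Q (a+1))` lives on finitely many slices).  To add the slice `(r, j) ∉ L` use `CI.join` and
`dom_of_LP`/`Dom.ci` with `X0 = up 2 U (slice (r, j))`, `X2 = up 2 V (PS (Iic 0)) ∪ X0'`,
`X1 = up 2 V QB ∪ X0'`, `X0' = up 2 U (Q a ∪ ⋃ L)` and the map `piv r r' (dl j - dl (bs' r))`, where
`r' < r` is fresh of type `(j, (Js' r).erase j)` (`Typ.adj` with `C = act (s0 ∪ s2)`; note
`insert j ((Js' r).erase j) = Js' r ≠ univ` since `bs' r ∉ Js' r`).  This map (use `piv_sub_gam`)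
fixes `X0`, sends `up 2 V (PS (Iic 0))` into `up 2 V (slice (r, j))`, preserves the slices `(s, j')`
with `s ≠ r` (`s` is active there, so `s ≠ r'`), fixes the slice `(r, j)`, and sends the slices `(r, j')`,
`j' ≠ j`, into the slice `(r', j')`, which belongs to `Q a`. -/
theorem IsModel.closedQ (h : IsModel g p m) {bs : ℚ → ι} {Js : ℚ → Finset ι} (hT : Typ bs Js) (l : ι)
    (U V : Set ι) :
    CI m (F (up 2 U (QB bs Js l))) (F (up 2 V (PS (Set.Iic 0)))) (F (up 2 V (QB bs Js l))) := by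
  rw [closed_QB]
  refine closed_all h hT (fun r hr => Function.update_of_ne hr.ne _ _)
    (fun r hr => Function.update_of_ne hr.ne _ _) (fun r => ?_) U V _
  by_cases hr : r = 0
  · subst hr
    simp
  · rw [Function.update_of_ne hr, Function.update_of_ne hr]
    exact hT.nmem r

end Crest.Agent.R69
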