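import Crest.Agent.R69.Arr
import Crest.Agent.R69.CI

/-!
# R69: cylinder functions

TASK: replace the `sorry`s (statements must not change; add helper lemmas freely).
A function depending on the finite set `s` factors as `f̃ ∘ s.restrict` through the finite type
`s → (ι → Bool)` (`dependsOn_iff_exists_comp`-style argument, or `f (fun v => if v ∈ s then ω v else default)`).
-/

set_option autoImplicit false
set_option linter.unusedSectionVars false
open MeasureTheory ProbabilityTheory Filter Topology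
open scoped ComplexConjugate

namespace Crest.Agent.R69

variable {ι : Type} [Fintype ι] [DecidableEq ι] {X Y : Set (P ι)}

lemma F_le (X : Set (P ι)) : F X ≤ (MeasurableSpace.pi : MeasurableSpace (Om ι)) :=
  cylinderEvents_le_pi
lemma F_mono (h : X ⊆ Y) : F X ≤ F Y := cylinderEvents_mono h
lemma F_union (X Y : Set (P ι)) : F (X ∪ Y) = F X ⊔ F Y := iSup_union
lemma F_iUnion {κ : Sort*} (Z : κ → Set (P ι)) : F (⋃ k, Z k) = ⨆ k, F (Z k) := iSup_iUnion _ _
lemma F_empty : F (∅ : Set (P ι)) = ⊥ := iSup_emptyset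

lemma measurable_comp_pos {φ : P ι → P ι} (h : Set.MapsTo φ X Y) :
    Measurable[F Y, F X] (fun ω : Om ι => ω ∘ φ) :=
  (measurable_cylinderEvents_iff (mα := F Y)).2 fun _ hv => measurable_cylinderEvent_apply (h hv)
lemma measurable_comp_pos' (φ : P ι → P ι) : Measurable (fun ω : Om ι => ω ∘ φ) :=
  measurable_pi_iff.2 fun v => measurable_pi_apply (φ v)
lemma measurable_tr' (t : P ι) : Measurable (tr t : Om ι → Om ι) :=
  measurable_comp_pos' (· + t)
lemma measurable_tr {t : P ι} (h : ∀ v ∈ X, v + t ∈ Y) : Measurable[F Y, F X] (tr t) :=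
  measurable_comp_pos (φ := (· + t)) h
lemma comap_tr (t : P ι) (X : Set (P ι)) : (F X).comap (tr t) = F (sh t X) := by
  apply le_antisymm
  · exact (measurable_tr (X := X) (Y := sh t X) fun v hv => by simpa [mem_sh] using hv).comap_le
  · refine iSup₂_le fun v hv => ?_
    have h1 : Measurable[(F X).comap (tr t)] fun ω : Om ι => tr t ω (v - t) :=
      (measurable_cylinderEvent_apply (X := fun _ : P ι => ι → Bool) (Δ := X) hv).comp
        (comap_measurable (tr t))
    simp only [tr_apply, sub_add_cancel] at h1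
    exact h1.comap_le

/-- an `F X`-measurable function does not look at positions outside `X` -/
lemma dependsOn_of_measurable {β : Type*} [MeasurableSpace β] [MeasurableSingletonClass β]
    {f : Om ι → β} (hf : Measurable[F X] f) : DependsOn f X := by
  have key : ∀ x y : Om ι, (∀ i ∈ X, x i = y i) → ∀ s, MeasurableSet[F X] s → (x ∈ s ↔ y ∈ s) := by
    intro x y h
    let m : MeasurableSpace (Om ι) :=
      { MeasurableSet' := fun s => x ∈ s ↔ y ∈ s
        measurableSet_empty := Iff.rfl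
        measurableSet_compl := fun s hs => not_congr hs
        measurableSet_iUnion := fun g hg => by simp only [Set.mem_iUnion]; exact exists_congr hg }
    have : F X ≤ m := by
      refine iSup₂_le fun v hv => ?_
      rintro _ ⟨u, -, rfl⟩
      show x v ∈ u ↔ y v ∈ u
      rw [h v hv]
    exact this
  intro x y h
  exact (key x y h _ (hf (measurableSet_singleton (f y)))).2 rfl

section Cyl
variable {β γ : Type} {f g : Om ι → ℂ}

lemma Cyl.mono {f : Om ι → β} (hf : Cyl X f) (h : X ⊆ Y) : Cyl Y f :=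
  let ⟨s, hs, hd⟩ := hf; ⟨s, hs.trans h, hd⟩
lemma Cyl.const (c : β) : Cyl X (fun _ : Om ι => c) :=
  ⟨∅, by simp, fun _ _ _ => rfl⟩
lemma Cyl.map {f : Om ι → β} (hf : Cyl X f) (u : β → γ) : Cyl X (fun ω => u (f ω)) :=
  let ⟨s, hs, hd⟩ := hf; ⟨s, hs, fun _ _ h => congrArg u (hd h)⟩
lemma Cyl.map₂ {δ : Type} {f : Om ι → β} {g : Om ι → γ} (hf : Cyl X f) (hg : Cyl X g)
    (u : β → γ → δ) : Cyl X (fun ω => u (f ω) (g ω)) := by
  classical
  obtain ⟨s, hs, hd⟩ := hf
  obtain ⟨t, ht, he⟩ := hg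
  refine ⟨s ∪ t, by simp [hs, ht], fun x y h => ?_⟩
  show u (f x) (g x) = u (f y) (g y)
  rw [hd fun i hi => h i (by simp [Finset.mem_coe.1 hi]),
    he fun i hi => h i (by simp [Finset.mem_coe.1 hi])]
lemma Cyl.prod {κ : Type*} [CommMonoid β] (s : Finset κ) {a : κ → Om ι → β}
    (h : ∀ i ∈ s, Cyl X (a i)) : Cyl X (fun ω => ∏ i ∈ s, a i ω) := by
  induction s using Finset.cons_induction with
  | empty => simpa using Cyl.const 1
  | cons i s hi ih =>
    simp only [Finset.prod_cons]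
    exact (h i (Finset.mem_cons_self _ _)).map₂
      (ih fun j hj => h j (Finset.mem_cons_of_mem hj)) (· * ·)
lemma Cyl.sum {κ : Type*} [AddCommMonoid β] (s : Finset κ) {a : κ → Om ι → β}
    (h : ∀ i ∈ s, Cyl X (a i)) : Cyl X (fun ω => ∑ i ∈ s, a i ω) := by
  induction s using Finset.cons_induction with
  | empty => simpa using Cyl.const 0
  | cons i s hi ih =>
    simp only [Finset.sum_cons]
    exact (h i (Finset.mem_cons_self _ _)).map₂
      (ih fun j hj => h j (Finset.mem_cons_of_mem hj)) (· + ·)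
lemma Cyl.comp_pos {f : Om ι → β} (hf : Cyl X f) {φ : P ι → P ι} (h : Set.MapsTo φ X Y) :
    Cyl Y (fun ω => f (ω ∘ φ)) := by
  classical
  obtain ⟨s, hs, hd⟩ := hf
  refine ⟨s.image φ, ?_, fun x y hxy => hd fun v hv => hxy _ ?_⟩
  · rw [Finset.coe_image]
    exact (h.mono_left hs).image_subset
  · exact Finset.mem_coe.2 (Finset.mem_image_of_mem φ (Finset.mem_coe.1 hv))
lemma Cyl.tr {f : Om ι → β} (hf : Cyl X f) {t : P ι} (h : ∀ v ∈ X, v + t ∈ Y) :
    Cyl Y (fun ω => f (tr t ω)) := hf.comp_pos (φ := (· + t)) h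
lemma Cyl.eval {v : P ι} (hv : v ∈ X) : Cyl X (fun ω : Om ι => ω v) :=
  ⟨{v}, by simpa, fun _ _ h => h v (by simp)⟩
/-- a cylinder function factors through a finite type -/
lemma Cyl.fac {f : Om ι → β} (hf : Cyl X f) : ∃ s : Finset (P ι), (s : Set (P ι)) ⊆ X ∧
    ∃ u : (s → ι → Bool) → β, f = fun ω => u fun v => ω v := by
  obtain ⟨s, hs, hd⟩ := hf
  have : Nonempty β := ⟨f default⟩
  exact ⟨s, hs, dependsOn_iff_exists_comp.1 hd⟩
lemma Cyl.finite_range {f : Om ι → β} (hf : Cyl X f) : (Set.range f).Finite := by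
  obtain ⟨s, -, u, rfl⟩ := hf.fac
  exact (Set.finite_range u).subset (by rintro _ ⟨ω, rfl⟩; exact ⟨_, rfl⟩)
lemma Cyl.measurable [MeasurableSpace β] {f : Om ι → β} (hf : Cyl X f) : Measurable[F X] f := by
  obtain ⟨s, hs, u, rfl⟩ := hf.fac
  refine (measurable_of_finite u).comp ?_
  exact (@measurable_pi_iff _ _ _ (F X) _ _).2 fun v => measurable_cylinderEvent_apply (hs v.2)
lemma Cyl.continuous [TopologicalSpace β] {f : Om ι → β} (hf : Cyl X f) : Continuous f := by
  obtain ⟨s, -, u, rfl⟩ := hf.fac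
  exact (continuous_of_discreteTopology (f := u)).comp (continuous_pi fun v => continuous_apply _)
lemma Cyl.sb (hf : Cyl X f) : SB (F X) f := by
  refine ⟨hf.measurable, ?_⟩
  obtain ⟨C, hC⟩ := (hf.map (‖·‖)).finite_range.bddAbove
  exact ⟨C, fun ω => hC ⟨ω, rfl⟩⟩
lemma Cyl.b (hf : Cyl X f) (μ : Measure (Om ι)) : B μ (F X) f := hf.sb.b
lemma Cyl.integrable {E : Type} [NormedAddCommGroup E] {f : Om ι → E} (hf : Cyl X f)
    (μ : Measure (Om ι)) [IsFiniteMeasure μ] : Integrable f μ := by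
  obtain ⟨C, hC⟩ := (hf.map (‖·‖)).finite_range.bddAbove
  refine Integrable.of_bound ?_ C (ae_of_all _ fun ω => hC ⟨ω, rfl⟩)
  obtain ⟨s, -, u, rfl⟩ := hf.fac
  exact ((StronglyMeasurable.of_discrete (f := u)).comp_measurable
    (measurable_pi_iff.2 fun v => measurable_pi_apply _)).aestronglyMeasurable
end Cyl

/-- the cylinder sets over `X` -/
def cylS (X : Set (P ι)) : Set (Set (Om ι)) := {s | Cyl X (fun ω => ω ∈ s)}

lemma cylS_univ (X : Set (P ι)) : Set.univ ∈ cylS X := Cyl.const True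
lemma isSetAlgebra_cylS (X : Set (P ι)) : IsSetAlgebra (cylS X) :=
  ⟨Cyl.const False, fun _ hs => Cyl.map hs Not, fun _ _ hs ht => Cyl.map₂ hs ht Or⟩
lemma measurableSet_of_cylS {s : Set (Om ι)} (hs : s ∈ cylS X) : MeasurableSet[F X] s :=
  (@measurableSet_setOfPred _ (F X) _).2 (Cyl.measurable hs)
lemma isPiSystem_cylS (X : Set (P ι)) : IsPiSystem (cylS X) :=
  fun _ hs _ ht _ => Cyl.map₂ hs ht And
lemma F_eq_generateFrom (X : Set (P ι)) : F X = MeasurableSpace.generateFrom (cylS X) := by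
  apply le_antisymm
  · refine iSup₂_le fun v hv => ?_
    rintro _ ⟨u, -, rfl⟩
    exact MeasurableSpace.measurableSet_generateFrom ((Cyl.eval hv).map (· ∈ u))
  · exact MeasurableSpace.generateFrom_le fun _ => measurableSet_of_cylS
lemma countable_cylS (X : Set (P ι)) : (cylS X).Countable := by
  refine (Set.countable_iUnion fun s : Finset (P ι) => (Set.finite_range
    fun u : (s → ι → Bool) → Prop => {ω : Om ι | u fun v => ω v}).countable).mono fun t ht => ?_
  obtain ⟨s, -, u, hu⟩ := Cyl.fac ht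
  exact Set.mem_iUnion.2 ⟨s, u, hu.symm⟩
lemma cylS_indicator {s : Set (Om ι)} (hs : s ∈ cylS X) {β : Type} [Zero β] (c : β) :
    Cyl X (s.indicator fun _ => c) := by
  classical
  exact Cyl.map hs fun p => if p then c else 0

/-- two finite measures agreeing on cylinder sets over `X` agree on `F X` -/
lemma measure_eq_on_F {μ ν : Measure (Om ι)} [IsFiniteMeasure μ] [IsFiniteMeasure ν]
    (h : ∀ s ∈ cylS X, μ s = ν s) : ∀ s, MeasurableSet[F X] s → μ s = ν s := by
  intro s hs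
  rw [← trim_measurableSet_eq (F_le X) hs, ← trim_measurableSet_eq (F_le X) hs]
  have key : ∀ t ∈ cylS X, μ.trim (F_le X) t = ν.trim (F_le X) t := fun t ht => by
    rw [trim_measurableSet_eq _ (measurableSet_of_cylS ht),
      trim_measurableSet_eq _ (measurableSet_of_cylS ht), h t ht]
  rw [ext_of_generate_finite (cylS X) (F_eq_generateFrom X) (isPiSystem_cylS X) key
    (key _ (cylS_univ X))]

variable {μ : Measure (Om ι)} [IsProbabilityMeasure μ]

lemma dense_of_algebra {Ω : Type*} {m : MeasurableSpace Ω} {ν : Measure Ω} [IsFiniteMeasure ν]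
    {𝒜 : Set (Set Ω)} (h𝒜 : IsSetAlgebra 𝒜) (hgen : m = MeasurableSpace.generateFrom 𝒜)
    {p : ENNReal} (hp : p ≠ ⊤) (Q : (Ω → ℂ) → Prop)
    (h0 : ∀ (c : ℂ), ∀ t ∈ 𝒜, Q (t.indicator fun _ => c)) (h1 : ∀ f g, Q f → Q g → Q (f + g))
    (h2 : ∀ f, Q f → Measurable f) {f : Ω → ℂ} (hf : MemLp f p ν) {ε : ENNReal} (hε : ε ≠ 0) :
    ∃ g, eLpNorm (f - g) p ν ≤ ε ∧ Q g := by
  have hd := Measure.MeasureDense.of_generateFrom_isSetAlgebra_finite ν h𝒜 hgen
  refine MemLp.induction_dense hp Q (fun c s hs hμ δ hδ => ?_) h1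
    (fun _ h => (h2 _ h).aestronglyMeasurable) hf hε
  obtain ⟨η, hη, H⟩ := exists_eLpNorm_indicator_le (μ := ν) hp c hδ
  obtain ⟨t, ht, h⟩ := hd.approx s hs hμ.ne η hη
  refine ⟨_, ?_, h0 c t ht⟩
  rw [eLpNorm_indicator_sub_indicator, symmDiff_comm]
  exact H _ (h.le.trans_eq ENNReal.ofReal_coe_nnreal)

lemma Cyl.dense_eLp {p : ENNReal} (hp : p ≠ ⊤) {f : Om ι → ℂ} (hf : MemLp f p μ)
    (hf' : AEStronglyMeasurable[F X] f μ) {ε : ENNReal} (hε : ε ≠ 0) :
    ∃ a : Om ι → ℂ, Cyl X a ∧ eLpNorm (f - a) p μ ≤ ε := by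
  have hm := hf'.stronglyMeasurable_mk
  have hg : MemLp (hf'.mk f) p (μ.trim (F_le X)) := ⟨hm.aestronglyMeasurable, by
    rw [eLpNorm_trim _ hm, eLpNorm_congr_ae hf'.ae_eq_mk.symm]; exact hf.2⟩
  obtain ⟨a, h1, h2⟩ := dense_of_algebra (isSetAlgebra_cylS X) (F_eq_generateFrom X) hp (Cyl X)
    (fun c _ ht => cylS_indicator ht c) (fun _ _ h h' => h.map₂ h' (· + ·))
    (fun _ h => h.measurable) hg hε
  refine ⟨a, h2, ?_⟩
  rwa [eLpNorm_trim _ (hm.sub (Cyl.measurable h2).stronglyMeasurable),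
    eLpNorm_congr_ae (hf'.ae_eq_mk.symm.sub (ae_eq_refl a))] at h1

/-- Cylinder functions are dense in `L²(F X)`.  E.g. the cylinder functions form a subspace `V` of
`Lp ℂ 2 μ`; `f` minus its projection on the closure of `V` is `F X`-measurable and orthogonal to all
cylinder indicators, so vanishes by `ce_eq_zero_of_pi`. -/
lemma Cyl.dense {f : Om ι → ℂ} (hf : MemLp f 2 μ) (hf' : AEStronglyMeasurable[F X] f μ) {ε : ℝ}
    (hε : 0 < ε) : ∃ a : Om ι → ℂ, Cyl X a ∧ ∫ ω, ‖f ω - a ω‖ ^ 2 ∂μ ≤ ε := by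
  obtain ⟨a, ha, h⟩ := Cyl.dense_eLp ENNReal.ofNat_ne_top hf hf'
    (ε := ENNReal.ofReal √ε) (by simpa using hε)
  refine ⟨a, ha, ?_⟩
  rw [(hf.sub ((ha.b μ).memLp (F_le X) 2)).eLpNorm_eq_integral_rpow_norm two_ne_zero
    ENNReal.ofNat_ne_top, ENNReal.ofReal_le_ofReal_iff (Real.sqrt_nonneg _)] at h
  simp only [ENNReal.toReal_ofNat, Real.rpow_ofNat, Pi.sub_apply, ← one_div,
    ← Real.sqrt_eq_rpow] at h
  exact (Real.sqrt_le_sqrt_iff hε.le).1 h

lemma Cyl.dense_L1 {f : Om ι → ℂ} (hf : B μ (F X) f) {ε : ℝ} (hε : 0 < ε) :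
    ∃ a : Om ι → ℂ, Cyl X a ∧ ∫ ω, ‖f ω - a ω‖ ∂μ ≤ ε := by
  obtain ⟨a, ha, h⟩ := Cyl.dense (hf.memLp (F_le X) 2) hf.1 (pow_pos hε 2)
  refine ⟨a, ha, (int_norm_le_sqrt ((hf.sub (ha.b μ)).memLp (F_le X) 2)).trans ?_⟩
  exact Real.sqrt_le_iff.2 ⟨hε.le, h⟩

lemma indep_of_cyl (h : ∀ f g : Om ι → ℂ, Cyl X f → Cyl Y g →
    ∫ ω, f ω * g ω ∂μ = (∫ ω, f ω ∂μ) * ∫ ω, g ω ∂μ) : Indep (F X) (F Y) μ := by
  refine IndepSets.indep (F_le X) (F_le Y) (isPiSystem_cylS X) (isPiSystem_cylS Y)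
    (F_eq_generateFrom X) (F_eq_generateFrom Y) ((IndepSets_iff _ _ _).2 fun s t hs ht => ?_)
  have h1 := h _ _ (cylS_indicator hs 1) (cylS_indicator ht 1)
  have hs' := F_le X s (measurableSet_of_cylS hs)
  have ht' := F_le Y t (measurableSet_of_cylS ht)
  simp only [← Set.inter_indicator_mul, mul_one] at h1
  rw [integral_indicator_const _ hs', integral_indicator_const _ ht',
    integral_indicator_const _ (hs'.inter ht')] at h1
  simp only [Complex.real_smul, mul_one, ← Complex.ofReal_mul, Complex.ofReal_inj,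
    measureReal_def, ← ENNReal.toReal_mul] at h1
  exact (ENNReal.toReal_eq_toReal_iff' (by finiteness) (by finiteness)).1 h1

lemma CI_of_cyl {ℬ 𝒞 : MeasurableSpace (Om ι)} (h : 𝒞 ≤ ℬ) (hℬ : ℬ ≤ MeasurableSpace.pi)
    (H : ∀ f : Om ι → ℂ, Cyl X f → AEStronglyMeasurable[𝒞] (μ[f | ℬ]) μ) : CI μ (F X) ℬ 𝒞 :=
  CI_of_pi (isPiSystem_cylS X) (F_eq_generateFrom X) (F_le X) h hℬ
    fun _ hs => H _ (cylS_indicator hs 1)

/-- a map of positions that preserves the law on all finite sets is measure preserving -/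
lemma measurePreserving_of_LP {φ : P ι → P ι} (h : ∀ s, LP μ φ s) :
    MeasurePreserving (fun ω : Om ι => ω ∘ φ) μ μ := by
  refine ⟨measurable_comp_pos' φ, Measure.ext fun s hs => ?_⟩
  refine measure_eq_on_F (X := Set.univ) (fun t ht => ?_) s (by rwa [F, cylinderEvents_univ])
  have ht' := F_le _ t (measurableSet_of_cylS ht)
  obtain ⟨u, -, hu⟩ := cylS_indicator ht (1 : ℂ)
  have h1 := h u _ hu
  have h2 := integral_indicator_const (μ := μ) (1 : ℂ) (measurable_comp_pos' φ ht')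
  rw [integral_indicator_const _ ht'] at h1
  have h3 := h2.symm.trans h1
  rw [Measure.map_apply (measurable_comp_pos' φ) ht']
  simp only [Complex.real_smul, mul_one, Complex.ofReal_inj] at h3
  exact (measureReal_eq_measureReal_iff (by finiteness) (by finiteness)).1 h3

/-- `ce_comp_mp` and `comap_tr` -/
lemma ce_tr {t : P ι} (ht : MeasurePreserving (tr t) μ μ) {f : Om ι → ℂ} (hf : Integrable f μ)
    (X : Set (P ι)) :
    μ[fun ω => f (tr t ω) | F (sh t X)] =ᵐ[μ] fun ω => (μ[f | F X]) (tr t ω) := by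
  rw [← comap_tr]
  exact ce_comp_mp ht (F_le X) hf

end Crest.Agent.R69
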