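import Crest.Agent.R69.Closed
import Crest.Agent.R69.Cent

/-!
# R69: reduction to determined functions

Notation: `t i = gam 2 (dl i)`, rows `R U = F (up 2 U (PS (Iic 0)))` (independent for disjoint `U, V` with
`U ∪ V ≠ univ`: `indep_up` and monotonicity), `Z U = F (up 2 U (PS ∅))`, `Q U = F (up 2 U QB)`,
`Λ f = ∫ ∏ i, f i (tr (t i) ω)`.  A function `ξ` that is a.e. `Z {i}`- and `Q {i}`-measurable is
`f ∘ tr (t i)` with `f = ξ ∘ tr (-t i)` a.e. `F (PS ∅)`- and `F QB`-measurable (`aesm_comp_mp`,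
`measurable_tr`, `mp_tr`).
-/

set_option autoImplicit false
set_option linter.unusedSectionVars false
open MeasureTheory ProbabilityTheory Filter Topology
open scoped ComplexConjugate

namespace Crest.Agent.R69

variable {ι : Type} [Fintype ι] [DecidableEq ι] {g : ℕ → ι → ℕ} {p : Ultrafilter ℕ}
  {m : Measure (Om ι)} [IsProbabilityMeasure m]

lemma IsModel.ds_indep (h : IsModel g p m) {U V : Set ι} (hUV : Disjoint U V) (hne : U ∪ V ≠ Set.univ) :
    Indep (F (up 2 U (PS (Set.Iic 0)))) (F (up 2 V (PS (Set.Iic 0)))) m := by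
  have hs : (PS (Set.Iic 0) : Set (P ι)) ⊆ PS (Set.Iio 2) :=
    PS_mono fun y hy => lt_of_le_of_lt (Set.mem_Iic.mp hy) (by norm_num)
  exact indep_of_indep_of_le (h.indep_up hUV hne 2) (F_mono (up_mono le_rfl hs)) (F_mono (up_mono le_rfl hs))

/-- closed families -/
def DsClosed (m : Measure (Om ι)) (X : Set (P ι)) : Prop :=
  X ⊆ PS (Set.Iic 0) ∧
    ∀ U V : Set ι, CI m (F (up 2 U X)) (F (up 2 V (PS (Set.Iic 0)))) (F (up 2 V X))

lemma IsModel.dsZ (h : IsModel g p m) : DsClosed m (PS ∅) := ⟨PS_mono (Set.empty_subset _), h.closedZ⟩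

lemma IsModel.dsQ (h : IsModel g p m) {bs : ℚ → ι} {Js : ℚ → Finset ι} (hT : Typ bs Js) (l : ι) :
    DsClosed m (QB bs Js l) :=
  ⟨fun _ hv => hv.elim (fun h => h.1) (fun h => h.1), h.closedQ hT l⟩

lemma DsClosed.le {X : Set (P ι)} (hX : DsClosed m X) (U : Set ι) :
    F (up 2 U X) ≤ F (up 2 U (PS (Set.Iic 0))) := F_mono (up_mono le_rfl hX.1)

lemma DsClosed.ci {X : Set (P ι)} (hX : DsClosed m X) (U V W : Set ι) :
    CI m (F (up 2 U X)) (F (up 2 V (PS (Set.Iic 0))) ⊔ F (up 2 W (PS (Set.Iic 0))))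
      (F (up 2 V X) ⊔ F (up 2 W X)) := by
  have h1 := hX.2 U (V ∪ W)
  rw [up_union, up_union, F_union, F_union] at h1
  exact h1

lemma DsClosed.ciR {X : Set (P ι)} (hX : DsClosed m X) (U V W : Set ι) :
    CI m (F (up 2 U X)) (F (up 2 V (PS (Set.Iic 0))) ⊔ F (up 2 W (PS (Set.Iic 0))))
      (F (up 2 V (PS (Set.Iic 0))) ⊔ F (up 2 W X)) :=
  (hX.ci U V W).mono_right (sup_le_sup_right (hX.le V) _)

lemma DsClosed.ciL {X : Set (P ι)} (hX : DsClosed m X) (U V W : Set ι) :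
    CI m (F (up 2 U X)) (F (up 2 V (PS (Set.Iic 0))) ⊔ F (up 2 W (PS (Set.Iic 0))))
      (F (up 2 V X) ⊔ F (up 2 W (PS (Set.Iic 0)))) :=
  (hX.ci U V W).mono_right (sup_le_sup_left (hX.le W) _)

lemma IsModel.ds_up (h : IsModel g p m) {X : Set (P ι)} {U : Set ι} {i : ι} (hi : i ∈ U) {f : Om ι → ℂ}
    (hf : B m (F X) f) : B m (F (up 2 U X)) (fun ω => f (tr (gam 2 (dl i)) ω)) :=
  B.comp_mp (𝒢 := F X) (𝒢' := F (up 2 U X)) (h.mp_tr _)
    (measurable_tr fun v hv => ⟨i, hi, by simpa using hv⟩) hf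

lemma IsModel.ds_down (h : IsModel g p m) {X : Set (P ι)} {i : ι} {f : Om ι → ℂ}
    (hf : AEStronglyMeasurable[F (up 2 {i} X)] f m) :
    AEStronglyMeasurable[F X] (fun ω => f (tr (-gam 2 (dl i)) ω)) m := by
  refine aesm_comp_mp (𝒢 := F (up 2 {i} X)) (𝒢₁ := F X) (h.mp_tr _) (measurable_tr fun v hv => ?_) hf
  obtain ⟨j, hj, hv⟩ := hv
  rw [Set.mem_singleton_iff.mp hj] at hv
  rwa [← sub_eq_add_neg]

lemma IsModel.ds_downB (h : IsModel g p m) {X : Set (P ι)} {i : ι} {f : Om ι → ℂ}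
    (hf : B m (F (up 2 {i} X)) f) : B m (F X) (fun ω => f (tr (-gam 2 (dl i)) ω)) := by
  obtain ⟨h1, C, hC⟩ := hf
  exact ⟨h.ds_down h1, C, (h.mp_tr _).quasiMeasurePreserving.ae hC⟩

lemma IsModel.ds_int_tr (h : IsModel g p m) (s : P ι) {G : Om ι → ℂ} (hG : AEStronglyMeasurable G m) :
    ∫ ω, G (tr s ω) ∂m = ∫ ω, G ω ∂m := by
  have hmp := h.mp_tr s
  rw [← integral_map hmp.measurable.aemeasurable (by rwa [hmp.map_eq]), hmp.map_eq]

lemma ds_prod_update (f : ι → Om ι → ℂ) (i : ι) (f' : Om ι → ℂ) (θ : ι → Om ι) :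
    ∏ j, Function.update f i f' j (θ j) = f' (θ i) * ∏ j ∈ Finset.univ.erase i, f j (θ j) := by
  rw [← Finset.mul_prod_erase Finset.univ _ (Finset.mem_univ i), Function.update_self]
  congr 1
  exact Finset.prod_congr rfl fun j hj => by rw [Function.update_of_ne (Finset.ne_of_mem_erase hj)]

/-- the product of the other factors -/
noncomputable def dsPr (f : ι → Om ι → ℂ) (i : ι) (ω : Om ι) : ℂ :=
  ∏ j ∈ Finset.univ.erase i, f j (tr (gam 2 (dl j)) ω)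

lemma IsModel.dsZ_b (h : IsModel g p m) {f : ι → Om ι → ℂ} (hf : ∀ j, B m (F (PS ∅)) (f j)) (i : ι) :
    B m MeasurableSpace.pi (dsPr f i) :=
  B.prod _ fun j _ => (h.ds_up (Set.mem_univ j) (hf j)).mono (F_le _)

lemma IsModel.ds_cent (h : IsModel g p m) {X : Set (P ι)} (hX : DsClosed m X) {a i : ι} (hai : a ≠ i)
    {f : ι → Om ι → ℂ} (hf : ∀ j, B m (F (PS ∅)) (f j)) (ha : AEStronglyMeasurable[F X] (f a) m) :
    AEStronglyMeasurable[F (up 2 {i} X)] (m[dsPr f i | F (up 2 {i} (PS (Set.Iic 0)))]) m := by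
  have hind : Indep (F (up 2 ({a, i}ᶜ : Set ι) (PS (Set.Iic 0)))) (F (up 2 {i} (PS (Set.Iic 0)))) m := by
    refine h.ds_indep (by simp) fun he => ?_
    have : a ∈ (({a, i}ᶜ : Set ι) ∪ {i}) := by rw [he]; trivial
    simp [hai] at this
  have hci := cent1 (B0 := F (up 2 {a} X)) (𝒴 := F (up 2 ({a, i}ᶜ : Set ι) (PS (Set.Iic 0))))
    (𝒵 := F (up 2 {i} (PS (Set.Iic 0)))) (B2 := F (up 2 {i} X)) (F_le _) (F_le _) (F_le _) (hX.le _) hind
    (hX.ciR _ _ _)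
  refine hci _ (B.prod _ fun j hj => ?_)
  by_cases hja : j = a
  · subst hja
    exact (h.ds_up (Set.mem_singleton j) ((hf j).of_aesm ha)).mono le_sup_left
  · have hj' : j ∈ ({a, i}ᶜ : Set ι) := by simp [hja, Finset.ne_of_mem_erase hj]
    exact ((h.ds_up hj' (hf j)).mono (h.dsZ.le _)).mono le_sup_right

lemma IsModel.ds_lam (h : IsModel g p m) {f : ι → Om ι → ℂ} (hf : ∀ j, B m (F (PS ∅)) (f j)) (i : ι)
    {u : Om ι → ℂ} (hu : B m (F (PS ∅)) u) :
    ∫ ω, ∏ j, Function.update f i u j (tr (gam 2 (dl j)) ω) ∂m =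
      ∫ ω, u (tr (gam 2 (dl i)) ω) * (m[dsPr f i | F (up 2 {i} (PS (Set.Iic 0)))]) ω ∂m := by
  have h1 : B m (F (up 2 {i} (PS (Set.Iic 0)))) (fun ω => u (tr (gam 2 (dl i)) ω)) :=
    (h.ds_up (Set.mem_singleton i) hu).mono (h.dsZ.le _)
  rw [int_mul_ce h1 (F_le _) ((h.dsZ_b hf i).integrable le_rfl)]
  refine integral_congr_ae (Eventually.of_forall fun ω => ?_)
  exact ds_prod_update f i u fun j => tr (gam 2 (dl j)) ω

lemma IsModel.ds_finish (h : IsModel g p m) {X : Set (P ι)} {f : ι → Om ι → ℂ}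
    (hf : ∀ j, B m (F (PS ∅)) (f j)) (i : ι) (c : ℂ) {ξ : Om ι → ℂ}
    (hξ : ξ = m[dsPr f i | F (up 2 {i} (PS (Set.Iic 0)))])
    (hZ : AEStronglyMeasurable[F (up 2 {i} (PS ∅))] ξ m) (hQ : AEStronglyMeasurable[F (up 2 {i} X)] ξ m)
    (hc : c * ∫ ω, conj (ξ ω - c) ∂m = 0) (hne : ¬ ξ =ᵐ[m] fun _ => c) :
    ∃ f' : Om ι → ℂ, B m (F (PS ∅)) f' ∧ AEStronglyMeasurable[F X] f' m ∧
      ∫ ω, f' ω ∂m = ∫ ω, conj (ξ ω - c) ∂m ∧
      ∫ ω, ∏ j, Function.update f i f' j (tr (gam 2 (dl j)) ω) ∂m ≠ 0 := by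
  have hb : B m (F (up 2 {i} (PS ∅))) ξ := by
    refine B.of_aesm (𝒢 := F (up 2 {i} (PS (Set.Iic 0)))) ?_ hZ
    rw [hξ]
    exact (h.dsZ_b hf i).condExp _
  have hb1 : B m (F (up 2 {i} (PS ∅))) (fun ω => ξ ω - c) := hb.sub (B.const c)
  have hb2 : B m (F (up 2 {i} X)) (fun ω => conj (ξ ω - c)) := ((hb.of_aesm hQ).sub (B.const c)).conj
  have hb3 := h.ds_downB hb1.conj
  refine ⟨fun ω => conj (ξ (tr (-gam 2 (dl i)) ω) - c), hb3, (h.ds_downB hb2).1,
    h.ds_int_tr _ (G := fun ω => conj (ξ ω - c)) (hb2.mono (F_le _)).1, ?_⟩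
  rw [h.ds_lam hf i hb3, ← hξ]
  simp only [tr_tr, neg_add_cancel, tr_zero]
  have e1 : ∫ ω, conj (ξ ω - c) * ξ ω ∂m =
      ∫ ω, (ξ ω - c) * conj (ξ ω - c) ∂m + c * ∫ ω, conj (ξ ω - c) ∂m := by
    rw [← integral_const_mul, ← integral_add ((hb1.mul hb1.conj).integrable (F_le _))
      (((B.const c).mul hb1.conj).integrable (F_le _))]
    refine integral_congr_ae (Eventually.of_forall fun ω => ?_)
    dsimp only
    ring
  rw [e1, hc, add_zero, int_mul_conj]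
  intro h0
  apply hne
  have h1 := ae_zero_of_int_sq (hb1.memLp (F_le _) 2) (le_of_eq (Complex.ofReal_eq_zero.mp h0))
  filter_upwards [h1] with ω hω
  exact sub_eq_zero.mp hω

/-- First step.  Let `z = ∏_{i ≠ l} f i ∘ tr (t i)`, `ξ = E[z | R {l}]`.
* `ξ ∈ Z {l}` by `cent1` (pick `i0` in group `0`; `B0 = Z {i0}`, `𝒴 = R {i0, l}ᶜ`, `closedZ`).
* `ξ ∈ Q {l}` by `determined` with `K0, K1, K2 = R (gr ⁻¹' {0}), R (gr ⁻¹' {1}), R {l}`, `B = Z`, `B' = Q`
  (`closedZ`, `closedQ`, `CI.mono_right`), and `η = ∏_{i ≠ l} f i ∘ tr (gam 0 (dl i - dl l) + t l)`;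
  `ξ = E[η | Z {l}]` (`ce_eq_of_forall_B`) because for `u = u' ∘ tr (t l)` both `∫ η u` (translate by
  `gam 0 (dl l) - t l`) and `∫ z u` are the limit in `lim_top` (at `c = 0` and `c = 2`) of the same sequence.
* `∫ ξ = ∫ z = ∏_{i ≠ l} ∫ f i` (`top_prod`), so `Λ f - ∏ ∫ f i = ∫ (x - ∫ x)(ξ - ∫ ξ) ≠ 0` with
  `x = f l ∘ tr (t l)`; hence `ξ - ∫ ξ ≠ 0`.  Take `f' = conj (ξ - ∫ ξ) ∘ tr (-t l)`; then
  `∫ f' (tr (t l)) z = ∫ ‖ξ - ∫ ξ‖² ≠ 0`. -/
theorem IsModel.dstep_last (h : IsModel g p m) {bs : ℚ → ι} {Js : ℚ → Finset ι} (hT : Typ bs Js)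
    {l : ι} {gr : ι → Fin 3} (hG : Grp l gr) (f : ι → Om ι → ℂ) (hf : ∀ i, Cyl (PS ∅) (f i))
    (hne : ∫ ω, ∏ i, f i (tr (gam 2 (dl i)) ω) ∂m ≠ ∏ i, ∫ ω, f i ω ∂m) :
    ∃ f' : Om ι → ℂ, B m (F (PS ∅)) f' ∧ AEStronglyMeasurable[F (QB bs Js l)] f' m ∧
      ∫ ω, f' ω ∂m = 0 ∧
      ∫ ω, ∏ i, Function.update f l f' i (tr (gam 2 (dl i)) ω) ∂m ≠ 0 := by
  have hfb : ∀ i, B m (F (PS ∅)) (f i) := fun i => (hf i).b m
  have hgl : gr l = 2 := (hG.last l).mpr rfl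
  obtain ⟨i0, hi0⟩ := hG.surj 0
  obtain ⟨i1, hi1⟩ := hG.surj 1
  have hi0l : i0 ≠ l := by
    rintro rfl
    rw [hgl] at hi0
    exact absurd hi0 (by decide)
  have hi1l : i1 ≠ l := by
    rintro rfl
    rw [hgl] at hi1
    exact absurd hi1 (by decide)
  set ξ := m[dsPr f l | F (up 2 {l} (PS (Set.Iic 0)))] with hξ
  have hzb := h.dsZ_b hfb l
  have hZ : AEStronglyMeasurable[F (up 2 {l} (PS ∅))] ξ m := h.ds_cent h.dsZ hi0l hfb (hfb i0).1
  have hQ : AEStronglyMeasurable[F (up 2 {l} (QB bs Js l))] ξ m := by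
    have h01 : Indep (F (up 2 (gr ⁻¹' {0}) (PS (Set.Iic 0)))) (F (up 2 (gr ⁻¹' {1}) (PS (Set.Iic 0)))) m := by
      refine h.ds_indep (Disjoint.preimage gr (by simp)) fun he => ?_
      have : l ∈ (gr ⁻¹' {0} ∪ gr ⁻¹' {1} : Set ι) := by rw [he]; trivial
      simp [hgl] at this
    have h02 : Indep (F (up 2 (gr ⁻¹' {0}) (PS (Set.Iic 0)))) (F (up 2 {l} (PS (Set.Iic 0)))) m := by
      refine h.ds_indep (by simp [hgl]) fun he => ?_
      have : i1 ∈ (gr ⁻¹' {0} ∪ {l} : Set ι) := by rw [he]; trivial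
      simp [hi1, hi1l] at this
    have h12 : Indep (F (up 2 (gr ⁻¹' {1}) (PS (Set.Iic 0)))) (F (up 2 {l} (PS (Set.Iic 0)))) m := by
      refine h.ds_indep (by simp [hgl]) fun he => ?_
      have : i0 ∈ (gr ⁻¹' {1} ∪ {l} : Set ι) := by rw [he]; trivial
      simp [hi0, hi0l] at this
    have hz : B m (F (up 2 (gr ⁻¹' {0}) (PS (Set.Iic 0))) ⊔ F (up 2 (gr ⁻¹' {1}) (PS (Set.Iic 0))))
        (dsPr f l) := by
      refine B.prod _ fun j hj => ?_
      have hj2 : gr j ≠ 2 := fun he => Finset.ne_of_mem_erase hj ((hG.last j).mp he)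
      have hj3 : gr j = 0 ∨ gr j = 1 := by
        revert hj2
        generalize gr j = x
        revert x
        decide
      rcases hj3 with hj3 | hj3
      · exact ((h.ds_up (U := gr ⁻¹' {0}) hj3 (hfb j)).mono (h.dsZ.le _)).mono le_sup_left
      · exact ((h.ds_up (U := gr ⁻¹' {1}) hj3 (hfb j)).mono (h.dsZ.le _)).mono le_sup_right
    set η : Om ι → ℂ := fun ω => ∏ j ∈ Finset.univ.erase l,
      f j (tr (gam 0 (dl j - dl l) + gam 2 (dl l)) ω) with hη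
    have hηb : B m (F (up 2 {l} (QB bs Js l))) η := by
      refine B.prod _ fun j hj => ?_
      refine B.comp_mp (𝒢 := F (PS ∅)) (𝒢' := F (up 2 {l} (QB bs Js l))) (h.mp_tr _)
        (measurable_tr fun v hv => ⟨l, rfl, Or.inl ?_⟩) (hfb j)
      rw [← add_assoc, add_sub_cancel_right]
      refine ⟨PS_add (PS_mono (Set.empty_subset _) hv) (gam_mem_PS (by simp) _),
        j, Finset.ne_of_mem_erase hj, ?_⟩
      simp [mem_PS_empty.mp hv]
    have hξη : ξ =ᵐ[m] m[η | F (up 2 {l} (PS ∅))] := by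
      refine (ce_eq_of_forall_B (F_le _) (hηb.integrable (F_le _)) integrable_condExp hZ fun u hu => ?_).symm
      have hu' := h.ds_downB hu
      have hfu : ∀ j, B m (F (PS ∅)) (Function.update f l (fun ω => u (tr (-gam 2 (dl l)) ω)) j) := by
        intro j
        by_cases hj : j = l
        · rw [hj, Function.update_self]; exact hu'
        · rw [Function.update_of_ne hj]; exact hfb j
      have e1 := tendsto_nhds_unique (h.lim_top 0 _ hfu) (h.lim_top 2 _ hfu)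
      rw [h.ds_lam hfb l hu', ← hξ] at e1
      simp only [tr_tr, neg_add_cancel, tr_zero] at e1
      have hG0 : B m MeasurableSpace.pi (fun ω => ∏ j,
          Function.update f l (fun ω => u (tr (-gam 2 (dl l)) ω)) j (tr (gam 0 (dl j)) ω)) :=
        B.prod _ fun j _ => B.comp_mp (𝒢 := MeasurableSpace.pi) (𝒢' := MeasurableSpace.pi) (h.mp_tr _)
          (measurable_tr' _) ((hfu j).mono (F_le _))
      rw [← h.ds_int_tr (gam 2 (dl l) - gam 0 (dl l)) hG0.1] at e1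
      have e2 : ∀ ω, ∏ j, Function.update f l (fun ω => u (tr (-gam 2 (dl l)) ω)) j
          (tr (gam 0 (dl j)) (tr (gam 2 (dl l) - gam 0 (dl l)) ω)) = η ω * u ω := by
        intro ω
        rw [ds_prod_update f l _ fun j => tr (gam 0 (dl j)) (tr (gam 2 (dl l) - gam 0 (dl l)) ω), mul_comm]
        congr 1
        · refine Finset.prod_congr rfl fun j _ => ?_
          rw [tr_tr, gam_sub]
          congr 2
          abel
        · simp only [tr_tr, add_sub_cancel, neg_add_cancel, tr_zero]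
      simp only [e2] at e1
      rw [e1]
      exact integral_congr_ae (Eventually.of_forall fun ω => mul_comm _ _)
    exact determined (K0 := F (up 2 (gr ⁻¹' {0}) (PS (Set.Iic 0))))
      (K1 := F (up 2 (gr ⁻¹' {1}) (PS (Set.Iic 0)))) (K2 := F (up 2 {l} (PS (Set.Iic 0))))
      (B0 := F (up 2 (gr ⁻¹' {0}) (PS ∅))) (B2 := F (up 2 {l} (PS ∅)))
      (B1' := F (up 2 (gr ⁻¹' {1}) (QB bs Js l))) (B2' := F (up 2 {l} (QB bs Js l)))
      (F_le _) (F_le _) (F_le _) h01 h02 h12 (h.dsZ.le _) (h.dsZ.le _) ((h.dsQ hT l).le _)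
      ((h.dsQ hT l).le _) (h.dsZ.ciR _ _ _) (h.dsZ.ciL _ _ _) ((h.dsQ hT l).ciR _ _ _)
      ((h.dsQ hT l).ciR _ _ _) hz (EventuallyEq.refl _ _) hηb hξη
  have hint : ∫ ω, ξ ω ∂m = ∏ j ∈ Finset.univ.erase l, ∫ ω, f j ω ∂m := by
    rw [hξ, integral_condExp (F_le _)]
    refine h.top_prod (U := Finset.univ.erase l) (fun he => ?_) 2 f
      fun j => (hf j).mono (PS_mono (Set.empty_subset _))
    have : l ∈ Finset.univ.erase l := by rw [he]; exact Finset.mem_univ l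
    simp at this
  have h0 : ∫ ω, conj (ξ ω - ∫ ω', ξ ω' ∂m) ∂m = 0 := by
    have hi : Integrable ξ m := integrable_condExp
    rw [integral_conj, integral_sub hi (integrable_const _)]
    simp
  obtain ⟨f', h1, h2, h3, h4⟩ := h.ds_finish hfb l (∫ ω', ξ ω' ∂m) hξ hZ hQ (by rw [h0, mul_zero]) (by
    intro hc
    apply hne
    have e1 := h.ds_lam hfb l (hfb l)
    rw [Function.update_eq_self, ← hξ] at e1
    rw [e1, ← Finset.mul_prod_erase Finset.univ _ (Finset.mem_univ l), ← hint,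
      ← h.ds_int_tr (gam 2 (dl l)) ((hfb l).mono (F_le _)).1, ← integral_mul_const]
    refine integral_congr_ae ?_
    filter_upwards [hc] with ω hω
    rw [hω])
  exact ⟨f', h1, h2, h3.trans h0, h4⟩

/-- Other steps.  `ξ = E[∏_{j ≠ i} f j ∘ tr (t j) | R {i}]` is in `Z {i}` and in `Q {i}` by `cent1` with
`B0 = Z {l}` resp. `Q {l}` and `𝒴 = R {i, l}ᶜ`; `Λ f = ∫ (f i ∘ tr (t i)) ξ ≠ 0` so `ξ ≠ 0`; take
`f' = conj ξ ∘ tr (-t i)`. -/
theorem IsModel.dstep_other (h : IsModel g p m) {bs : ℚ → ι} {Js : ℚ → Finset ι} (hT : Typ bs Js)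
    {l i : ι} (hi : i ≠ l) (f : ι → Om ι → ℂ) (hf : ∀ j, B m (F (PS ∅)) (f j))
    (hl : AEStronglyMeasurable[F (QB bs Js l)] (f l) m)
    (hne : ∫ ω, ∏ j, f j (tr (gam 2 (dl j)) ω) ∂m ≠ 0) :
    ∃ f' : Om ι → ℂ, B m (F (PS ∅)) f' ∧ AEStronglyMeasurable[F (QB bs Js l)] f' m ∧
      ∫ ω, ∏ j, Function.update f i f' j (tr (gam 2 (dl j)) ω) ∂m ≠ 0 := by
  obtain ⟨f', h1, h2, -, h4⟩ := h.ds_finish hf i 0 rfl (h.ds_cent h.dsZ hi.symm hf (hf l).1)
    (h.ds_cent (h.dsQ hT l) hi.symm hf hl) (zero_mul _) (by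
    intro hc
    apply hne
    have e1 := h.ds_lam hf i (hf i)
    rw [Function.update_eq_self] at e1
    rw [e1]
    refine integral_eq_zero_of_ae ?_
    filter_upwards [hc] with ω hω
    rw [hω, mul_zero, Pi.zero_apply])
  exact ⟨f', h1, h2, h4⟩

/-- `dstep_last`, then `dstep_other` along an induction over a finset of indices `≠ l`, finally
`B.exists_sb` for strict versions. -/
theorem IsModel.dstep (h : IsModel g p m) {bs : ℚ → ι} {Js : ℚ → Finset ι} (hT : Typ bs Js)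
    {l : ι} {gr : ι → Fin 3} (hG : Grp l gr) (f : ι → Om ι → ℂ) (hf : ∀ i, Cyl (PS ∅) (f i))
    (hne : ∫ ω, ∏ i, f i (tr (gam 2 (dl i)) ω) ∂m ≠ ∏ i, ∫ ω, f i ω ∂m) :
    ∃ f' : ι → Om ι → ℂ, (∀ i, SB (F (PS ∅)) (f' i)) ∧
      (∀ i, AEStronglyMeasurable[F (QB bs Js l)] (f' i) m) ∧ ∫ ω, f' l ω ∂m = 0 ∧
      ∫ ω, ∏ i, f' i (tr (gam 2 (dl i)) ω) ∂m ≠ 0 := by
  have key : ∀ s : Finset ι, ∃ f' : ι → Om ι → ℂ, (∀ i, B m (F (PS ∅)) (f' i)) ∧
      AEStronglyMeasurable[F (QB bs Js l)] (f' l) m ∧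
      (∀ i ∈ s, AEStronglyMeasurable[F (QB bs Js l)] (f' i) m) ∧ ∫ ω, f' l ω ∂m = 0 ∧
      ∫ ω, ∏ i, f' i (tr (gam 2 (dl i)) ω) ∂m ≠ 0 := by
    intro s
    induction s using Finset.induction_on with
    | empty =>
      obtain ⟨f', h1, h2, h3, h4⟩ := h.dstep_last hT hG f hf hne
      refine ⟨Function.update f l f', fun i => ?_, by rwa [Function.update_self], by simp,
        by rwa [Function.update_self], h4⟩
      by_cases hi : i = l
      · rwa [hi, Function.update_self]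
      · rw [Function.update_of_ne hi]; exact (hf i).b m
    | insert i s _ ih =>
      obtain ⟨f1, h1, h2, h3, h4, h5⟩ := ih
      by_cases hil : i = l
      · refine ⟨f1, h1, h2, fun j hj => ?_, h4, h5⟩
        rcases Finset.mem_insert.mp hj with hj | hj
        · rwa [hj, hil]
        · exact h3 j hj
      · obtain ⟨f', h6, h7, h8⟩ := h.dstep_other hT hil f1 h1 h2 h5
        refine ⟨Function.update f1 i f', fun j => ?_, by rwa [Function.update_of_ne (Ne.symm hil)],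
          fun j hj => ?_, by rwa [Function.update_of_ne (Ne.symm hil)], h8⟩
        · by_cases hj : j = i
          · rwa [hj, Function.update_self]
          · rw [Function.update_of_ne hj]; exact h1 j
        · by_cases hji : j = i
          · rwa [hji, Function.update_self]
          · rw [Function.update_of_ne hji]
            exact h3 j ((Finset.mem_insert.mp hj).resolve_left hji)
  obtain ⟨f1, h1, -, h3, h4, h5⟩ := key Finset.univ
  choose f' hf' he using fun i => (h1 i).exists_sb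
  refine ⟨f', hf', fun i => (h3 i (Finset.mem_univ i)).congr (he i), ?_, ?_⟩
  · rw [← integral_congr_ae (he l), h4]
  · have : ∀ᵐ ω ∂m, ∀ i, f1 i (tr (gam 2 (dl i)) ω) = f' i (tr (gam 2 (dl i)) ω) :=
      ae_all_iff.mpr fun i => (h.mp_tr _).quasiMeasurePreserving.ae_eq_comp (he i)
    rwa [← integral_congr_ae (f := fun ω => ∏ i, f1 i (tr (gam 2 (dl i)) ω))
      (this.mono fun ω hω => Finset.prod_congr rfl fun i _ => hω i)]

end Crest.Agent.R69
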