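import Crest.Agent.R69.Sq

/-!
# R69: the frame is independent of the lower coordinates

-/

set_option autoImplicit false
set_option linter.unusedSectionVars false
open MeasureTheory ProbabilityTheory Filter Topology
open scoped ComplexConjugate

namespace Crest.Agent.R69

variable {ι : Type} [Fintype ι] [DecidableEq ι] {g : ℕ → ι → ℕ} {p : Ultrafilter ℕ}
  {m : Measure (Om ι)} [IsProbabilityMeasure m]

lemma IsModel.elim_int_tr (h : IsModel g p m) (t : P ι) {X : Set (P ι)} {f : Om ι → ℂ}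
    (hf : Cyl X f) : ∫ ω, f (tr t ω) ∂m = ∫ ω, f ω ∂m := by
  obtain ⟨s, -, hs⟩ := hf
  exact h.lp_tr t s f hs

/-- the number of junk slices at the coordinate `y` -/
noncomputable def elimK (L : Finset (ℚ × ι)) (y : ℚ) : ℕ :=
  (Finset.univ.filter fun j : ι => (y, j) ∈ L).card

/-- the potential -/
noncomputable def elimPot (C : Finset ℚ) (L : Finset (ℚ × ι)) : ℕ := ∑ y ∈ C, (3 ^ elimK L y - 1)

/-- the new junk slices -/
noncomputable def elimL (L : Finset (ℚ × ι)) (c c' : ℚ) (j : ι) : Finset (ℚ × ι) :=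
  L.erase (c, j) ∪ ((L.erase (c, j)).filter fun q => q.1 = c).image fun q => (c', q.2)

lemma mem_elimL {L : Finset (ℚ × ι)} {c c' : ℚ} {j : ι} {q : ℚ × ι} :
    q ∈ elimL L c c' j ↔ (q ≠ (c, j) ∧ q ∈ L) ∨ (q.1 = c' ∧ q.2 ≠ j ∧ (c, q.2) ∈ L) := by
  unfold elimL
  rw [Finset.mem_union, Finset.mem_erase, Finset.mem_image]
  refine or_congr Iff.rfl ⟨?_, ?_⟩
  · rintro ⟨⟨y, i⟩, hq, rfl⟩
    rw [Finset.mem_filter, Finset.mem_erase] at hq
    obtain ⟨⟨h1, h2⟩, h3⟩ := hq
    dsimp only at h3 ⊢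
    subst h3
    exact ⟨rfl, fun h => h1 (by rw [h]), h2⟩
  · rintro ⟨h1, h2, h3⟩
    refine ⟨(c, q.2), ?_, ?_⟩
    · rw [Finset.mem_filter, Finset.mem_erase]
      exact ⟨⟨fun h => h2 (Prod.mk.inj h).2, h3⟩, rfl⟩
    · rw [← h1]

lemma elimPot_lt {C : Finset ℚ} {L : Finset (ℚ × ι)} {c c' : ℚ} {j : ι} (hL : ∀ q ∈ L, q.1 ∈ C)
    (hq : (c, j) ∈ L) (hc' : c' ∉ C) :
    elimPot (insert c' C) (elimL L c c' j) < elimPot C L := by
  have hc : c ∈ C := hL _ hq
  have hcc : c ≠ c' := fun h => hc' (h ▸ hc)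
  set n := ((Finset.univ.filter fun i : ι => (c, i) ∈ L).erase j).card with hn
  have k1 : elimK L c = n + 1 := by
    rw [hn, Finset.card_erase_add_one (by simpa using hq)]; rfl
  have k2 : elimK (elimL L c c' j) c = n := by
    unfold elimK
    congr 1
    ext i
    simp [mem_elimL, hcc]
  have k3 : elimK (elimL L c c' j) c' = n := by
    unfold elimK
    congr 1
    ext i
    have : (c', i) ∉ L := fun h => hc' (hL _ h)
    simp [mem_elimL, this]
  have k4 : ∀ y ∈ C.erase c, elimK (elimL L c c' j) y = elimK L y := by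
    intro y hy
    rw [Finset.mem_erase] at hy
    have : y ≠ c' := fun h => hc' (h ▸ hy.2)
    unfold elimK
    congr 1
    ext i
    simp [mem_elimL, this, hy.1]
  unfold elimPot
  rw [Finset.sum_insert hc', ← Finset.add_sum_erase _ _ hc, ← Finset.add_sum_erase _ _ hc,
    k1, k2, k3, Finset.sum_congr rfl fun y hy => by rw [k4 y hy], pow_succ]
  have : 1 ≤ 3 ^ n := Nat.one_le_pow _ _ (by norm_num)
  omega

lemma elim_pos_false {C : Finset ℚ} {c' : ℚ} (hc' : c' ∉ C) (d : ℚ → ι) (j : ι) :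
    pos C d + gam c' (dl j) = pos (insert c' C) (Function.update d c' j) := by
  ext1
  · simp [pos_fst]
  · ext1 y
    rw [Prod.snd_add, Finsupp.add_apply, pos_apply, pos_apply, gam_snd]
    by_cases hy : y = c'
    · subst hy; simp [hc']
    · simp [hy]

lemma elim_pos_true {C : Finset ℚ} {c c' : ℚ} (hc : c ∈ C) (hc' : c' ∉ C) (d : ℚ → ι) (j : ι)
    {w : P ι} (hw : w.2 c = 0) :
    piv c c' (dl j) (w + pos C d) + gam c' (dl j) =
      w + pos (insert c' C) (Function.update (Function.update d c j) c' (d c)) := by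
  have hcc : c' ≠ c := fun h => hc' (h ▸ hc)
  ext1
  · simp [pos_fst]
  · ext1 y
    rw [Prod.snd_add, Prod.snd_add, Finsupp.add_apply, Finsupp.add_apply, pos_apply, gam_snd]
    by_cases hy : y = c'
    · subst hy
      rw [piv_new hcc]
      simp [pos_apply, hc, hc', hw, add_assoc]
    · by_cases hy' : y = c
      · subst hy'
        rw [piv_self hcc]
        simp [hc, hw, hy]
      · rw [piv_other hy' hy]
        simp [pos_apply, hy, hy']

theorem IsModel.elim_aux (h : IsModel g p m) (a : ℚ) (n : ℕ) : ∀ (η : Type) (C : Finset ℚ)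
    (_ : ∀ c ∈ C, a < c) (o : ℚ → ι) (E : Finset η) (_ : E.Nonempty) (d : η → ℚ → ι)
    (_ : ∀ e ∈ E, ∀ c ∈ C, d e c ≠ o c)
    (_ : ∀ e ∈ E, ∀ e' ∈ E, (∀ c ∈ C, d e c = d e' c) → e = e')
    (b : η → Om ι → ℂ) (_ : ∀ e ∈ E, Cyl (PS (Set.Iic a)) (b e)) (_ : ∀ e ∈ E, ∫ ω, b e ω ∂m = 0)
    (L : Finset (ℚ × ι)) (_ : ∀ q ∈ L, q.1 ∈ C ∧ q.2 ≠ o q.1 ∧ ∀ e ∈ E, d e q.1 ≠ q.2)
    (u : ℚ × ι → Om ι → ℂ) (_ : ∀ q ∈ L, Cyl {v | v.2 q.1 = dl q.2} (u q)),
    elimPot C L < n →
    ∫ ω, (∏ e ∈ E, b e (tr (pos C (d e)) ω)) * ∏ q ∈ L, u q ω ∂m = 0 := by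
  classical
  induction n with
  | zero => intros; omega
  | succ n ih =>
  intro η C hC o E hE d hd hinj b hb hb0 L hL u hu hn
  rcases L.eq_empty_or_nonempty with rfl | ⟨⟨c, j⟩, hq⟩
  · simp only [Finset.prod_empty, mul_one]
    rw [h.arr_indep a C hC o E d hd hinj b hb]
    obtain ⟨e, he⟩ := hE
    exact Finset.prod_eq_zero he (hb0 e he)
  obtain ⟨hc, hjo, hdj⟩ := hL _ hq
  dsimp only at hc hjo hdj
  set O : Om ι → ℂ := fun ω => (∏ e ∈ E, b e (tr (pos C (d e)) ω)) * ∏ q ∈ L.erase (c, j), u q ω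
    with hOdef
  have hOc : Cyl Set.univ O :=
    Cyl.map₂ (Cyl.prod E fun e he => (hb e he).tr fun _ _ => Set.mem_univ _)
      (Cyl.prod _ fun q hq => (hu q (Finset.mem_of_mem_erase hq)).mono (Set.subset_univ _))
      (· * ·)
  obtain ⟨s, -, hs⟩ := id hOc
  choose! su hsu1 hsu2 using hu
  obtain ⟨a', haa', ha'c, hgap⟩ := exists_gap (C ∪ act (s ∪ L.biUnion su)) (hC c hc)
  obtain ⟨c', ha'c', hc'c⟩ := exists_between ha'c
  have hc' : c' ∉ C := fun h' =>
    absurd (hgap c' (Finset.mem_union_left _ h') hc'c) (not_le.2 ha'c')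
  have hcc : c' ≠ c := hc'c.ne
  have hact : ∀ v ∈ s ∪ L.biUnion su, ∀ y, y < c → v.2 y ≠ 0 → y < c' := fun v hv y hy hy0 =>
    (hgap y (Finset.mem_union_right _ (mem_act.2 ⟨v, hv, hy0⟩)) hy).trans_lt ha'c'
  have hsu0 : ∀ q ∈ L, ∀ v ∈ su q, v.2 c' = 0 := by
    intro q hq v hv
    by_contra h0
    exact lt_irrefl _ (hact v (Finset.mem_union_right _ (Finset.mem_biUnion.2 ⟨q, hq, hv⟩)) c' hc'c h0)
  have hgoal : ∀ ω, (∏ e ∈ E, b e (tr (pos C (d e)) ω)) * ∏ q ∈ L, u q ω = O ω * u (c, j) ω := by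
    intro ω
    rw [hOdef, ← Finset.prod_erase_mul _ _ hq, mul_assoc]
  simp_rw [hgoal]
  refine h.sq_elim hc'c (dl j) hs (hsu2 _ hq) (fun v hv => hsu1 _ hq hv) (fun v hv => hact v ?_) ?_
  · rcases Finset.mem_union.1 hv with hv | hv
    · exact Finset.mem_union_left _ hv
    · exact Finset.mem_union_right _ (Finset.mem_biUnion.2 ⟨_, hq, hv⟩)
  set t : P ι := gam c' (dl j) with ht
  set φ : P ι → P ι := piv c c' (dl j) with hφ
  have hcyl : Cyl Set.univ (fun ω => O ω * conj (O (ω ∘ φ))) :=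
    Cyl.map₂ hOc (hOc.comp_pos (Set.mapsTo_univ φ _)) (fun x y => x * conj y)
  rw [← h.elim_int_tr t hcyl]
  -- the new data
  let d' : η × Bool → ℚ → ι := fun e =>
    if e.2 then Function.update (Function.update (d e.1) c j) c' (d e.1 c)
    else Function.update (d e.1) c' j
  let b' : η × Bool → Om ι → ℂ := fun e ω => if e.2 then conj (b e.1 ω) else b e.1 ω
  let u' : ℚ × ι → Om ι → ℂ := fun q ω =>
    if q.1 = c' then conj (u (c, q.2) (tr t ω ∘ φ))
    else u q (tr t ω) * if q.1 = c then 1 else conj (u q (tr t ω ∘ φ))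
  have hne : ∀ y ∈ C, y ≠ c' := fun y hy h' => hc' (h' ▸ hy)
  have key := ih (η × Bool) (insert c' C) ?_ (Function.update o c' (o c)) (E ×ˢ Finset.univ) ?_ d' ?_ ?_
    b' ?_ ?_ (elimL L c c' j) ?_ u' ?_ ?_
  · rw [← key]
    refine integral_congr_ae (Eventually.of_forall fun ω => ?_)
    have e1 : ∏ e ∈ E ×ˢ (Finset.univ : Finset Bool), b' e (tr (pos (insert c' C) (d' e)) ω) =
        (∏ e ∈ E, b e (tr (pos C (d e)) (tr t ω))) *
          conj (∏ e ∈ E, b e (tr (pos C (d e)) (tr t ω ∘ φ))) := by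
      rw [Finset.prod_product, map_prod, ← Finset.prod_mul_distrib]
      refine Finset.prod_congr rfl fun e he => ?_
      rw [Fintype.prod_bool, mul_comm]
      simp only [b', d', if_true, Bool.false_eq_true, if_false]
      rw [tr_tr, ht, elim_pos_false hc']
      congr 2
      obtain ⟨sb, hsb, hdep⟩ := hb e he
      refine hdep fun v hv => ?_
      have hv0 : v.2 c = 0 := hsb hv c (not_le.2 (hC c hc))
      show ω _ = ω (piv c c' (dl j) (v + pos C (d e)) + gam c' (dl j))
      rw [elim_pos_true hc hc' _ _ hv0]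
    have e2 : ∏ q ∈ elimL L c c' j, u' q ω =
        (∏ q ∈ L.erase (c, j), u q (tr t ω)) * conj (∏ q ∈ L.erase (c, j), u q (tr t ω ∘ φ)) := by
      unfold elimL
      rw [Finset.prod_union, Finset.prod_image, map_prod,
        ← Finset.prod_filter_not_mul_prod_filter (L.erase (c, j)) (fun q => q.1 = c)
          (fun q => conj (u q (tr t ω ∘ φ))), ← mul_assoc]
      · congr 1
        · rw [Finset.prod_filter, ← Finset.prod_mul_distrib]
          refine Finset.prod_congr rfl fun q hq => ?_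
          have := hne _ (hL q (Finset.mem_of_mem_erase hq)).1
          simp only [u', this, if_false, ite_not]
        · refine Finset.prod_congr rfl fun q hq => ?_
          have h1 : (c, q.2) = q := by rw [← (Finset.mem_filter.1 hq).2]
          simp only [u', if_true, h1]
      · intro q hq q' hq' h'
        have h1 := (Finset.mem_filter.1 (Finset.mem_coe.1 hq)).2
        have h2 := (Finset.mem_filter.1 (Finset.mem_coe.1 hq')).2
        exact Prod.ext (h1.trans h2.symm) (Prod.mk.inj h').2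
      · rw [Finset.disjoint_left]
        intro q hq hq'
        obtain ⟨q', -, rfl⟩ := Finset.mem_image.1 hq'
        exact hc' (hL _ (Finset.mem_of_mem_erase hq)).1
    dsimp only
    rw [e1, e2, hOdef]
    dsimp only
    rw [map_mul]
    ring
  · intro y hy
    rcases Finset.mem_insert.1 hy with rfl | hy
    · exact haa'.trans_lt ha'c'
    · exact hC y hy
  · exact hE.product Finset.univ_nonempty
  · rintro ⟨e, β⟩ he y hy
    replace he : e ∈ E := (Finset.mem_product.1 he).1
    rcases Finset.mem_insert.1 hy with rfl | hy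
    · cases β
      · simpa [d'] using hjo
      · simpa [d'] using hd e he c hc
    · have hy' := hne y hy
      cases β
      · simpa [d', hy'] using hd e he y hy
      · by_cases hyc : y = c
        · subst hyc; simpa [d', hy'] using hjo
        · simpa [d', hy', hyc] using hd e he y hy
  · rintro ⟨e, β⟩ he ⟨e', β'⟩ he' H
    replace he : e ∈ E := (Finset.mem_product.1 he).1
    replace he' : e' ∈ E := (Finset.mem_product.1 he').1
    have Hc := H c (Finset.mem_insert_of_mem hc)
    have Hc' := H c' (Finset.mem_insert_self _ _)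
    cases β <;> cases β'
    · rw [hinj e he e' he' fun y hy => by
        simpa [d', hne y hy] using H y (Finset.mem_insert_of_mem hy)]
    · exact absurd (by simpa [d', hcc.symm] using Hc) (hdj e he)
    · exact absurd (by simpa [d', hcc.symm] using Hc.symm) (hdj e' he')
    · rw [hinj e he e' he' fun y hy => by
        by_cases hyc : y = c
        · subst hyc; simpa [d'] using Hc'
        · simpa [d', hne y hy, hyc] using H y (Finset.mem_insert_of_mem hy)]
  · rintro ⟨e, β⟩ he
    replace he : e ∈ E := (Finset.mem_product.1 he).1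
    exact (hb e he).map fun z => if β then conj z else z
  · rintro ⟨e, β⟩ he
    replace he : e ∈ E := (Finset.mem_product.1 he).1
    cases β
    · simpa [b'] using hb0 e he
    · simp only [b', if_true]
      rw [integral_conj, hb0 e he, map_zero]
  · rintro ⟨y, i⟩ hq'
    rcases mem_elimL.1 hq' with ⟨h1, h2⟩ | ⟨h1, h2, h3⟩
    · obtain ⟨h3, h4, h5⟩ := hL _ h2
      dsimp only at h3 h4 h5 ⊢
      have hy' := hne y h3
      refine ⟨Finset.mem_insert_of_mem h3, by simpa [hy'] using h4, ?_⟩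
      rintro ⟨e, β⟩ he
      replace he : e ∈ E := (Finset.mem_product.1 he).1
      cases β
      · simpa [d', hy'] using h5 e he
      · by_cases hyc : y = c
        · subst hyc
          have : j ≠ i := fun h => h1 (by rw [h])
          simpa [d', hy'] using this
        · simpa [d', hy', hyc] using h5 e he
    · obtain ⟨-, h4, h5⟩ := hL _ h3
      dsimp only at h1 h2 h4 h5 ⊢
      subst h1
      refine ⟨Finset.mem_insert_self _ _, by simpa using h4, ?_⟩
      rintro ⟨e, β⟩ he
      replace he : e ∈ E := (Finset.mem_product.1 he).1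
      cases β
      · simpa [d'] using h2.symm
      · simpa [d'] using h5 e he
  · rintro ⟨y, i⟩ hq'
    rcases mem_elimL.1 hq' with ⟨h1, h2⟩ | ⟨h1, h2, h3⟩
    · have hy' := hne y (hL _ h2).1
      have hu0 : Cyl {v : P ι | v.2 y = dl i} (u (y, i)) := ⟨_, hsu1 _ h2, hsu2 _ h2⟩
      have htr : ∀ v ∈ {v : P ι | v.2 y = dl i}, v + t ∈ {v : P ι | v.2 y = dl i} := by
        intro v hv
        show (v + t).2 y = dl i
        have hv : v.2 y = dl i := hv
        simp [ht, hv, hy'.symm]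
      simp only [u', hy', if_false]
      by_cases hyc : y = c
      · simp only [hyc, if_true, mul_one]
        subst hyc
        exact hu0.tr htr
      · simp only [hyc, if_false]
        have hφ' : Set.MapsTo φ {v : P ι | v.2 y = dl i} {v : P ι | v.2 y = dl i} := by
          intro v hv
          show (piv c c' (dl j) v).2 y = dl i
          rw [piv_other hyc hy']
          exact hv
        exact Cyl.map₂ (hu0.tr htr) ((hu0.comp_pos hφ').tr htr) (fun x y => x * conj y)
    · dsimp only at h1 h2 h3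
      subst h1
      have hu0 : Cyl (su (c, i) : Set (P ι)) (u (c, i)) := ⟨_, subset_rfl, hsu2 _ h3⟩
      have hφ' : Set.MapsTo φ (su (c, i) : Set (P ι)) {v : P ι | v.2 y = dl i - dl j} := by
        intro v hv
        show (piv c y (dl j) v).2 y = dl i - dl j
        have h4 : v.2 c = dl i := hsu1 _ h3 hv
        rw [piv_new hcc, hsu0 _ h3 v hv, h4, zero_add]
      have htr : ∀ v ∈ {v : P ι | v.2 y = dl i - dl j}, v + t ∈ {v : P ι | v.2 y = dl i} := by
        intro v hv
        show (v + t).2 y = dl i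
        have hv : v.2 y = dl i - dl j := hv
        simp [ht, hv]
      simp only [u', if_true]
      exact ((hu0.comp_pos hφ').tr htr).map (fun z => conj z)
  · have := elimPot_lt (fun q hq => (hL q hq).1) hq hc'
    omega

/-- Elimination of junk.  `L` is a finite set of slices `(c, j) = {v | v.2 c = dl j}` carrying junk
functions `u (c, j)`; the points `pos C (d e)` carry mean zero functions and lie in no slice of `L`.
Strong induction on the potential `∑ c ∈ C, (3 ^ #{j | (c, j) ∈ L} - 1)` (generalising everything,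
including the type `η`).  `L = ∅`: `arr_indep`.  Otherwise pick `(c, j) ∈ L`, let `O` be the product of
everything except `u (c, j)`, pick `c'` with `a < c' < c` above all elements of `C` and all active
coordinates of the supports that are `< c` (`exists_gap`), and apply `sq_elim` with `x = dl j`.
To show `∫ O · conj (O ∘ piv c c' x) = 0` translate by `t = gam c' (dl j)` (`mp_tr`) and apply the
induction hypothesis with `C' = insert c' C`, `o' = update o c' (o c)`, `η' = η × Bool`,
`d' (e, false) = update (d e) c' j`, `d' (e, true) = update (update (d e) c j) c' (d e c)`,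
`b' (e, false) = b e`, `b' (e, true) = conj (b e)`
(`piv c c' x (w + pos C (d e)) + t = w + pos C' (d' (e, true))` for `w ∈ PS (Iic a)`), and
`L' = L.erase (c, j) ∪ {(c', j') | (c, j') ∈ L, j' ≠ j}`, where for `y ≠ c` the new junk at `(y, j')` is the
product of the translates of `u (y, j')` and of `conj (u (y, j') ∘ piv)`, at `(c, j')` it is the translate of
`u (c, j')`, and at `(c', j')` the translate of `conj (u (c, j') ∘ piv)` (component at `c'`:
`0 + (dl j' - dl j) + dl j`).  The potential drops since `2 (3 ^ (k-1) - 1) < 3 ^ k - 1`. -/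
theorem IsModel.elim (h : IsModel g p m) {η : Type} (a : ℚ) (C : Finset ℚ) (hC : ∀ c ∈ C, a < c)
    (o : ℚ → ι) (E : Finset η) (hE : E.Nonempty) (d : η → ℚ → ι)
    (hd : ∀ e ∈ E, ∀ c ∈ C, d e c ≠ o c)
    (hinj : ∀ e ∈ E, ∀ e' ∈ E, (∀ c ∈ C, d e c = d e' c) → e = e')
    (b : η → Om ι → ℂ) (hb : ∀ e ∈ E, Cyl (PS (Set.Iic a)) (b e)) (hb0 : ∀ e ∈ E, ∫ ω, b e ω ∂m = 0)
    (L : Finset (ℚ × ι)) (hL : ∀ q ∈ L, q.1 ∈ C ∧ q.2 ≠ o q.1 ∧ ∀ e ∈ E, d e q.1 ≠ q.2)
    (u : ℚ × ι → Om ι → ℂ) (hu : ∀ q ∈ L, Cyl {v | v.2 q.1 = dl q.2} (u q)) :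
    ∫ ω, (∏ e ∈ E, b e (tr (pos C (d e)) ω)) * ∏ q ∈ L, u q ω ∂m = 0 :=
  h.elim_aux a _ η C hC o E hE d hd hinj b hb hb0 L hL u hu (Nat.lt_succ_self _)

lemma elim_expand {s : Finset (P ι)} {f : Om ι → ℂ} (hf : DependsOn f (s : Set (P ι))) (ω : Om ι) :
    f ω = ∑ x : s → (ι → Bool), f (fun v => if h : v ∈ s then x ⟨v, h⟩ else default) *
      ∏ v : s, if ω v = x v then (1 : ℂ) else 0 := by
  classical
  rw [Finset.sum_eq_single (fun v : s => ω v)]
  · simp only [if_true, Finset.prod_const_one, mul_one]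
    refine hf fun v hv => ?_
    rw [dif_pos (Finset.mem_coe.1 hv)]
  · intro x _ hx
    obtain ⟨v, hv⟩ := Function.ne_iff.1 hx
    rw [Finset.prod_eq_zero (Finset.mem_univ v) (if_neg hv.symm), mul_zero]
  · intro h; exact absurd (Finset.mem_univ _) h

lemma elim_sep (A C : Finset ℚ) (h : ∀ y ∈ A, ∀ c ∈ C, y < c) :
    ∃ a, (∀ y ∈ A, y ≤ a) ∧ ∀ c ∈ C, a < c := by
  rcases A.eq_empty_or_nonempty with rfl | hA
  · rcases C.eq_empty_or_nonempty with rfl | hC
    · exact ⟨0, by simp, by simp⟩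
    · refine ⟨C.min' hC - 1, by simp, fun c hc => ?_⟩
      have := C.min'_le c hc
      linarith
  · exact ⟨A.max' hA, fun y hy => A.le_max' y hy, fun c hc => h _ (A.max'_mem hA) c hc⟩

theorem IsModel.frame_prod (h : IsModel g p m) {bs : ℚ → ι} {Js : ℚ → Finset ι} (hT : Typ bs Js)
    {D : Set ℚ} {b : Om ι → ℂ} (hb : Cyl (PS D) b) (hb0 : ∫ ω, b ω ∂m = 0)
    (L : Finset (ℚ × ι)) (hL : ∀ q ∈ L, (∀ y ∈ D, y < q.1) ∧ q.2 ∈ Js q.1) (u : ℚ × ι → Om ι → ℂ)
    (hu : ∀ q ∈ L, Cyl {v | v.2 q.1 = dl q.2 - dl (bs q.1)} (u q)) :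
    ∫ ω, b ω * ∏ q ∈ L, u q ω ∂m = 0 := by
  classical
  have hcyl : Cyl Set.univ (fun ω => b ω * ∏ q ∈ L, u q ω) :=
    Cyl.map₂ (hb.mono (Set.subset_univ _))
      (Cyl.prod _ fun q hq => (hu q hq).mono (Set.subset_univ _)) (· * ·)
  obtain ⟨s, hsD, hs⟩ := hb
  obtain ⟨a, ha1, ha2⟩ := elim_sep (act s) (L.image Prod.fst) (by
    intro y hy c hc
    obtain ⟨v, hv, hy⟩ := mem_act.1 hy
    obtain ⟨q, hq, rfl⟩ := Finset.mem_image.1 hc
    refine (hL q hq).1 y ?_
    by_contra h'
    exact hy (hsD hv y h'))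
  have ho : ∀ r, ∃ i, i ∉ insert (bs r) (Js r) := fun r => by
    by_contra h'
    push Not at h'
    exact hT.small r (Finset.eq_univ_iff_forall.2 h')
  choose o ho using ho
  have key := h.elim a (L.image Prod.fst) ha2 o ({()} : Finset Unit) (Finset.singleton_nonempty _)
    (fun _ => bs) (fun _ _ c _ h' => ho c (h' ▸ Finset.mem_insert_self _ _))
    (fun _ _ _ _ _ => rfl) (fun _ => b)
    (fun _ _ => ⟨s, fun v hv => PS_mono (fun y hy => ha1 y hy) (mem_PS_act hv), hs⟩)
    (fun _ _ => hb0) L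
    (fun q hq => ⟨Finset.mem_image_of_mem _ hq,
      fun h' => ho q.1 (h' ▸ Finset.mem_insert_of_mem (hL q hq).2),
      fun _ _ h' => hT.nmem q.1 (h' ▸ (hL q hq).2)⟩)
    (fun q ω => u q (tr (pos (L.image Prod.fst) bs) ω))
    (fun q hq => (hu q hq).tr fun v hv => by
      have hv : v.2 q.1 = dl q.2 - dl (bs q.1) := hv
      show (v + _).2 q.1 = dl q.2
      rw [Prod.snd_add, Finsupp.add_apply, pos_apply, if_pos (Finset.mem_image_of_mem _ hq), hv,
        sub_add_cancel])
  rw [← h.elim_int_tr (pos (L.image Prod.fst) bs) hcyl]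
  simpa using key

theorem IsModel.frame_zero (h : IsModel g p m) {bs : ℚ → ι} {Js : ℚ → Finset ι} (hT : Typ bs Js)
    {D R : Set ℚ} (hDR : ∀ y ∈ D, ∀ r ∈ R, y < r) {b f : Om ι → ℂ} (hb : Cyl (PS D) b)
    (hb0 : ∫ ω, b ω ∂m = 0) (hf : Cyl (At bs Js Set.univ R) f) : ∫ ω, b ω * f ω ∂m = 0 := by
  classical
  obtain ⟨s, hs, hf⟩ := hf
  have hq : ∀ v : s, ∃ q : ℚ × ι, q.1 ∈ R ∧ q.2 ∈ Js q.1 ∧ (v : P ι).2 q.1 = dl q.2 - dl (bs q.1) := by
    intro v
    obtain ⟨-, r, hr, j, hj, hv⟩ := hs v.2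
    exact ⟨(r, j), hr, hj, hv⟩
  choose q hq1 hq2 hq3 using hq
  have hind : ∀ (x : s → (ι → Bool)) (v : s) {X : Set (P ι)}, (v : P ι) ∈ X →
      Cyl X (fun ω : Om ι => if ω v = x v then (1 : ℂ) else 0) := fun x v X hv =>
    (Cyl.eval hv).map fun z => if z = x v then (1 : ℂ) else 0
  have h1 : ∀ x : s → (ι → Bool),
      ∫ ω, b ω * ∏ v : s, (if ω v = x v then (1 : ℂ) else 0) ∂m = 0 := by
    intro x
    have := h.frame_prod hT hb hb0 (Finset.univ.image q) ?_
      (fun q' ω => ∏ v ∈ Finset.univ.filter (fun v => q v = q'), if ω v = x v then (1 : ℂ) else 0) ?_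
    · refine Eq.trans ?_ this
      refine integral_congr_ae (Eventually.of_forall fun ω => ?_)
      dsimp only
      rw [Finset.prod_fiberwise_of_maps_to fun v hv => Finset.mem_image_of_mem q hv]
    · intro q' hq'
      obtain ⟨v, -, rfl⟩ := Finset.mem_image.1 hq'
      exact ⟨fun y hy => hDR y hy _ (hq1 v), hq2 v⟩
    · intro q' _
      refine Cyl.prod _ fun v hv => hind x v ?_
      obtain rfl := (Finset.mem_filter.1 hv).2
      exact hq3 v
  have h2 : ∀ ω, b ω * f ω = ∑ x : s → (ι → Bool),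
      f (fun v => if h : v ∈ s then x ⟨v, h⟩ else default) *
        (b ω * ∏ v : s, if ω v = x v then (1 : ℂ) else 0) := by
    intro ω
    rw [elim_expand hf ω, Finset.mul_sum]
    exact Finset.sum_congr rfl fun x _ => by ring
  simp_rw [h2]
  rw [integral_finsetSum]
  · refine Finset.sum_eq_zero fun x _ => ?_
    rw [integral_const_mul, h1, mul_zero]
  · intro x _
    refine Integrable.const_mul (Cyl.integrable (X := Set.univ) ?_ m) _
    exact Cyl.map₂ (hb.mono (Set.subset_univ _))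
      (Cyl.prod _ fun v _ => hind x v (Set.mem_univ _)) (· * ·)

/-- Claim'.  By `indep_of_cyl` (subtract the mean) it suffices to show `∫ b f = 0` for a mean zero
cylinder function `b` over `PS D` and a cylinder function `f` over `At … R`.  `f` depends on a finite set
`s`; choose for each `v ∈ s` a slice `q v = (r, j)`, `r ∈ R`, `j ∈ Js r`; expanding
`f = ∑_{x : s → (ι → Bool)} f(x) ∏_{v ∈ s} 1[ω v = x v]` and grouping the factors by `q v` reduces to
`f = ∏_{q ∈ L} u q`.  Let `C = L.image fst`, choose `a` above the active coordinates of the support of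
`b` and below `C`, translate by `t = pos C bs` and apply `elim` with `E = {()}`, `d () = bs`, and
`o r ∉ insert (bs r) (Js r)` (`Typ.small`). -/
theorem IsModel.frame_indep (h : IsModel g p m) {bs : ℚ → ι} {Js : ℚ → Finset ι} (hT : Typ bs Js)
    {D R : Set ℚ} (hDR : ∀ y ∈ D, ∀ r ∈ R, y < r) :
    Indep (F (PS D)) (F (At bs Js Set.univ R)) m := by
  refine indep_of_cyl fun f f' hf hf' => ?_
  have hi := hf.integrable m
  have hi' := hf'.integrable m
  have hi2 : Integrable (fun ω => f ω * f' ω) m :=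
    Cyl.integrable (X := Set.univ)
      (Cyl.map₂ (hf.mono (Set.subset_univ _)) (hf'.mono (Set.subset_univ _)) (· * ·)) m
  have key := h.frame_zero hT hDR (b := fun ω => f ω - ∫ ω, f ω ∂m) (hf.map fun z => z - _)
    (by rw [integral_sub hi (integrable_const _)]; simp) hf'
  simp_rw [sub_mul] at key
  rw [integral_sub hi2 (hi'.const_mul _), integral_const_mul] at key
  exact sub_eq_zero.1 key

end Crest.Agent.R69
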