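import Crest.Agent.R69.VdC
import Crest.Agent.R69.Arith

/-!
# R69: the endgame

1. Replace the `f i ∘ τ^[g n i]` one slot at a time (induction over a finset of slots) by finite character
   sums `P i n = ∑ j, c i j * χ (σ ^ (g n i) (a i j))` from `IsCharSys.complete`: keep the invariant
   "`‖∫ ∏ (…)‖ ≥ δ' > 0` for `p`-almost all `n`, all factors bounded uniformly in `n`"; the error of one
   replacement is at most (product of the other bounds) `· √ε` (`approx_pow`, `int_norm_le_sqrt`).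
2. Expand the product (`Finset.prod_univ_sum`); for `p`-almost all `n` some choice `j` has
   `∫ ∏ i, χ (σ ^ (g n i) (a i (j i))) ≠ 0`; finitely many choices and `p` an ultrafilter
   (`Ultrafilter.eventually_exists_iff`-style: `Ultrafilter.finite_biUnion_mem_iff`) give one choice `j` that
   works for `p`-almost all `n`, hence for arbitrarily large `n`.
3. With `Z` from `exists_Z` and `IsCharSys.sum`, `quasi_unipotent` applies to `γ i = a i (j i)`; `vdc` for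
   `-γ l` (`Z` is a submodule) gives `∫ f l · conj (χ (γ l)) = (∫ f l)(…) = 0`, contradicting `complete`.
-/

set_option autoImplicit false
open MeasureTheory ProbabilityTheory Filter Topology
open scoped ComplexConjugate

namespace Crest.Agent.R69

universe u
variable {Ω : Type u} {𝒵 : MeasurableSpace Ω} {m0 : MeasurableSpace Ω} {μ : Measure Ω}
  [IsProbabilityMeasure μ] {τ : Ω → Ω} {Γ : Type u} [AddCommGroup Γ] {χ : Γ → Ω → ℂ}
  {σ : Module.End ℤ Γ}

/-- replace one slot by a single character -/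
lemma IsCharSys.end_slot (h : IsCharSys μ 𝒵 τ χ σ) (hZ : 𝒵 ≤ m0) (hτ : Measurable[𝒵, 𝒵] τ)
    {F : Ω → ℂ} (hF : SB 𝒵 F) (k : ℕ → ℕ) (R : ℕ → Ω → ℂ) (hR : ∀ n, B μ m0 (R n)) {K : ℝ}
    (hK0 : 0 < K) (hK : ∀ n, ∀ᵐ ω ∂μ, ‖R n ω‖ ≤ K) (p : Ultrafilter ℕ) {δ : ℝ} (hδ : 0 < δ)
    (H : ∀ᶠ n in (p : Filter ℕ), δ ≤ ‖∫ ω, F (τ^[k n] ω) * R n ω ∂μ‖) :
    ∃ (a : Γ) (δ' : ℝ), 0 < δ' ∧ ∫ ω, F ω * conj (χ a ω) ∂μ ≠ 0 ∧
      ∀ᶠ n in (p : Filter ℕ), δ' ≤ ‖∫ ω, χ ((σ ^ k n) a) ω * R n ω ∂μ‖ := by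
  obtain ⟨N, a, c, hc, hε⟩ := h.complete F hF ((δ / (2 * K)) ^ 2) (by positivity)
  set M : ℝ := ∑ j, ‖c j‖ + 1 with hM
  have hS0 : 0 ≤ ∑ j, ‖c j‖ := Finset.sum_nonneg fun j _ => norm_nonneg _
  have hM0 : 0 < M := by linarith
  have key : ∀ᶠ n in (p : Filter ℕ), ∃ j, δ / (2 * M) ≤ ‖∫ ω, χ ((σ ^ k n) (a j)) ω * R n ω ∂μ‖ := by
    filter_upwards [H] with n hn
    by_contra hcon
    push Not at hcon
    have hFk : B μ m0 fun ω => F (τ^[k n] ω) :=
      ((hF.comp' (@Measurable.iterate Ω 𝒵 τ hτ (k n))).mono hZ).b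
    have hP : B μ m0 fun ω => ∑ j, c j * χ ((σ ^ k n) (a j)) ω :=
      B.sum _ fun j _ => (B.const _).mul (h.b _)
    have hD := hFk.sub hP
    have e1 : ∫ ω, F (τ^[k n] ω) * R n ω ∂μ =
        ∫ ω, (F (τ^[k n] ω) - ∑ j, c j * χ ((σ ^ k n) (a j)) ω) * R n ω ∂μ +
          ∑ j, c j * ∫ ω, χ ((σ ^ k n) (a j)) ω * R n ω ∂μ := by
      have e2 : ∑ j, c j * ∫ ω, χ ((σ ^ k n) (a j)) ω * R n ω ∂μ =
          ∫ ω, (∑ j, c j * χ ((σ ^ k n) (a j)) ω) * R n ω ∂μ := by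
        simp only [Finset.sum_mul, mul_assoc]
        rw [integral_finsetSum _ fun j _ =>
          ((B.const (c j)).mul ((h.b _).mul (hR n))).integrable le_rfl]
        exact Finset.sum_congr rfl fun j _ => (integral_const_mul _ _).symm
      rw [e2, ← integral_add ((hD.mul (hR n)).integrable le_rfl) ((hP.mul (hR n)).integrable le_rfl)]
      exact integral_congr_ae (ae_of_all _ fun ω => by ring)
    have b1 : ‖∫ ω, (F (τ^[k n] ω) - ∑ j, c j * χ ((σ ^ k n) (a j)) ω) * R n ω ∂μ‖ ≤ δ / 2 := by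
      calc _ ≤ ∫ ω, ‖F (τ^[k n] ω) - ∑ j, c j * χ ((σ ^ k n) (a j)) ω‖ * K ∂μ := by
            refine norm_integral_le_of_norm_le ((hD.integrable le_rfl).norm.mul_const K) ?_
            filter_upwards [hK n] with ω hω
            rw [norm_mul]
            exact mul_le_mul_of_nonneg_left hω (norm_nonneg _)
        _ ≤ δ / (2 * K) * K := by
            rw [integral_mul_const]
            refine mul_le_mul_of_nonneg_right ((int_norm_le_sqrt (hD.memLp le_rfl 2)).trans ?_) hK0.le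
            rw [h.approx_pow hZ hτ hF]
            exact Real.sqrt_le_iff.2 ⟨by positivity, hε⟩
        _ = δ / 2 := by field_simp
    have b2 : ‖∑ j, c j * ∫ ω, χ ((σ ^ k n) (a j)) ω * R n ω ∂μ‖ < δ / 2 := by
      calc _ ≤ ∑ j, ‖c j‖ * (δ / (2 * M)) := by
            refine (norm_sum_le _ _).trans (Finset.sum_le_sum fun j _ => ?_)
            rw [norm_mul]
            exact mul_le_mul_of_nonneg_left (hcon j).le (norm_nonneg _)
        _ < M * (δ / (2 * M)) := by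
            rw [← Finset.sum_mul]
            exact mul_lt_mul_of_pos_right (by linarith) (by positivity)
        _ = δ / 2 := by field_simp
    rw [e1] at hn
    linarith [hn.trans (norm_add_le _ _)]
  obtain ⟨j, hj⟩ := Ultrafilter.eventually_exists_iff.1 key
  exact ⟨a j, δ / (2 * M), by positivity, hc j, hj⟩

/-- replace all slots -/
lemma IsCharSys.end_all (h : IsCharSys μ 𝒵 τ χ σ) (hZ : 𝒵 ≤ m0) (hτ : Measurable[𝒵, 𝒵] τ)
    {ι : Type} [Fintype ι] [DecidableEq ι] (g : ℕ → ι → ℕ) (p : Ultrafilter ℕ)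
    (f : ι → Ω → ℂ) (hf : ∀ i, SB 𝒵 (f i)) {δ : ℝ} (hδ : 0 < δ)
    (H : ∀ᶠ n in (p : Filter ℕ), δ ≤ ‖∫ ω, ∏ i, f i (τ^[g n i] ω) ∂μ‖) (s : Finset ι) :
    ∃ (γ : ι → Γ) (δ' : ℝ), 0 < δ' ∧ (∀ i ∈ s, ∫ ω, f i ω * conj (χ (γ i) ω) ∂μ ≠ 0) ∧
      ∀ᶠ n in (p : Filter ℕ), δ' ≤ ‖∫ ω, ∏ i,
        (if i ∈ s then χ ((σ ^ g n i) (γ i)) ω else f i (τ^[g n i] ω)) ∂μ‖ := by
  have hC : ∀ i, ∃ C : ℝ, 1 ≤ C ∧ ∀ ω, ‖f i ω‖ ≤ C := fun i => by
    obtain ⟨C, hC⟩ := (hf i).2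
    exact ⟨max C 1, le_max_right _ _, fun ω => (hC ω).trans (le_max_left _ _)⟩
  choose C hC1 hC using hC
  induction s using Finset.induction_on with
  | empty => exact ⟨0, δ, hδ, by simp, by simpa using H⟩
  | insert i s hi ih =>
    obtain ⟨γ, δ', hδ', h1, h2⟩ := ih
    have hB : ∀ n j, B μ m0 fun ω =>
        if j ∈ s then χ ((σ ^ g n j) (γ j)) ω else f j (τ^[g n j] ω) := by
      intro n j
      by_cases hj : j ∈ s
      · simp only [if_pos hj]
        exact h.b _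
      · simp only [if_neg hj]
        exact (((hf j).comp' (@Measurable.iterate Ω 𝒵 τ hτ (g n j))).mono hZ).b
    have hbd : ∀ n j, ∀ᵐ ω ∂μ,
        ‖if j ∈ s then χ ((σ ^ g n j) (γ j)) ω else f j (τ^[g n j] ω)‖ ≤ C j := by
      intro n j
      by_cases hj : j ∈ s
      · simp only [if_pos hj]
        filter_upwards [h.uni ((σ ^ g n j) (γ j))] with ω hω
        exact hω.le.trans (hC1 j)
      · simp only [if_neg hj]
        exact ae_of_all _ fun ω => hC j _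
    obtain ⟨a, δ'', hδ'', h3, h4⟩ := h.end_slot hZ hτ (hf i) (fun n => g n i)
      (fun n ω => ∏ j ∈ Finset.univ.erase i,
        if j ∈ s then χ ((σ ^ g n j) (γ j)) ω else f j (τ^[g n j] ω))
      (fun n => B.prod _ fun j _ => hB n j) (K := ∏ j ∈ Finset.univ.erase i, C j)
      (Finset.prod_pos fun j _ => zero_lt_one.trans_le (hC1 j)) (fun n => by
        filter_upwards [ae_all_iff.2 (hbd n)] with ω hω
        rw [norm_prod]
        exact Finset.prod_le_prod (fun j _ => norm_nonneg _) fun j _ => hω j) p hδ' (by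
        filter_upwards [h2] with n hn
        refine hn.trans_eq ?_
        congr 1
        refine integral_congr_ae (ae_of_all _ fun ω => ?_)
        simp only
        rw [← Finset.mul_prod_erase _ _ (Finset.mem_univ i), if_neg hi])
    refine ⟨Function.update γ i a, δ'', hδ'', fun j hj => ?_, ?_⟩
    · rcases Finset.mem_insert.1 hj with rfl | hj'
      · rwa [Function.update_self]
      · rw [Function.update_of_ne (fun e : j = i => hi (e ▸ hj'))]
        exact h1 j hj'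
    · filter_upwards [h4] with n hn
      refine hn.trans_eq ?_
      congr 1
      refine integral_congr_ae (ae_of_all _ fun ω => ?_)
      simp only
      rw [← Finset.mul_prod_erase _ _ (Finset.mem_univ i), if_pos (Finset.mem_insert_self i s),
        Function.update_self]
      congr 1
      refine Finset.prod_congr rfl fun j hj => ?_
      have hji : j ≠ i := Finset.ne_of_mem_erase hj
      simp only [Finset.mem_insert, hji, false_or, Function.update_of_ne hji]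

theorem IsCharSys.endgame (h : IsCharSys μ 𝒵 τ χ σ) (hZ : 𝒵 ≤ m0) (hτ : Measurable[𝒵, 𝒵] τ)
    (hmix : ∀ G G', SB 𝒵 G → SB 𝒵 G' → Tendsto (fun n : ℕ => ∫ ω, G (τ^[n] ω) * G' ω ∂μ) atTop
      (𝓝 ((∫ ω, G ω ∂μ) * ∫ ω, G' ω ∂μ)))
    {ι : Type} [Fintype ι] [DecidableEq ι] (g : ℕ → ι → ℕ) (p : Ultrafilter ℕ)
    (hp : (p : Filter ℕ) ≤ atTop) (hg : ∀ (n : ℕ) (i j : ι), i ≠ j → (n : ℤ) ≤ |(g n i : ℤ) - g n j|)
    (f : ι → Ω → ℂ) (hf : ∀ i, SB 𝒵 (f i)) (l : ι) (hl : ∫ ω, f l ω ∂μ = 0) {δ : ℂ} (hδ : δ ≠ 0)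
    (hlim : Tendsto (fun n => ∫ ω, ∏ i, f i (τ^[g n i] ω) ∂μ) p (𝓝 δ)) : False := by
  have hδ' : 0 < ‖δ‖ / 2 := half_pos (norm_pos_iff.2 hδ)
  have H : ∀ᶠ n in (p : Filter ℕ), ‖δ‖ / 2 ≤ ‖∫ ω, ∏ i, f i (τ^[g n i] ω) ∂μ‖ :=
    hlim.norm.eventually (le_mem_nhds (half_lt_self (norm_pos_iff.2 hδ)))
  obtain ⟨γ, δ', hδ'', h1, h2⟩ := h.end_all hZ hτ g p f hf hδ' H Finset.univ
  obtain ⟨Z, hZ1, hZ2⟩ := h.exists_Z
  obtain ⟨N, s, hN, hs⟩ := quasi_unipotent σ Z hZ2 γ (fun L => by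
    obtain ⟨n, hn, hL⟩ := (h2.and (hp (eventually_ge_atTop L))).exists
    refine ⟨g n, fun i j hij => le_trans (by exact_mod_cast hL) (hg n i j hij), (hZ1 _).2 ?_⟩
    rw [integral_congr_ae (h.sum Finset.univ fun i => (σ ^ g n i) (γ i))]
    simp only [Finset.mem_univ, if_true] at hn
    exact norm_pos_iff.1 (hδ''.trans_le hn)) l
  have h3 := h.vdc hZ hτ hmix hN s (-γ l) ((hZ1 _).1 (by rw [map_neg]; exact Z.neg_mem hs)) (hf l)
  rw [hl, zero_mul] at h3
  refine h1 l (Finset.mem_univ l) (Eq.trans (integral_congr_ae ?_) h3)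
  filter_upwards [h.neg (γ l)] with ω hω
  rw [hω]

end Crest.Agent.R69
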