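import Crest.Agent.R69.Cyl

/-!
# R69: disintegration over the frame

-/

set_option autoImplicit false
set_option linter.unusedSectionVars false
open MeasureTheory ProbabilityTheory Filter Topology
open scoped ComplexConjugate

namespace Crest.Agent.R69

variable {ι : Type} [Fintype ι] [DecidableEq ι] {m : Measure (Om ι)} [IsProbabilityMeasure m]
  {Ψ X X0 X1 X2 : Set (P ι)} {κ : Om ι → Measure (Om ι)}

lemma fib_meas_cylS {s : Set (Om ι)} (hs : s ∈ cylS X) : MeasurableSet[F X] s := by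
  rw [F_eq_generateFrom]
  exact MeasurableSpace.measurableSet_generateFrom hs

lemma fib_int_ind (ν : Measure (Om ι)) {s : Set (Om ι)} (hs : MeasurableSet s) :
    ∫ y, s.indicator (fun _ => (1 : ℂ)) y ∂ν = ((ν.real s : ℝ) : ℂ) := by
  rw [integral_indicator_const _ hs]
  simp

lemma IsDis.ce_ind (h : IsDis m Ψ κ) {s : Set (Om ι)} (hs : MeasurableSet s) :
    m[s.indicator fun _ => (1 : ℂ) | F Ψ] =ᵐ[m] fun ω => (((κ ω).real s : ℝ) : ℂ) := by
  filter_upwards [h.ce _ ((integrable_const (1 : ℂ)).indicator hs)] with ω hω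
  rw [hω, fib_int_ind _ hs]

/-- `condExpKernel m (F Ψ)`, `condExp_ae_eq_integral_condExpKernel`, `Integrable.condExpKernel_ae`. -/
theorem exists_dis (m : Measure (Om ι)) [IsProbabilityMeasure m] (Ψ : Set (P ι)) :
    ∃ κ : Om ι → Measure (Om ι), IsDis m Ψ κ := by
  refine ⟨fun ω => condExpKernel m (F Ψ) ω, fun ω => inferInstance, fun f hf => ?_, fun f hf => ?_⟩
  · exact condExp_ae_eq_integral_condExpKernel (F_le Ψ) hf
  · exact hf.condExpKernel_ae

/-- null sets are null in almost every fibre (indicator of a measurable null superset) -/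
theorem IsDis.ae_ae (h : IsDis m Ψ κ) {q : Om ι → Prop} (hq : ∀ᵐ ω ∂m, q ω) :
    ∀ᵐ ω ∂m, ∀ᵐ y ∂(κ ω), q y := by
  have hN : MeasurableSet (toMeasurable m {ω | ¬q ω}) := measurableSet_toMeasurable _ _
  have h0 : m (toMeasurable m {ω | ¬q ω}) = 0 := by rw [measure_toMeasurable]; exact hq
  have h1 : (toMeasurable m {ω | ¬q ω}).indicator (fun _ => (1 : ℂ)) =ᵐ[m] 0 := by
    filter_upwards [measure_eq_zero_iff_ae_notMem.1 h0] with ω hω
    exact Set.indicator_of_notMem hω _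
  have h2 := condExp_congr_ae (m := F Ψ) h1
  rw [condExp_zero] at h2
  filter_upwards [h2, h.ce_ind hN] with ω e1 e2
  have := h.prob ω
  rw [e2, Pi.zero_apply, Complex.ofReal_eq_zero, measureReal_eq_zero_iff] at e1
  exact measure_mono_null (subset_toMeasurable m _) e1

/-- the frame is constant on fibres (`E[1{· v = x} | F Ψ] = 1{· v = x}`, countably many `(v, x)`) -/
theorem IsDis.frame_const (h : IsDis m Ψ κ) : ∀ᵐ ω ∂m, ∀ᵐ y ∂(κ ω), ∀ v ∈ Ψ, y v = ω v := by
  have key : ∀ (v : P ι) (x : ι → Bool), v ∈ Ψ → ∀ᵐ ω ∂m, ω v = x → ∀ᵐ y ∂(κ ω), y v = x := by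
    intro v x hv
    have hs : MeasurableSet[F Ψ] ((fun y : Om ι => y v) ⁻¹' {x}) :=
      measurable_cylinderEvent_apply (X := fun _ : P ι => ι → Bool) hv (measurableSet_singleton x)
    have hs' : MeasurableSet ((fun y : Om ι => y v) ⁻¹' {x}) := F_le Ψ _ hs
    have hb : B m (F Ψ) (((fun y : Om ι => y v) ⁻¹' {x}).indicator fun _ => (1 : ℂ)) :=
      B.indicator hs
    filter_upwards [ce_of_aesm (F_le Ψ) hb.aesm (hb.integrable (F_le Ψ)), h.ce_ind hs'] with ω e1 e2 hω
    have := h.prob ω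
    rw [e2, Set.indicator_of_mem (show ω ∈ (fun y : Om ι => y v) ⁻¹' {x} from hω),
      Complex.ofReal_eq_one, measureReal_def, ENNReal.toReal_eq_one_iff] at e1
    exact (mem_ae_iff_prob_eq_one hs').2 e1
  have key2 : ∀ᵐ ω ∂m, ∀ (v : P ι) (x : ι → Bool), v ∈ Ψ → ω v = x → ∀ᵐ y ∂(κ ω), y v = x := by
    refine ae_all_iff.2 fun v => ae_all_iff.2 fun x => ?_
    by_cases hv : v ∈ Ψ
    · filter_upwards [key v x hv] with ω hω _ using hω
    · exact Eventually.of_forall fun ω hv' => absurd hv' hv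
  filter_upwards [key2] with ω hω
  refine ae_all_iff.2 fun v => ?_
  by_cases hv : v ∈ Ψ
  · filter_upwards [hω v _ hv rfl] with y hy _ using hy
  · exact Eventually.of_forall fun y hv' => absurd hv' hv

/-- If the frame is a.s. constant, an `F (X ∪ Ψ)`-measurable `f` agrees a.e. with
`y ↦ f (fun v => if v ∈ Ψ then ω v else y v)`, which is `F X`-measurable. -/
theorem aesm_of_frame_const {ν : Measure (Om ι)} {ω : Om ι} (hν : ∀ᵐ y ∂ν, ∀ v ∈ Ψ, y v = ω v)
    {f : Om ι → ℂ} (hf : AEStronglyMeasurable[F (X ∪ Ψ)] f ν) : AEStronglyMeasurable[F X] f ν := by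
  classical
  let θ : Om ι → Om ι := fun y v => if v ∈ Ψ then ω v else y v
  have hθ : Measurable[F X, F (X ∪ Ψ)] θ := by
    refine (measurable_cylinderEvents_iff (X := fun _ : P ι => ι → Bool) (mα := F X)).2 fun v hv => ?_
    by_cases hvΨ : v ∈ Ψ
    · simp only [θ, if_pos hvΨ]
      exact measurable_const
    · simp only [θ, if_neg hvΨ]
      exact measurable_cylinderEvent_apply (X := fun _ : P ι => ι → Bool) (hv.resolve_right hvΨ)
  refine ⟨fun y => hf.mk f (θ y), hf.stronglyMeasurable_mk.comp_measurable hθ, ?_⟩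
  filter_upwards [hν, hf.ae_eq_mk] with y hy e
  have : θ y = y := by
    funext v
    by_cases hvΨ : v ∈ Ψ
    · simp only [θ, if_pos hvΨ, hy v hvΨ]
    · simp only [θ, if_neg hvΨ]
  rw [this, e]

theorem IsDis.aesm (h : IsDis m Ψ κ) {f : Om ι → ℂ} (hf : AEStronglyMeasurable[F (X ∪ Ψ)] f m) :
    ∀ᵐ ω ∂m, AEStronglyMeasurable[F X] f (κ ω) := by
  filter_upwards [h.ae_ae hf.ae_eq_mk, h.frame_const] with ω e hω
  exact aesm_of_frame_const hω ⟨hf.mk f, hf.stronglyMeasurable_mk, e⟩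

/-- Transfer of conditional independence.  For `s ∈ cylS X0` let `b = E_m[1_s | F (X2 ∪ Ψ)]`, a.e. equal
to a bounded `F (X1 ∪ Ψ)`-measurable `β` (`B.exists_sb`).  For `t ∈ cylS X2`,
`E_m[(1_s - β) 1_t | F Ψ] = 0` (tower property through `F (X2 ∪ Ψ)` and pull-out), hence
`∫_t (1_s - β) dκ ω = 0` for a.e. `ω`, for all (countably many) `s`, `t`.  In such a fibre
`β` is a.e. `F X1`-measurable (`aesm_of_frame_const`), `E_κ[1_s - β | F X2] = 0`
(`ce_eq_zero_of_pi`, `cylS_univ`), so `E_κ[1_s | F X2] = β`; finish with `CI_of_pi`. -/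
theorem IsDis.ci (h : IsDis m Ψ κ) (h12 : X1 ⊆ X2)
    (H : CI m (F X0) (F (X2 ∪ Ψ)) (F (X1 ∪ Ψ))) :
    ∀ᵐ ω ∂m, CI (κ ω) (F X0) (F X2) (F X1) := by
  have key : ∀ s ∈ cylS X0, ∀ᵐ ω ∂m,
      AEStronglyMeasurable[F X1] ((κ ω)[s.indicator fun _ => (1 : ℂ) | F X2]) (κ ω) := by
    intro s hs
    have hsm := fib_meas_cylS hs
    have hb : B m (F X0) (s.indicator fun _ => (1 : ℂ)) := B.indicator hsm
    obtain ⟨β, hβ, eβ⟩ := ((hb.condExp (F (X2 ∪ Ψ))).of_aesm (H _ hb)).exists_sb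
    have h1 : F (X1 ∪ Ψ) ≤ F (X2 ∪ Ψ) := F_mono (Set.union_subset_union_left _ h12)
    have h2 : F Ψ ≤ F (X2 ∪ Ψ) := F_mono Set.subset_union_right
    have h3 : F X2 ≤ F (X2 ∪ Ψ) := F_mono Set.subset_union_left
    have hβi : ∀ (ν : Measure (Om ι)) [IsFiniteMeasure ν], Integrable β ν := fun ν _ =>
      (hβ.b (μ := ν)).integrable (F_le _)
    have hsi : ∀ (ν : Measure (Om ι)) [IsFiniteMeasure ν],
        Integrable (s.indicator fun _ => (1 : ℂ)) ν := fun ν _ =>
      (integrable_const (1 : ℂ)).indicator (F_le _ _ hsm)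
    have hgi : ∀ (ν : Measure (Om ι)) [IsFiniteMeasure ν],
        Integrable (fun y => s.indicator (fun _ => (1 : ℂ)) y - β y) ν := fun ν _ =>
      (hsi ν).sub (hβi ν)
    have hg0 : m[fun y => s.indicator (fun _ => (1 : ℂ)) y - β y | F (X2 ∪ Ψ)] =ᵐ[m] fun _ => 0 := by
      filter_upwards [ce_sub (hsi m) (hβi m) (F (X2 ∪ Ψ)), eβ,
        ce_of_aesm (𝒢 := F (X2 ∪ Ψ)) (F_le _) ((hβ.mono h1).b (μ := m)).aesm (hβi m)] with y e1 e2 e3
      rw [e1, e2, e3, sub_self]
    have ht : ∀ t ∈ cylS X2, ∀ᵐ ω ∂m,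
        ∫ y in t, (s.indicator (fun _ => (1 : ℂ)) y - β y) ∂(κ ω) = 0 := by
      intro t ht
      have htm := fib_meas_cylS ht
      have hbt : B m (F (X2 ∪ Ψ)) (t.indicator fun _ => (1 : ℂ)) := B.indicator (h3 _ htm)
      have e1 : m[fun y => (s.indicator (fun _ => (1 : ℂ)) y - β y) * t.indicator (fun _ => (1 : ℂ)) y |
          F (X2 ∪ Ψ)] =ᵐ[m] 0 := by
        filter_upwards [ce_mul_right hbt (F_le _) (hgi m), hg0] with y e1 e2
        rw [e1, e2, zero_mul, Pi.zero_apply]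
      have e2 := condExp_congr_ae (m := F Ψ) e1
      rw [condExp_zero] at e2
      filter_upwards [e2, ce_tower h2 (F_le _)
        (fun y => (s.indicator (fun _ => (1 : ℂ)) y - β y) * t.indicator (fun _ => (1 : ℂ)) y),
        h.ce _ (hbt.integrable_mul (F_le _) (hgi m))] with ω e2 e3 e4
      rw [e3, e4, Pi.zero_apply] at e2
      rw [← e2, ← integral_indicator (F_le _ _ htm)]
      refine integral_congr_ae (Eventually.of_forall fun y => ?_)
      by_cases hy : y ∈ t
      · simp only [Set.indicator_of_mem hy, mul_one]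
      · simp only [Set.indicator_of_notMem hy, mul_zero]
    filter_upwards [(ae_ball_iff (countable_cylS X2)).2 ht, h.frame_const] with ω hω hfr
    have := h.prob ω
    have hβ1 : AEStronglyMeasurable[F X1] β (κ ω) :=
      aesm_of_frame_const hfr (hβ.b (μ := κ ω)).aesm
    have h0 := hω _ (cylS_univ X2)
    rw [Measure.restrict_univ] at h0
    have e1 := ce_eq_zero_of_pi (isPiSystem_cylS X2) (F_eq_generateFrom X2) (F_le X2) (hgi (κ ω)) h0 hω
    refine hβ1.congr ?_
    filter_upwards [e1, ce_sub (hsi (κ ω)) (hβi (κ ω)) (F X2),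
      ce_of_aesm (𝒢 := F X2) (F_le _) (hβ1.mono (F_mono h12)) (hβi (κ ω))] with y e1 e2 e3
    rw [e2, e3, sub_eq_zero] at e1
    exact e1.symm
  filter_upwards [(ae_ball_iff (countable_cylS X0)).2 key] with ω hω
  have := h.prob ω
  exact CI_of_pi (isPiSystem_cylS X0) (F_eq_generateFrom X0) (F_le _) (F_mono h12) (F_le _) hω

/-- the marginal on positions independent of the frame (`ce_indep`, `measure_eq_on_F`) -/
theorem IsDis.marginal (h : IsDis m Ψ κ) (H : Indep (F X) (F Ψ) m) :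
    ∀ᵐ ω ∂m, ∀ s, MeasurableSet[F X] s → κ ω s = m s := by
  have key : ∀ s ∈ cylS X, ∀ᵐ ω ∂m, κ ω s = m s := by
    intro s hs
    have hsm := fib_meas_cylS hs
    have hb : B m (F X) (s.indicator fun _ => (1 : ℂ)) := B.indicator hsm
    filter_upwards [ce_indep (F_le X) (F_le Ψ) H hb.aesm, h.ce_ind (F_le _ _ hsm)] with ω e1 e2
    have := h.prob ω
    rw [e2, fib_int_ind _ (F_le _ _ hsm), Complex.ofReal_inj, measureReal_eq_measureReal_iff] at e1
    exact e1
  filter_upwards [(ae_ball_iff (countable_cylS X)).2 key] with ω hω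
  have := h.prob ω
  exact measure_eq_on_F hω

end Crest.Agent.R69
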