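import Crest.Agent.R69.GChar

/-!
# R69: expansion in characters, localisation

-/

set_option autoImplicit false
open MeasureTheory ProbabilityTheory Filter Topology
open scoped ComplexConjugate

namespace Crest.Agent.R69

universe u
variable {Ω : Type u} {C : Fin 3 → Fin 3 → MeasurableSpace Ω} {a b : Fin 3 → MeasurableSpace Ω}
  {𝒵 : MeasurableSpace Ω} {m0 : MeasurableSpace Ω} {μ : Measure Ω} [IsProbabilityMeasure μ]

omit [IsProbabilityMeasure μ] in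
lemma Grid.gs_indep_col (h : Grid μ C) {i i' : Fin 3} (hi : i ≠ i') (j j' : Fin 3) :
    Indep (C i j) (C i' j') μ :=
  indep_of_indep_of_le (h.rowI i i' hi) (le_rowS i j) (le_rowS i' j')

omit [IsProbabilityMeasure μ] in
lemma Grid.gs_indep_row (h : Grid μ C) (i i' : Fin 3) {j j' : Fin 3} (hj : j ≠ j') :
    Indep (C i j) (C i' j') μ :=
  indep_of_indep_of_le (h.colI j j' hj) (le_colS i j) (le_colS i' j')

lemma Grid.gs_dichC (h : Grid μ C) {w : Ω → ℂ} (hw : Chr μ (C 0 2) (C 1 2) (C 2 2) w)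
    (h0 : ∫ ω, w ω ∂μ ≠ 0) : ∃ c : ℂ, w =ᵐ[μ] fun _ => c :=
  Chr.dich (h.le 0 2) (h.le 1 2) (h.le 2 2) (h.gs_indep_col (by decide) 2 2)
    (h.gs_indep_col (by decide) 2 2) (h.gs_indep_col (by decide) 2 2) hw h0

lemma Grid.gs_dichR (h : Grid μ C) {w : Ω → ℂ} (hw : Chr μ (C 2 0) (C 2 1) (C 2 2) w)
    (h0 : ∫ ω, w ω ∂μ ≠ 0) : ∃ c : ℂ, w =ᵐ[μ] fun _ => c :=
  Chr.dich (h.le 2 0) (h.le 2 1) (h.le 2 2) (h.gs_indep_row 2 2 (by decide))
    (h.gs_indep_row 2 2 (by decide)) (h.gs_indep_row 2 2 (by decide)) hw h0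

lemma gs_transfer {𝒳 𝒴 𝒲 𝒳' 𝒴' 𝒲' : MeasurableSpace Ω} {m0 : MeasurableSpace Ω} {μ : Measure Ω}
    [IsProbabilityMeasure μ] (hW : 𝒲 ≤ m0) {F w : Ω → ℂ} (hF : B μ m0 F)
    (hspan : ∀ ε : ℝ, 0 < ε → ∃ (n : ℕ) (v : Fin n → Ω → ℂ) (c : Fin n → ℂ),
      (∀ j, Chr μ 𝒳 𝒴 𝒲 (v j) ∧ Chr μ 𝒳' 𝒴' 𝒲' (v j)) ∧
      ∫ ω, ‖F ω - ∑ j, c j * v j ω‖ ^ 2 ∂μ ≤ ε)
    (hdich : ∀ u, Chr μ 𝒳 𝒴 𝒲 u → ∫ ω, u ω ∂μ ≠ 0 → ∃ c : ℂ, u =ᵐ[μ] fun _ => c)
    (hw : Chr μ 𝒳 𝒴 𝒲 w) (h0 : ∫ ω, F ω * w ω ∂μ ≠ 0) : Chr μ 𝒳' 𝒴' 𝒲' w := by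
  by_contra hcon
  have hwB : B μ m0 w := hw.b.mono hW
  have horth : ∀ v, Chr μ 𝒳 𝒴 𝒲 v → Chr μ 𝒳' 𝒴' 𝒲' v → ∫ ω, v ω * w ω ∂μ = 0 := by
    intro v hv hv'
    by_contra hne
    obtain ⟨c, hc⟩ := hdich _ (hv.mul hw) hne
    have hc1 : ‖c‖ = 1 := by
      obtain ⟨ω, h1, h2⟩ := (hc.and (hv.mul hw).uni).exists
      have h1 : v ω * w ω = c := h1
      rw [← h2, h1]
    refine hcon (((Chr.const hc1).mul hv'.conj).congr ?_)
    filter_upwards [hc, hv.uni] with ω h1 h2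
    have h3 : v ω * conj (v ω) = 1 := by
      rw [Complex.mul_conj, Complex.normSq_eq_norm_sq, h2]; simp
    rw [← h1]
    linear_combination w ω * h3
  have hw2 : ∫ ω, ‖w ω‖ ^ 2 ∂μ = 1 := by
    rw [integral_congr_ae (g := fun _ => (1 : ℝ)) (hw.uni.mono fun ω h => by simp [h])]
    simp
  have hδ : 0 < ‖∫ ω, F ω * w ω ∂μ‖ := norm_pos_iff.2 h0
  obtain ⟨n, v, c, hv, hε⟩ := hspan ((‖∫ ω, F ω * w ω ∂μ‖ / 2) ^ 2) (by positivity)
  have hvB : ∀ j, B μ m0 (v j) := fun j => (hv j).1.b.mono hW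
  have hS : B μ m0 (fun ω => ∑ j, c j * v j ω) := B.sum _ fun j _ => (B.const (c j)).mul (hvB j)
  have e1 : ∫ ω, (F ω - ∑ j, c j * v j ω) * w ω ∂μ = ∫ ω, F ω * w ω ∂μ := by
    simp_rw [sub_mul]
    rw [integral_sub ((hF.mul hwB).integrable le_rfl) ((hS.mul hwB).integrable le_rfl)]
    simp_rw [Finset.sum_mul, mul_assoc]
    rw [integral_finsetSum _ fun j _ => (((hvB j).mul hwB).integrable le_rfl).const_mul _]
    simp_rw [integral_const_mul]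
    rw [Finset.sum_eq_zero fun j _ => by rw [horth _ (hv j).1 (hv j).2, mul_zero], sub_zero]
  have e2 := norm_int_mul_le ((hF.sub hS).memLp le_rfl 2) (hwB.memLp le_rfl 2)
  rw [e1, hw2, Real.sqrt_one, mul_one] at e2
  have e3 := Real.sqrt_le_sqrt hε
  rw [Real.sqrt_sq (by positivity)] at e3
  linarith

/-- Let `S` be the set of elements of `Lp ℂ 2 μ` that are column and row characters `w` with
`∫ F conj w ≠ 0`, `V` the closure of its span, `ξ = F - P_V F`.  `ξ` is `𝒟`-measurable (`lpMeas` is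
closed; `aesm_DD_iff`, `Chr.aesm_sup`).  If `ξ ≠ 0`, `exists_chr` gives `w` with `∫ ξ conj w ≠ 0`; `w ∉ S`, so
`w ⟂ F`, and `w ⟂ w'` for `w' ∈ S` (otherwise `w' conj w` is constant by `Chr.dich` and `w ∈ S`), so
`w ⟂ ξ`, a contradiction.  Then `Submodule.mem_span_set'`. -/
theorem Grid.span (h : Grid μ C) {F : Ω → ℂ} (hF : B μ (DD μ C) F) {ε : ℝ} (hε : 0 < ε) :
    ∃ (n : ℕ) (w : Fin n → Ω → ℂ) (c : Fin n → ℂ),
      (∀ j, Chr μ (C 0 2) (C 1 2) (C 2 2) (w j) ∧ Chr μ (C 2 0) (C 2 1) (C 2 2) (w j) ∧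
        ∫ ω, F ω * conj (w j ω) ∂μ ≠ 0) ∧
      ∫ ω, ‖F ω - ∑ j, c j * w j ω‖ ^ 2 ∂μ ≤ ε := by
  have hD : DD μ C ≤ m0 := h.DD_le
  have hF2 : MemLp F 2 μ := hF.memLp hD 2
  set f : Lp ℂ 2 μ := hF2.toLp F with hf
  have hfF : f =ᵐ[μ] F := hF2.coeFn_toLp
  set S : Set (Lp ℂ 2 μ) := {x | Chr μ (C 0 2) (C 1 2) (C 2 2) x ∧ Chr μ (C 2 0) (C 2 1) (C 2 2) x ∧
    ∫ ω, F ω * conj (x ω) ∂μ ≠ 0} with hS
  set V : Submodule ℂ (Lp ℂ 2 μ) := (Submodule.span ℂ S).topologicalClosure with hV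
  have hVD : V ≤ lpMeas ℂ ℂ (DD μ C) 2 μ := by
    refine Submodule.topologicalClosure_minimal _ (Submodule.span_le.2 fun x hx => ?_)
      (isClosed_aestronglyMeasurable hD)
    exact aesm_DD_iff.2 ⟨hx.1.1, hx.1.aesm_sup, hx.2.1.aesm_sup⟩
  have hfV : f ∈ V := by
    obtain ⟨y, hy, z, hz, e⟩ := V.exists_add_mem_mem_orthogonal f
    have hzm : z ∈ lpMeas ℂ ℂ (DD μ C) 2 μ := by
      have : z = f - y := by rw [e]; abel
      rw [this]
      exact Submodule.sub_mem _ (hF.aesm.congr hfF.symm) (hVD hy)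
    have hz0 : z = 0 := by
      by_contra hne
      obtain ⟨w, hw1, hw2, hw0⟩ := h.exists_chr (Lp.memLp z) hzm
        (fun h' => hne (Lp.ext (h'.trans (Lp.coeFn_zero ℂ 2 μ).symm)))
      have hwL : MemLp w 2 μ := hw1.b.memLp (h.le 2 2) 2
      set W : Lp ℂ 2 μ := hwL.toLp w with hW
      have hWw : W =ᵐ[μ] w := hwL.coeFn_toLp
      have hin : ∀ x : Lp ℂ 2 μ, inner ℂ W x = ∫ ω, x ω * conj (w ω) ∂μ := by
        intro x
        rw [hsp_inner]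
        exact integral_congr_ae (hWw.mono fun ω h => by simp only [h])
      have hFw : ∫ ω, F ω * conj (w ω) ∂μ = 0 := by
        by_contra hne'
        have hWS : W ∈ S := by
          refine ⟨hw1.congr hWw.symm, hw2.congr hWw.symm, ?_⟩
          rwa [integral_congr_ae (g := fun ω => F ω * conj (w ω))
            (hWw.mono fun ω h => by simp only [h])]
        apply hw0
        rw [← hin]
        exact hz W (Submodule.le_topologicalClosure _ (Submodule.subset_span hWS))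
      have hVW : V ≤ (ℂ ∙ W)ᗮ := by
        refine Submodule.topologicalClosure_minimal _ (Submodule.span_le.2 fun x hx => ?_)
          (Submodule.isClosed_orthogonal _)
        refine Submodule.mem_orthogonal_singleton_iff_inner_right.2 ?_
        rw [hin]
        by_contra hne'
        obtain ⟨c, hc⟩ := h.gs_dichC (hx.1.mul hw1.conj) hne'
        apply hx.2.2
        have : ∫ ω, F ω * conj (x ω) ∂μ = ∫ ω, conj c * (F ω * conj (w ω)) ∂μ := by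
          refine integral_congr_ae ?_
          filter_upwards [hc, hw1.uni] with ω h1 h2
          have h3 : w ω * conj (w ω) = 1 := by
            rw [Complex.mul_conj, Complex.normSq_eq_norm_sq, h2]; simp
          rw [← h1, map_mul, Complex.conj_conj]
          linear_combination (-(F ω * conj (x ω))) * h3
        rw [this, integral_const_mul, hFw, mul_zero]
      have h1 : inner ℂ W y = 0 := Submodule.mem_orthogonal_singleton_iff_inner_right.1 (hVW hy)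
      have h2 : inner ℂ W f = 0 := by
        rw [hin, ← hFw]
        exact integral_congr_ae (hfF.mono fun ω h => by simp only [h])
      apply hw0
      rw [← hin]
      rwa [e, inner_add_right, h1, zero_add] at h2
    rw [e, hz0, add_zero]
    exact hy
  obtain ⟨v, hv, hdist⟩ := Metric.mem_closure_iff.1 hfV (√ε) (Real.sqrt_pos.2 hε)
  obtain ⟨n, c, g, rfl⟩ := Submodule.mem_span_set'.1 hv
  refine ⟨n, fun j => (g j : Lp ℂ 2 μ), c, fun j => (g j).2, ?_⟩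
  have e1 : ∫ ω, ‖F ω - ∑ j, c j * (g j : Lp ℂ 2 μ) ω‖ ^ 2 ∂μ =
      ‖f - ∑ j, c j • (g j : Lp ℂ 2 μ)‖ ^ 2 := by
    rw [← hsp_norm_sq]
    refine integral_congr_ae ?_
    have h1 : ∀ᵐ ω ∂μ, ∀ j, (c j • (g j : Lp ℂ 2 μ) : Lp ℂ 2 μ) ω = c j * (g j : Lp ℂ 2 μ) ω :=
      ae_all_iff.2 fun j => Lp.coeFn_smul (c j) (g j : Lp ℂ 2 μ)
    filter_upwards [Lp.coeFn_sub f (∑ j, c j • (g j : Lp ℂ 2 μ)), hfF,
      Lp.coeFn_finsetSum Finset.univ (fun j => c j • (g j : Lp ℂ 2 μ)), h1] with ω h2 h3 h4 h5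
    rw [h2, Pi.sub_apply, h3, h4, Finset.sum_apply]
    simp only [h5]
  rw [e1, ← dist_eq_norm]
  calc _ ≤ √ε ^ 2 := by gcongr
    _ = ε := Real.sq_sqrt hε.le

/-- A column character correlating with `F ∈ 𝒟` is a row character and vice versa: if `∫ w_j w = 0` for
all `w_j` in all approximations of `span` then `∫ F w = 0` (`norm_int_mul_le`); otherwise `w_j w` is
constant (`Chr.dich`) and `w = c conj w_j`. -/
theorem Grid.chr_iff (h : Grid μ C) {F w : Ω → ℂ} (hF : B μ (DD μ C) F)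
    (h0 : ∫ ω, F ω * w ω ∂μ ≠ 0) :
    Chr μ (C 0 2) (C 1 2) (C 2 2) w ↔ Chr μ (C 2 0) (C 2 1) (C 2 2) w := by
  constructor
  · intro hw
    refine gs_transfer (h.le 2 2) (hF.mono h.DD_le) (fun ε hε => ?_) (fun u => h.gs_dichC) hw h0
    obtain ⟨n, v, c, hv, hε⟩ := h.span hF hε
    exact ⟨n, v, c, fun j => ⟨(hv j).1, (hv j).2.1⟩, hε⟩
  · intro hw
    refine gs_transfer (h.le 2 2) (hF.mono h.DD_le) (fun ε hε => ?_) (fun u => h.gs_dichR) hw h0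
    obtain ⟨n, v, c, hv, hε⟩ := h.span hF hε
    exact ⟨n, v, c, fun j => ⟨(hv j).2.1, (hv j).1⟩, hε⟩

/-- `chr_iff`, `span`, `Chr.localise`, `Chr.dich`, `Chr.mono`. -/
theorem Grid.good (h : Grid μ C) (ha : ∀ j, a j ≤ C j 2) (hb : ∀ j, b j ≤ C 2 j) (hZ : 𝒵 ≤ C 2 2)
    (hca : CI μ (a 0 ⊔ a 1) (C 2 2) (a 2)) (hcb : CI μ (b 0 ⊔ b 1) (C 2 2) (b 2))
    (hZa : 𝒵 ≤ full μ (a 0 ⊔ a 1)) (hZb : 𝒵 ≤ full μ (b 0 ⊔ b 1)) : Good μ 𝒵 a b := by
  have hFa : ∀ F, SB 𝒵 F → AEStronglyMeasurable[a 0 ⊔ a 1] F μ := fun F hF =>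
    aesm_of_measurable_full (𝒢 := a 0 ⊔ a 1) (hF.mono hZa).1
  have hFb : ∀ F, SB 𝒵 F → AEStronglyMeasurable[b 0 ⊔ b 1] F μ := fun F hF =>
    aesm_of_measurable_full (𝒢 := b 0 ⊔ b 1) (hF.mono hZb).1
  have hF2 : ∀ F, SB 𝒵 F → B μ (C 2 2) F := fun F hF => (hF.mono hZ).b
  have hFD : ∀ F, SB 𝒵 F → B μ (DD μ C) F := fun F hF =>
    (hF2 F hF).of_aesm (aesm_DD_iff.2 ⟨(hF2 F hF).aesm,
      (hFa F hF).mono (sup_le_sup (ha 0) (ha 1)), (hFb F hF).mono (sup_le_sup (hb 0) (hb 1))⟩)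
  have locA : ∀ w F, Chr μ (C 0 2) (C 1 2) (C 2 2) w → SB 𝒵 F → ∫ ω, F ω * w ω ∂μ ≠ 0 →
      Chr μ (a 0) (a 1) (a 2) w := fun w F hw hF h0 =>
    Chr.localise (h.le 0 2) (h.le 1 2) (h.le 2 2) (h.gs_indep_col (by decide) 2 2)
      (h.gs_indep_col (by decide) 2 2) (h.gs_indep_col (by decide) 2 2) (ha 0) (ha 1) hca hw
      (hF2 F hF) (hFa F hF) h0
  have locB : ∀ w F, Chr μ (C 2 0) (C 2 1) (C 2 2) w → SB 𝒵 F → ∫ ω, F ω * w ω ∂μ ≠ 0 →
      Chr μ (b 0) (b 1) (b 2) w := fun w F hw hF h0 =>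
    Chr.localise (h.le 2 0) (h.le 2 1) (h.le 2 2) (h.gs_indep_row 2 2 (by decide))
      (h.gs_indep_row 2 2 (by decide)) (h.gs_indep_row 2 2 (by decide)) (hb 0) (hb 1) hcb hw
      (hF2 F hF) (hFb F hF) h0
  refine ⟨fun w hw h0 => h.gs_dichC (hw.mono (ha 0) (ha 1) (ha 2)) h0, fun w F hw hF h0 => ?_,
    fun w F hw hF h0 => ?_, fun F hF ε hε => ?_⟩
  · exact locB w F ((h.chr_iff (hFD F hF) h0).1 (hw.mono (ha 0) (ha 1) (ha 2))) hF h0
  · exact locA w F ((h.chr_iff (hFD F hF) h0).2 (hw.mono (hb 0) (hb 1) (hb 2))) hF h0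
  · obtain ⟨n, v, c, hv, hε⟩ := h.span (hFD F hF) hε
    refine ⟨n, v, c, fun j => ⟨?_, (hv j).2.2⟩, hε⟩
    exact (locA _ F (hv j).1.conj hF (hv j).2.2).conj.congr
      (Eventually.of_forall fun ω => Complex.conj_conj _)

end Crest.Agent.R69
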