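import Crest.Agent.R69.GCI
import Crest.Agent.R69.Fiber
import Crest.Agent.R69.GSpan

/-!
# R69: almost every fibre is good

-/

set_option autoImplicit false
set_option warn.classDefReducibility false
set_option linter.unusedSectionVars false
open MeasureTheory ProbabilityTheory Filter Topology
open scoped ComplexConjugate

namespace Crest.Agent.R69

variable {ι : Type} [Fintype ι] [DecidableEq ι] {g : ℕ → ι → ℕ} {p : Ultrafilter ℕ}
  {m : Measure (Om ι)} [IsProbabilityMeasure m] {bs : ℚ → ι} {Js : ℚ → Finset ι}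
  {l : ι} {gr : ι → Fin 3} {κ : Om ι → Measure (Om ι)}

lemma fg_F_le {X : Set (P ι)} {𝒢 : MeasurableSpace (Om ι)}
    (h : ∀ v ∈ X, ∃ Y : Set (P ι), v ∈ Y ∧ F Y ≤ 𝒢) : F X ≤ 𝒢 := by
  refine iSup₂_le fun v hv => ?_
  obtain ⟨Y, hvY, hY⟩ := h v hv
  refine le_trans ?_ hY
  exact le_iSup₂_of_le (f := fun (i : P ι) (_ : i ∈ Y) =>
    (inferInstance : MeasurableSpace (ι → Bool)).comap fun σ : Om ι => σ i) v hvY le_rfl

lemma fg_dig_mono {U U' : Set ι} (h : U ⊆ U') : dig l U ⊆ dig l U' :=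
  fun _ ⟨i, hi, e⟩ => ⟨i, h hi, e⟩

lemma fg_cor_mono {U U' V V' : Set ι} (h : U ⊆ U') (h' : V ⊆ V') : cor l U V ⊆ cor l U' V' :=
  fun _ ⟨h1, h2, h3⟩ => ⟨h1, fg_dig_mono h h2, fg_dig_mono h' h3⟩

lemma fg_cor_empty_left (V : Set ι) : cor l ∅ V = ∅ :=
  Set.eq_empty_of_forall_notMem fun _ ⟨_, ⟨_, hi, _⟩, _⟩ => hi

lemma fg_cor_empty_right (U : Set ι) : cor l U ∅ = ∅ :=
  Set.eq_empty_of_forall_notMem fun _ ⟨_, _, ⟨_, hi, _⟩⟩ => hi

lemma fg_ne_univ (hG : Grp l gr) {ρ : Finset (Fin 3)} (h : ρ ≠ Finset.univ) :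
    gr ⁻¹' (ρ : Set (Fin 3)) ∪ ∅ ≠ Set.univ := by
  intro e
  apply h
  refine Finset.eq_univ_of_forall fun a => ?_
  obtain ⟨i, rfl⟩ := hG.surj a
  have : i ∈ gr ⁻¹' (ρ : Set (Fin 3)) ∪ ∅ := e ▸ Set.mem_univ i
  simpa using this

lemma fg_ne_univ2 (hG : Grp l gr) (a b : Fin 3) :
    gr ⁻¹' (({a} : Finset (Fin 3)) : Set (Fin 3)) ∪ gr ⁻¹' (({b} : Finset (Fin 3)) : Set (Fin 3)) ≠
      Set.univ := by
  intro e
  have : ∀ a b : Fin 3, ∃ c, c ≠ a ∧ c ≠ b := by decide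
  obtain ⟨c, hca, hcb⟩ := this a b
  obtain ⟨i, rfl⟩ := hG.surj c
  have : i ∈ gr ⁻¹' (({a} : Finset (Fin 3)) : Set (Fin 3)) ∪
      gr ⁻¹' (({b} : Finset (Fin 3)) : Set (Fin 3)) := e ▸ Set.mem_univ i
  simp [hca, hcb] at this

lemma fg_disj {a b : Fin 3} (h : a ≠ b) :
    Disjoint (gr ⁻¹' (({a} : Finset (Fin 3)) : Set (Fin 3)))
      (gr ⁻¹' (({b} : Finset (Fin 3)) : Set (Fin 3))) := by
  refine Set.disjoint_left.2 fun i hi hi' => h ?_
  simp only [Finset.coe_singleton, Set.mem_preimage, Set.mem_singleton_iff] at hi hi'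
  rw [← hi, hi']

lemma fg_two (hG : Grp l gr) : gr ⁻¹' {2} = {l} := by
  ext i
  simp [hG.last]

lemma fg_zero_mem {U : Set ι} (h : l ∈ U) : (0 : ι → ℤ) ∈ dig l U := ⟨l, h, (sub_self _).symm⟩

lemma fg_Ioc : Set.Ioc (1 : ℚ) 2 ⊆ S0 := fun y hy => ⟨hy.2, fun e => by
  have h1 := hy.1
  rw [Set.mem_singleton_iff.1 e] at h1
  exact lt_irrefl _ h1⟩

lemma fg_Iio : Set.Iio (1 : ℚ) ⊆ S0 := fun y hy => ⟨by
  have : y < 1 := hy
  show y ≤ 2
  linarith, fun e => by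
  have h1 : y < 1 := hy
  rw [Set.mem_singleton_iff.1 e] at h1
  exact lt_irrefl _ h1⟩

lemma fg_SlC {U V : Set ι} (h : l ∈ V) : Sl (Set.Ioc 1 2) 2 (dig l U) ⊆ cor l U V :=
  fun v hv => ⟨PS_mono fg_Ioc hv.1, hv.2, by
    rw [hv.1 0 (fun h => by have := h.1; norm_num at this)]
    exact fg_zero_mem h⟩

lemma fg_SlR {U V : Set ι} (h : l ∈ U) : Sl (Set.Iio 1) 0 (dig l V) ⊆ cor l U V :=
  fun v hv => ⟨PS_mono fg_Iio hv.1, by
    rw [hv.1 2 (fun h => by have : (2 : ℚ) < 1 := h; norm_num at this)]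
    exact fg_zero_mem h, hv.2⟩

lemma fg_Sl_le (hG : Grp l gr) (S : Set ℚ) (c : ℚ) :
    F (Sl S c (dig l {l}ᶜ)) ≤ F (Sl S c (dig l (gr ⁻¹' {0}))) ⊔ F (Sl S c (dig l (gr ⁻¹' {1}))) := by
  rw [← F_union]
  refine F_mono ?_
  rintro v ⟨h1, i, hi, e⟩
  have h2 : gr i ≠ 2 := fun h => hi ((hG.last i).1 h)
  have : ∀ a : Fin 3, a ≠ 2 → a = 0 ∨ a = 1 := by decide
  rcases this _ h2 with h | h
  · exact Or.inl ⟨h1, i, h, e⟩
  · exact Or.inr ⟨h1, i, h, e⟩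

lemma Cs_gridC (l : ι) (gr : ι → Fin 3) (ρ σ : Finset (Fin 3)) :
    Cs (gridC l gr) (ρ ×ˢ σ) = F (cor l (gr ⁻¹' (ρ : Set (Fin 3))) (gr ⁻¹' (σ : Set (Fin 3)))) := by
  apply le_antisymm
  · refine Cs_le fun i j h => F_mono (fg_cor_mono ?_ ?_)
    · exact Set.preimage_mono (Set.singleton_subset_iff.2 (Finset.mem_product.1 h).1)
    · exact Set.preimage_mono (Set.singleton_subset_iff.2 (Finset.mem_product.1 h).2)
  · refine fg_F_le ?_
    rintro v ⟨h1, ⟨i, hi, e⟩, ⟨j, hj, e'⟩⟩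
    exact ⟨cor l (gr ⁻¹' {gr i}) (gr ⁻¹' {gr j}), ⟨h1, ⟨i, rfl, e⟩, ⟨j, rfl, e'⟩⟩,
      le_Cs (C := gridC l gr) (Finset.mem_product.2 ⟨hi, hj⟩)⟩

/-- Finitely many instances (`ae_all_iff`) of `IsDis.ci` applied to `gci_row`/`gci_col`:
`a3` is `gci_row` with `U'' = ∅`, `V' = Vᶜ`; `a4` is `gci_col`; `rowI` is `gci_row` with `V = univ`, `V' = ∅`
(`cor l U ∅ = ∅`, `F_empty`, `CI.indep`).  `gr` is surjective, so preimages of proper subsets are proper. -/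
theorem IsModel.ae_grid (h : IsModel g p m) (hT : Typ bs Js) (hG : Grp l gr)
    (hκ : IsDis m (Psi bs Js) κ) : ∀ᵐ ω ∂m, Grid (κ ω) (gridC l gr) := by
  have h3 : ∀ (ρ : Finset (Fin 3)) (j : Fin 3), ∀ᵐ ω ∂m, ρ ≠ Finset.univ →
      CI (κ ω) (Cs (gridC l gr) (ρ ×ˢ {j})) (Cs (gridC l gr) (Finset.univ ×ˢ {j}ᶜ))
        (Cs (gridC l gr) (ρ ×ˢ {j}ᶜ)) := by
    intro ρ j
    by_cases hρ : ρ = Finset.univ
    · exact Eventually.of_forall fun _ h => absurd hρ h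
    have H := h.gci_row hT l (Set.disjoint_empty _) (fg_ne_univ hG hρ)
      (gr ⁻¹' (({j} : Finset (Fin 3)) : Set (Fin 3))) (gr ⁻¹' (({j}ᶜ : Finset (Fin 3)) : Set (Fin 3)))
    rw [fg_cor_empty_left, Set.union_empty] at H
    filter_upwards [hκ.ci (fg_cor_mono (Set.subset_univ _) subset_rfl) H] with ω hω _
    rw [Cs_gridC, Cs_gridC, Cs_gridC, Finset.coe_univ, Set.preimage_univ]
    exact hω
  have h4 : ∀ (i : Fin 3) (σ : Finset (Fin 3)), ∀ᵐ ω ∂m, σ ≠ Finset.univ →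
      CI (κ ω) (Cs (gridC l gr) ({i} ×ˢ σ)) (Cs (gridC l gr) ({i}ᶜ ×ˢ Finset.univ))
        (Cs (gridC l gr) ({i}ᶜ ×ˢ σ)) := by
    intro i σ
    by_cases hσ : σ = Finset.univ
    · exact Eventually.of_forall fun _ h => absurd hσ h
    have H := h.gci_col hT l (Set.disjoint_empty _) (fg_ne_univ hG hσ)
      (gr ⁻¹' (({i} : Finset (Fin 3)) : Set (Fin 3))) (gr ⁻¹' (({i}ᶜ : Finset (Fin 3)) : Set (Fin 3)))
    rw [fg_cor_empty_right, Set.union_empty] at H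
    filter_upwards [hκ.ci (fg_cor_mono subset_rfl (Set.subset_univ _)) H] with ω hω _
    rw [Cs_gridC, Cs_gridC, Cs_gridC, Finset.coe_univ, Set.preimage_univ]
    exact hω
  have hr : ∀ i i' : Fin 3, ∀ᵐ ω ∂m, i ≠ i' →
      Indep (rowS (gridC l gr) i) (rowS (gridC l gr) i') (κ ω) := by
    intro i i'
    by_cases hi : i = i'
    · exact Eventually.of_forall fun _ h => absurd hi h
    have H := h.gci_row hT l (fg_disj (gr := gr) hi) (fg_ne_univ2 hG i i') Set.univ ∅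
    rw [fg_cor_empty_right, fg_cor_empty_right, Set.empty_union (cor _ _ _)] at H
    filter_upwards [hκ.ci (Set.empty_subset _) H] with ω hω _
    have := hκ.prob ω
    rw [rowS_eq, rowS_eq, Cs_gridC, Cs_gridC, Finset.coe_univ, Set.preimage_univ]
    rw [F_empty] at hω
    exact hω.indep (F_le _) (F_le _)
  have hc : ∀ j j' : Fin 3, ∀ᵐ ω ∂m, j ≠ j' →
      Indep (colS (gridC l gr) j) (colS (gridC l gr) j') (κ ω) := by
    intro j j'
    by_cases hj : j = j'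
    · exact Eventually.of_forall fun _ h => absurd hj h
    have H := h.gci_col hT l (fg_disj (gr := gr) hj) (fg_ne_univ2 hG j j') Set.univ ∅
    rw [fg_cor_empty_left, fg_cor_empty_left, Set.empty_union (cor _ _ _)] at H
    filter_upwards [hκ.ci (Set.empty_subset _) H] with ω hω _
    have := hκ.prob ω
    rw [colS_eq, colS_eq, Cs_gridC, Cs_gridC, Finset.coe_univ, Set.preimage_univ]
    rw [F_empty] at hω
    exact hω.indep (F_le _) (F_le _)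
  filter_upwards [ae_all_iff.2 fun ρ => ae_all_iff.2 (h3 ρ), ae_all_iff.2 fun i => ae_all_iff.2 (h4 i),
    ae_all_iff.2 fun i => ae_all_iff.2 (hr i), ae_all_iff.2 fun j => ae_all_iff.2 (hc j)]
    with ω e3 e4 er ec
  exact ⟨fun _ _ => F_le _, er, ec, e3, e4⟩

/-- the σ-algebra generated by the shifts of the `f i` -/
noncomputable def ZZ (f : ι → Om ι → ℂ) : MeasurableSpace (Om ι) :=
  ⨆ i, ⨆ n : ℕ, MeasurableSpace.comap (fun ω => f i (tr (zp n) ω)) (borel ℂ)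

lemma ZZ_le {f : ι → Om ι → ℂ} (hf : ∀ i, SB (F (PS ∅)) (f i)) : ZZ f ≤ F (PS ∅) := by
  refine iSup_le fun i => iSup_le fun n => ?_
  exact Measurable.comap_le
    ((hf i).comp' (measurable_tr fun v hv => PS_add hv (zp_mem_PS _ (n : ℤ)))).1
lemma measurable_tr_ZZ (f : ι → Om ι → ℂ) : Measurable[ZZ f, ZZ f] (tr (zp 1)) := by
  refine Measurable.of_comap_le ?_
  unfold ZZ
  rw [MeasurableSpace.comap_iSup]
  refine iSup_le fun i => ?_
  rw [MeasurableSpace.comap_iSup]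
  refine iSup_le fun n => le_iSup₂_of_le i (n + 1) (le_of_eq ?_)
  rw [MeasurableSpace.comap_comp]
  congr 1
  funext ω
  simp only [Function.comp_apply, tr_tr, ← zp_add]
  push_cast
  rfl
lemma sb_ZZ {f : ι → Om ι → ℂ} (hf : ∀ i, SB (F (PS ∅)) (f i)) (i : ι) : SB (ZZ f) (f i) := by
  refine ⟨Measurable.of_comap_le (le_iSup₂_of_le i 0 (le_of_eq ?_)), (hf i).2⟩
  simp only [Nat.cast_zero, zp_zero, tr_zero]
  rfl

/-- `Grid.good` with `ae_grid`, `IsDis.ci` for `smallC.1`/`smallR.1`, and `IsDis.aesm` for the countably many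
functions `f i ∘ tr (zp n)` (these are a.e. `F QB`-measurable: `aesm_comp_mp`, `mp_tr`; then
`transportC`, `QB_subset`, `measurable_full_of_aesm`).  Note `gr ⁻¹' {2} = {l}`,
`gr ⁻¹' {0} ∪ gr ⁻¹' {1} = {l}ᶜ`, `dig l {l} = {0}`. -/
theorem IsModel.ae_good (h : IsModel g p m) (hT : Typ bs Js) (hG : Grp l gr)
    (hκ : IsDis m (Psi bs Js) κ) {f : ι → Om ι → ℂ} (hf : ∀ i, SB (F (PS ∅)) (f i))
    (hQ : ∀ i, AEStronglyMeasurable[F (QB bs Js l)] (f i) m) :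
    ∀ᵐ ω ∂m, Good (κ ω) (ZZ f) (colA l gr) (rowB l gr) := by
  have hb : ∀ (i : ι) (n : ℕ), B m (F (PS ∅)) fun ω => f i (tr (zp n) ω) := fun i n =>
    ((hf i).comp' (measurable_tr fun v hv => PS_add hv (zp_mem_PS _ (n : ℤ)))).b
  have hq : ∀ (i : ι) (n : ℕ),
      AEStronglyMeasurable[F (QB bs Js l)] (fun ω => f i (tr (zp n) ω)) m := by
    intro i n
    refine aesm_comp_mp (h.mp_tr (zp n)) (measurable_tr ?_) (hQ i)
    rintro v (⟨h1, h2⟩ | ⟨h1, h2⟩)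
    · exact Or.inl ⟨PS_add h1 (zp_mem_PS _ _), by simpa using h2⟩
    · exact Or.inr ⟨PS_add h1 (zp_mem_PS _ _), by simpa using h2⟩
  have ha : ∀ (i : ι) (n : ℕ), ∀ᵐ ω ∂m, AEStronglyMeasurable[F (Sl (Set.Ioc 1 2) 2 (dig l {l}ᶜ))]
      (fun ω => f i (tr (zp n) ω)) (κ ω) := fun i n =>
    hκ.aesm (h.transportC hT l (hb i n) (hq i n))
  have hb' : ∀ (i : ι) (n : ℕ), ∀ᵐ ω ∂m, AEStronglyMeasurable[F (Sl (Set.Iio 1) 0 (dig l {l}ᶜ))]
      (fun ω => f i (tr (zp n) ω)) (κ ω) := fun i n =>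
    hκ.aesm ((hq i n).mono (F_mono (QB_subset l)))
  have hl : l ∈ gr ⁻¹' {2} := (hG.last l).2 rfl
  filter_upwards [h.ae_grid hT hG hκ, hκ.ci (fg_SlC (Set.mem_singleton l)) (h.smallC hT l).1,
    hκ.ci (fg_SlR (Set.mem_singleton l)) (h.smallR hT l).1,
    ae_all_iff.2 fun i => ae_all_iff.2 (ha i), ae_all_iff.2 fun i => ae_all_iff.2 (hb' i)]
    with ω hg hca hcb ea eb
  have := hκ.prob ω
  refine hg.good (fun j => F_mono (fg_SlC hl)) (fun j => F_mono (fg_SlR hl))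
    ((ZZ_le hf).trans (F_mono fun v hv => ?_)) ?_ ?_ ?_ ?_
  · exact fg_SlC hl ⟨PS_mono (Set.empty_subset _) hv, by
      rw [hv 2 (Set.notMem_empty _)]; exact fg_zero_mem hl⟩
  · have e1 : gridC l gr 2 2 = F (cor l {l} {l}) := by simp only [gridC, fg_two hG]
    have e2 : colA l gr 2 = F (Sl (Set.Ioc 1 2) 2 (dig l {l})) := by simp only [colA, fg_two hG]
    rw [e1, e2]
    exact hca.mono_left (sup_le (F_mono fun _ hv => hv.1) (F_mono fun _ hv => hv.1))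
  · have e1 : gridC l gr 2 2 = F (cor l {l} {l}) := by simp only [gridC, fg_two hG]
    have e2 : rowB l gr 2 = F (Sl (Set.Iio 1) 0 (dig l {l})) := by simp only [rowB, fg_two hG]
    rw [e1, e2]
    exact hcb.mono_left (sup_le (F_mono fun _ hv => hv.1) (F_mono fun _ hv => hv.1))
  · refine iSup_le fun i => iSup_le fun n => ?_
    exact Measurable.comap_le (measurable_full_of_aesm (𝒢 := colA l gr 0 ⊔ colA l gr 1)
      ((ea i n).mono (fg_Sl_le hG _ _)))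
  · refine iSup_le fun i => iSup_le fun n => ?_
    exact Measurable.comap_le (measurable_full_of_aesm (𝒢 := rowB l gr 0 ⊔ rowB l gr 1)
      ((eb i n).mono (fg_Sl_le hG _ _)))

end Crest.Agent.R69
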