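import Crest.Agent.R69.Elim
import Crest.Agent.R69.Comp
import Crest.Agent.R69.Order

/-!
# R69: conditional independence in the grid, given the frame

All proofs are `dom_of_LP` + `Dom.ci` / `Dom.transport` with an explicit law preserving map.
-/

set_option autoImplicit false
set_option linter.unusedSectionVars false
open MeasureTheory ProbabilityTheory Filter Topology
open scoped ComplexConjugate

namespace Crest.Agent.R69

variable {ι : Type} [Fintype ι] [DecidableEq ι] {g : ℕ → ι → ℕ} {p : Ultrafilter ℕ}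
  {m : Measure (Om ι)} [IsProbabilityMeasure m] {bs : ℚ → ι} {Js : ℚ → Finset ι}

lemma gci_At_mono {S S' R R' : Set ℚ} (hS : S ⊆ S') (hR : R ⊆ R') :
    At bs Js S R ⊆ At bs Js S' R' :=
  fun _ ⟨hv, r, hr, j, hj, e⟩ => ⟨PS_mono hS hv, r, hR hr, j, hj, e⟩

lemma Typ.gci_atom_ne_zero (hT : Typ bs Js) {r : ℚ} {j : ι} (hj : j ∈ Js r) :
    dl j - dl (bs r) ≠ 0 := by
  intro h0
  exact hT.nmem r (dl_sub_eq_zero.1 h0 ▸ hj)

/-- type preserving renamings send atoms to atoms -/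
lemma Typ.gci_ren_At (hT : Typ bs Js) {ρ : ℚ → ℚ} {C S S' R R' : Set ℚ} (hρ : Set.InjOn ρ C)
    (hS : Set.MapsTo ρ C S')
    (hR : ∀ r ∈ R, r ∈ C → ρ r ∈ R' ∧ bs (ρ r) = bs r ∧ Js (ρ r) = Js r) {v : P ι}
    (hv : v ∈ PS C) (hA : v ∈ At bs Js S R) : ren ρ v ∈ At bs Js S' R' := by
  obtain ⟨-, r, hr, j, hj, e⟩ := hA
  have hrC : r ∈ C := by
    by_contra hrC
    exact hT.gci_atom_ne_zero hj (e ▸ hv r hrC)
  obtain ⟨h1, h2, h3⟩ := hR r hr hrC
  refine ⟨ren_mem_PS hS hv, ρ r, h1, j, h3 ▸ hj, ?_⟩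
  rw [ren_apply hρ hv hrC, h2, e]

lemma gci_mem_S0 {y : ℚ} : y ∈ S0 ↔ y ≤ 2 ∧ y ≠ 1 := by simp [S0]
lemma gci_mem_I0 {y : ℚ} : y ∈ I0 ↔ y ≤ 2 ∧ y ≠ 0 ∧ y ≠ 1 ∧ y ≠ 2 := by simp [I0]

lemma gci_Ioc_subset_S0 : Set.Ioc (1 : ℚ) 2 ⊆ S0 := fun _ hy => gci_mem_S0.2 ⟨hy.2, hy.1.ne'⟩
lemma gci_Iio_subset_S0 : Set.Iio (1 : ℚ) ⊆ S0 := fun y (hy : y < 1) =>
  gci_mem_S0.2 ⟨by linarith, hy.ne⟩
lemma gci_Ioo_subset_I0 : Set.Ioo (1 : ℚ) 2 ⊆ I0 := fun y hy =>
  gci_mem_I0.2 ⟨hy.2.le, by linarith [hy.1] |> fun h : (0 : ℚ) < y => h.ne', hy.1.ne', hy.2.ne⟩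
lemma gci_I0_subset_S0 : I0 ⊆ S0 := fun _ hy => gci_mem_S0.2 ⟨(gci_mem_I0.1 hy).1, (gci_mem_I0.1 hy).2.2.1⟩

lemma gci_PsiC_subset : PsiC bs Js ⊆ Psi bs Js := gci_At_mono gci_Ioc_subset_S0 gci_Ioo_subset_I0
lemma gci_PsiR_subset : PsiR bs Js ⊆ Psi bs Js := by
  refine gci_At_mono gci_Iio_subset_S0 fun y hy => ?_
  have h1 : y < 1 := hy.1
  exact gci_mem_I0.2 ⟨by linarith, hy.2, h1.ne, by linarith |> fun h : y < 2 => h.ne⟩

lemma gci_zero_mem_dig (l : ι) : (0 : ι → ℤ) ∈ dig l {l} := ⟨l, rfl, (sub_self _).symm⟩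

lemma gci_act_subset {s : Finset (P ι)} {S : Set ℚ} (hs : ∀ v ∈ s, v ∈ PS S) {y : ℚ} (hy : y ∈ act s) :
    y ∈ S := by
  obtain ⟨v, hv, h0⟩ := mem_act.1 hy
  by_contra hyS
  exact h0 (hs v hv y hyS)

lemma gci_mem_PS_insert_act {s : Finset (P ι)} (c : ℚ) {v : P ι} (hv : v ∈ s) :
    v ∈ PS ((insert c (act s) : Finset ℚ) : Set ℚ) :=
  PS_mono (Finset.coe_subset.2 (Finset.subset_insert _ _)) (mem_PS_act hv)

/-- above `c` and below `b` there is an interval free of the finite set `C` -/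
lemma gci_exists_gap' (C : Finset ℚ) {c b : ℚ} (h : c < b) :
    ∃ b', b' ≤ b ∧ c < b' ∧ ∀ y ∈ C, c < y → b' ≤ y := by
  classical
  refine ⟨(insert b (C.filter (c < ·))).min' (Finset.insert_nonempty _ _),
    Finset.min'_le _ _ (Finset.mem_insert_self _ _), ?_, fun y hy hyc => Finset.min'_le _ _ ?_⟩
  · rw [Finset.lt_min'_iff]
    intro y hy
    rcases Finset.mem_insert.1 hy with rfl | hy
    · exact h
    · exact (Finset.mem_filter.1 hy).2
  · exact Finset.mem_insert_of_mem (Finset.mem_filter.2 ⟨hy, hyc⟩)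

/-- corners with digits `U` at the coordinate `X` and component in `W` at the coordinate `Y` -/
def cg (S : Set ℚ) (X Y : ℚ) (l : ι) (U : Set ι) (W : Set (ι → ℤ)) : Set (P ι) :=
  {v | v ∈ PS S ∧ v.2 X ∈ dig l U ∧ v.2 Y ∈ W}

lemma gci_cg_mono {S : Set ℚ} {X Y : ℚ} {l : ι} {U U' : Set ι} (h : U ⊆ U') (W : Set (ι → ℤ)) :
    cg S X Y l U W ⊆ cg S X Y l U' W :=
  fun _ ⟨h1, ⟨i, hi, e⟩, h3⟩ => ⟨h1, ⟨i, h hi, e⟩, h3⟩

lemma gci_cg_insert (S : Set ℚ) (X Y : ℚ) (l i : ι) (U : Set ι) (W : Set (ι → ℤ)) :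
    cg S X Y l (insert i U) W = cg S X Y l {i} W ∪ cg S X Y l U W := by
  apply Set.Subset.antisymm
  · rintro v ⟨h1, ⟨j, hj, e⟩, h3⟩
    rcases hj with hj | hj
    · exact Or.inl ⟨h1, ⟨j, hj, e⟩, h3⟩
    · exact Or.inr ⟨h1, ⟨j, hj, e⟩, h3⟩
  · exact Set.union_subset (gci_cg_mono (by simp) W) (gci_cg_mono (Set.subset_insert _ _) W)

lemma gci_cg_empty (S : Set ℚ) (X Y : ℚ) (l : ι) (W : Set (ι → ℤ)) : cg S X Y l ∅ W = ∅ := by
  ext v
  simp [cg, dig]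

/-- the pivot step of `gci` -/
lemma IsModel.gci_step (h : IsModel g p m) (hT : Typ bs Js) {S I : Set ℚ} {X Y a : ℚ} (hX : X ∈ S)
    (hXI : X ∉ I) (hYI : Y ∉ I) (hXY : Y ≠ X) (hIS : I ⊆ S) (ha : a < X) (haI : Set.Ioo a X ⊆ I)
    (l i : ι) (J : Finset ι) (hi : i ∉ J) (hJ : insert i J ≠ Finset.univ)
    (W W' : Set (ι → ℤ)) {X2 X1 : Set (P ι)}
    (h2 : X2 ⊆ cg S X Y l Set.univ W' ∪ cg S X Y l J W ∪ At bs Js S I)
    (h1 : cg S X Y l {i} W' ∪ At bs Js S I ⊆ X1) :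
    Dom m (cg S X Y l {i} W) X2 X1 := by
  classical
  refine dom_of_LP fun s0 s2 hs0 hs2 => ?_
  obtain ⟨X', hX1, hX2, hX3, hX4, hX5⟩ := hT.adj (act (s0 ∪ s2)) ha i J hi hJ
  have hX'I : X' ∈ I := haI ⟨hX1, hX2⟩
  have hYX' : Y ≠ X' := fun e => hYI (e ▸ hX'I)
  refine ⟨piv X X' (dl i - dl l), h.lp_piv hX2 _ _ fun v hv y hy h0 =>
    hX3 y (mem_act.2 ⟨v, hv, h0⟩) hy, fun v hv => ?_, fun v hv => h1 ?_⟩
  · obtain ⟨-, ⟨j, hj, e⟩, -⟩ := hs0 hv
    obtain rfl : j = i := hj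
    exact piv_eq_self e
  · have h0 : v.2 X' = 0 := by
      by_contra h0
      exact lt_irrefl _ (hX3 X' (mem_act.2 ⟨v, Finset.mem_union_right _ hv, h0⟩) hX2)
    rcases h2 (hs2 hv) with (⟨hvS, -, hW⟩ | ⟨hvS, ⟨j, hj, e⟩, -⟩) | ⟨hvS, r, hr, j, hj, e⟩
    · refine Or.inl ⟨piv_mem_PS hX (hIS hX'I) _ hvS, ⟨i, rfl, piv_self hX2.ne _ _⟩, ?_⟩
      rwa [piv_other hXY hYX']
    · refine Or.inr ⟨piv_mem_PS hX (hIS hX'I) _ hvS, X', hX'I, j, hX5 ▸ hj, ?_⟩
      rw [piv_new hX2.ne, h0, e, hX4]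
      abel
    · refine Or.inr ⟨piv_mem_PS hX (hIS hX'I) _ hvS, r, hr, j, hj, ?_⟩
      rw [piv_other (fun e' : r = X => hXI (e' ▸ hr)) ?_, e]
      rintro rfl
      exact hT.gci_atom_ne_zero hj (e ▸ h0)

/-- General grid lemma.  Induction on a finset `U' ⊆ U` with `CI.join`; for a new row `i ∈ U \ U'` use
`X0 = cg {i} W`, `X2 = (cg univ W' ∪ cg U'' W ∪ At) ∪ cg U' W`, `X1 = (cg U W' ∪ At) ∪ cg U' W` and the map
`piv X X' (dl i - dl l)` with `X' ∈ (a, X)` fresh of type `(i, U' ∪ U'')` (`Typ.adj`,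
`C = act (s0 ∪ s2)`): it fixes `X0`, sends `cg univ W'` into `cg {i} W'`, sends `cg (U' ∪ U'') W` into the
atom at `X'` (component `0 + (dl j - dl l) - (dl i - dl l)`), and preserves the atoms at `r ∈ I`
(`r ≠ X`, and `r ≠ X'` because `r` is active). -/
theorem IsModel.gci (h : IsModel g p m) (hT : Typ bs Js) {S I : Set ℚ} {X Y a : ℚ} (hX : X ∈ S)
    (hXI : X ∉ I) (hYI : Y ∉ I) (hXY : Y ≠ X) (hIS : I ⊆ S) (ha : a < X) (haI : Set.Ioo a X ⊆ I)
    (l : ι) {U U'' : Set ι} (hd : Disjoint U U'') (hne : U ∪ U'' ≠ Set.univ)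
    (W W' : Set (ι → ℤ)) :
    CI m (F (cg S X Y l U W)) (F (cg S X Y l Set.univ W' ∪ cg S X Y l U'' W ∪ At bs Js S I))
      (F (cg S X Y l U W' ∪ At bs Js S I)) := by
  classical
  set X2 := cg S X Y l Set.univ W' ∪ cg S X Y l U'' W ∪ At bs Js S I with hX2
  set X1 := cg S X Y l U W' ∪ At bs Js S I with hX1
  have h12 : X1 ⊆ X2 := Set.union_subset_union
    ((gci_cg_mono (Set.subset_univ _) W').trans Set.subset_union_left) le_rfl
  have key : ∀ U' : Finset ι, (U' : Set ι) ⊆ U → CI m (F (cg S X Y l U' W)) (F X2) (F X1) := by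
    intro U'
    induction U' using Finset.induction_on with
    | empty =>
      intro _
      rw [Finset.coe_empty, gci_cg_empty, F_empty]
      exact CI_of_le bot_le (F_mono h12) (F_le _)
    | insert i U' hi ih =>
      intro hU
      rw [Finset.coe_insert] at hU ⊢
      have hiU : i ∈ U := hU (Set.mem_insert _ _)
      have hU' : (U' : Set ι) ⊆ U := (Set.subset_insert _ _).trans hU
      rw [gci_cg_insert, F_union]
      refine CI.join ?_ (ih hU') (F_le _) (F_le _) (F_mono h12) (F_le _)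
      rw [← F_union, ← F_union]
      refine Dom.ci ?_ (Set.union_subset_union h12 le_rfl)
      refine h.gci_step hT hX hXI hYI hXY hIS ha haI l i (U' ∪ U''.toFinset) ?_ ?_ W W' ?_ ?_
      · simp only [Finset.mem_union, Set.mem_toFinset, not_or]
        exact ⟨hi, Set.disjoint_left.1 hd hiU⟩
      · intro e
        apply hne
        refine Set.eq_univ_of_forall fun j => ?_
        have hj : j ∈ insert i (U' ∪ U''.toFinset) := e ▸ Finset.mem_univ j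
        simp only [Finset.mem_insert, Finset.mem_union, Set.mem_toFinset] at hj
        rcases hj with rfl | hj | hj
        · exact Or.inl hiU
        · exact Or.inl (hU' hj)
        · exact Or.inr hj
      · rintro v (((hv | hv) | hv) | hv)
        · exact Or.inl (Or.inl hv)
        · exact Or.inl (Or.inr (gci_cg_mono (by simp) W hv))
        · exact Or.inr hv
        · exact Or.inl (Or.inr (gci_cg_mono (by simp) W hv))
      · rintro v (hv | hv)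
        · exact Or.inl (Or.inl (gci_cg_mono (by simpa using hiU) W' hv))
        · exact Or.inl (Or.inr hv)
  have := key U.toFinset (by simp)
  rwa [Set.coe_toFinset] at this

/-- `gci` with `(X, Y, a) = (2, 0, 1)` -/
theorem IsModel.gci_row (h : IsModel g p m) (hT : Typ bs Js) (l : ι) {U U'' : Set ι}
    (hd : Disjoint U U'') (hne : U ∪ U'' ≠ Set.univ) (V V' : Set ι) :
    CI m (F (cor l U V)) (F (cor l Set.univ V' ∪ cor l U'' V ∪ Psi bs Js))
      (F (cor l U V' ∪ Psi bs Js)) :=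
  h.gci hT (S := S0) (I := I0) (X := 2) (Y := 0) (a := 1) (gci_mem_S0.2 (by norm_num))
    (fun h => (gci_mem_I0.1 h).2.2.2 rfl) (fun h => (gci_mem_I0.1 h).2.1 rfl) (by norm_num) gci_I0_subset_S0
    (by norm_num) gci_Ioo_subset_I0 l hd hne (dig l V) (dig l V')

lemma gci_cg_col (l : ι) (U V : Set ι) : cg S0 0 2 l V (dig l U) = cor l U V := by
  ext v
  simp only [cg, cor, Set.mem_ofPred_eq]
  tauto

/-- `gci` with `(X, Y, a) = (0, 2, -1)` -/
theorem IsModel.gci_col (h : IsModel g p m) (hT : Typ bs Js) (l : ι) {V V'' : Set ι}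
    (hd : Disjoint V V'') (hne : V ∪ V'' ≠ Set.univ) (U U' : Set ι) :
    CI m (F (cor l U V)) (F (cor l U' Set.univ ∪ cor l U V'' ∪ Psi bs Js))
      (F (cor l U' V ∪ Psi bs Js)) := by
  have := h.gci hT (S := S0) (I := I0) (X := 0) (Y := 2) (a := -1) (gci_mem_S0.2 (by norm_num))
    (fun h => (gci_mem_I0.1 h).2.1 rfl) (fun h => (gci_mem_I0.1 h).2.2.2 rfl) (by norm_num) gci_I0_subset_S0
    (by norm_num) (fun y hy => gci_mem_I0.2 ⟨by linarith [hy.2], hy.2.ne,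
      (hy.2.trans (by norm_num)).ne, (hy.2.trans (by norm_num)).ne⟩) l hd hne (dig l U) (dig l U')
  simp only [gci_cg_col] at this
  exact this

/-- the renaming for the small column system -/
lemma IsModel.gci_exists_renC (h : IsModel g p m) (hT : Typ bs Js) (s : Finset (P ι))
    (hs : ∀ v ∈ s, v ∈ PS S0) : ∃ φ : P ι → P ι, LP m φ s ∧
      (∀ v, v ∈ PS (Set.Ioc 1 2) → φ v = v) ∧
      ∀ v ∈ s, φ v ∈ PS (Set.Ioc 1 2) ∧ (φ v).2 2 = v.2 2 ∧ (v ∈ Psi bs Js → φ v ∈ PsiC bs Js) := by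
  classical
  set C : Finset ℚ := insert 2 (act s) with hC
  have hCS : ∀ y ∈ C, y ≤ 2 ∧ y ≠ 1 := by
    intro y hy
    rcases Finset.mem_insert.1 hy with rfl | hy
    · norm_num
    · exact gci_mem_S0.1 (gci_act_subset hs hy)
  obtain ⟨b, hb2, hb1, hb⟩ := gci_exists_gap' C (show (1 : ℚ) < 2 by norm_num)
  obtain ⟨ρ0, hρ0, hρ⟩ := hT.chain (C.filter (· < 1)) hb1
  set ρ : ℚ → ℚ := fun y => if y < 1 then ρ0 y else y with hρdef
  have hlt : ∀ y, y < 1 → ρ y = ρ0 y := fun y hy => if_pos hy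
  have hge : ∀ y, ¬ y < 1 → ρ y = y := fun y hy => if_neg hy
  have hmem : ∀ y ∈ C, y < 1 → y ∈ C.filter (· < 1) := fun y hy h1 => Finset.mem_filter.2 ⟨hy, h1⟩
  have hmono : StrictMonoOn ρ (C : Set ℚ) := by
    intro y hy y' hy' hyy
    by_cases h1 : y' < 1
    · rw [hlt y (hyy.trans h1), hlt y' h1]
      exact hρ0 (hmem y hy (hyy.trans h1)) (hmem y' hy' h1) hyy
    · rw [hge y' h1]
      by_cases h2 : y < 1
      · rw [hlt y h2]
        exact (hρ y (hmem y hy h2)).2.1.trans_le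
          (hb y' hy' (lt_of_le_of_ne (not_lt.1 h1) (hCS y' hy').2.symm))
      · rwa [hge y h2]
  have hmaps : Set.MapsTo ρ (C : Set ℚ) (Set.Ioc 1 2) := by
    intro y hy
    by_cases h1 : y < 1
    · rw [hlt y h1]
      exact ⟨(hρ y (hmem y hy h1)).1, ((hρ y (hmem y hy h1)).2.1.trans_le hb2).le⟩
    · rw [hge y h1]
      exact ⟨lt_of_le_of_ne (not_lt.1 h1) (hCS y hy).2.symm, (hCS y hy).1⟩
  refine ⟨ren ρ, h.fub.lp_ren C hmono s fun v hv => gci_mem_PS_insert_act 2 hv, fun v hv => ?_,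
    fun v hv => ⟨ren_mem_PS hmaps (gci_mem_PS_insert_act 2 hv), ?_, fun hA => ?_⟩⟩
  · refine ren_eq_self fun y hy => hge y fun h1 => hy (hv y fun h2 => ?_)
    exact lt_irrefl _ (h2.1.trans h1)
  · have := ren_apply hmono.injOn (gci_mem_PS_insert_act 2 hv)
      (Finset.mem_coe.2 (Finset.mem_insert_self 2 _))
    rwa [hge 2 (by norm_num)] at this
  · refine hT.gci_ren_At hmono.injOn hmaps (fun r hr hrC => ?_) (gci_mem_PS_insert_act 2 hv) hA
    by_cases h1 : r < 1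
    · rw [hlt r h1]
      obtain ⟨k1, k2, k3, k4⟩ := hρ r (hmem r hrC h1)
      exact ⟨⟨k1, k2.trans_le hb2⟩, k3, k4⟩
    · rw [hge r h1]
      obtain ⟨k1, -, k3, k4⟩ := gci_mem_I0.1 hr
      exact ⟨⟨lt_of_le_of_ne (not_lt.1 h1) k3.symm, lt_of_le_of_ne k1 k4⟩, rfl, rfl⟩

/-- the renaming for the small row system -/
lemma IsModel.gci_exists_renR (h : IsModel g p m) (hT : Typ bs Js) (s : Finset (P ι))
    (hs : ∀ v ∈ s, v ∈ PS S0) : ∃ φ : P ι → P ι, LP m φ s ∧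
      (∀ v, v ∈ PS (Set.Iio 1) → φ v = v) ∧
      ∀ v ∈ s, φ v ∈ PS (Set.Iio 1) ∧ (φ v).2 0 = v.2 0 ∧ (v ∈ Psi bs Js → φ v ∈ PsiR bs Js) := by
  classical
  set C : Finset ℚ := insert 0 (act s) with hC
  have hCS : ∀ y ∈ C, y ≠ 1 := by
    intro y hy
    rcases Finset.mem_insert.1 hy with rfl | hy
    · norm_num
    · exact (gci_mem_S0.1 (gci_act_subset hs hy)).2
  obtain ⟨a, ha0, ha1, ha⟩ := exists_gap C (show (0 : ℚ) < 1 by norm_num)
  obtain ⟨ρ0, hρ0, hρ⟩ := hT.chain (C.filter (1 < ·)) ha1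
  set ρ : ℚ → ℚ := fun y => if 1 < y then ρ0 y else y with hρdef
  have hlt : ∀ y, 1 < y → ρ y = ρ0 y := fun y hy => if_pos hy
  have hge : ∀ y, ¬ 1 < y → ρ y = y := fun y hy => if_neg hy
  have hmem : ∀ y ∈ C, 1 < y → y ∈ C.filter (1 < ·) := fun y hy h1 => Finset.mem_filter.2 ⟨hy, h1⟩
  have hmono : StrictMonoOn ρ (C : Set ℚ) := by
    intro y hy y' hy' hyy
    by_cases h1 : 1 < y
    · rw [hlt y h1, hlt y' (h1.trans hyy)]
      exact hρ0 (hmem y hy h1) (hmem y' hy' (h1.trans hyy)) hyy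
    · rw [hge y h1]
      by_cases h2 : 1 < y'
      · rw [hlt y' h2]
        exact (ha y hy (lt_of_le_of_ne (not_lt.1 h1) (hCS y hy))).trans_lt
          (hρ y' (hmem y' hy' h2)).1
      · rwa [hge y' h2]
  have hmaps : Set.MapsTo ρ (C : Set ℚ) (Set.Iio 1) := by
    intro y hy
    by_cases h1 : 1 < y
    · rw [hlt y h1]
      exact (hρ y (hmem y hy h1)).2.1
    · rw [hge y h1]
      exact lt_of_le_of_ne (not_lt.1 h1) (hCS y hy)
  refine ⟨ren ρ, h.fub.lp_ren C hmono s fun v hv => gci_mem_PS_insert_act 0 hv, fun v hv => ?_,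
    fun v hv => ⟨ren_mem_PS hmaps (gci_mem_PS_insert_act 0 hv), ?_, fun hA => ?_⟩⟩
  · refine ren_eq_self fun y hy => hge y fun h1 => hy (hv y fun h2 => ?_)
    exact lt_irrefl _ (h1.trans h2)
  · have := ren_apply hmono.injOn (gci_mem_PS_insert_act 0 hv)
      (Finset.mem_coe.2 (Finset.mem_insert_self 0 _))
    rwa [hge 0 (by norm_num)] at this
  · refine hT.gci_ren_At hmono.injOn hmaps (fun r hr hrC => ?_) (gci_mem_PS_insert_act 0 hv) hA
    by_cases h1 : 1 < r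
    · rw [hlt r h1]
      obtain ⟨k1, k2, k3, k4⟩ := hρ r (hmem r hrC h1)
      exact ⟨⟨k2, (ha0.trans_lt k1).ne'⟩, k3, k4⟩
    · rw [hge r h1]
      obtain ⟨-, k2, k3, -⟩ := gci_mem_I0.1 hr
      exact ⟨⟨lt_of_le_of_ne (not_lt.1 h1) k3, k2⟩, rfl, rfl⟩

lemma gci_mem_PS_S0_union {S : Set ℚ} (hS : S ⊆ S0) {X : Set (P ι)} (hX : X ⊆ PS S0)
    {s0 s2 : Finset (P ι)} (h0 : (s0 : Set (P ι)) ⊆ PS S) (h2 : (s2 : Set (P ι)) ⊆ X) :
    ∀ v ∈ s0 ∪ s2, v ∈ PS S0 := by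
  intro v hv
  rcases Finset.mem_union.1 hv with hv | hv
  · exact PS_mono hS (h0 hv)
  · exact hX (h2 hv)

lemma gci_cor_Psi_subset (l : ι) (U V : Set ι) : cor l U V ∪ Psi bs Js ⊆ PS S0 :=
  Set.union_subset (fun _ hv => hv.1) fun _ hv => hv.1

/-- Rename the active coordinates `< 1` into `(1, b)`, `b` = least active coordinate `> 1` or `2`,
preserving types (`Typ.chain`), and keep the others (`Fub.lp_ren` with `C = insert 2 (insert 0 (act _))`,
`ren_apply`, `ren_mem_PS`, `ren_eq_self`). -/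
theorem IsModel.smallC (h : IsModel g p m) (hT : Typ bs Js) (l : ι) :
    CI m (F (PS (Set.Ioc 1 2))) (F (cor l {l} {l} ∪ Psi bs Js))
        (F (Sl (Set.Ioc 1 2) 2 (dig l {l}) ∪ Psi bs Js)) ∧
      CI m (F (PS (Set.Ioc 1 2))) (F (Psi bs Js)) (F (PsiC bs Js)) := by
  classical
  constructor
  · refine Dom.ci (dom_of_LP fun s0 s2 h0 h2 => ?_) (Set.union_subset_union ?_ le_rfl)
    · obtain ⟨φ, k1, k2, k3⟩ := h.gci_exists_renC hT (s0 ∪ s2)
        (gci_mem_PS_S0_union gci_Ioc_subset_S0 (gci_cor_Psi_subset l _ _) h0 h2)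
      refine ⟨φ, k1, fun v hv => k2 v (h0 hv), fun v hv => ?_⟩
      obtain ⟨k4, k5, k6⟩ := k3 v (Finset.mem_union_right _ hv)
      rcases h2 hv with hv' | hv'
      · exact Or.inl ⟨k4, k5 ▸ hv'.2.1⟩
      · exact Or.inr (gci_PsiC_subset (k6 hv'))
    · rintro v ⟨hv, hv'⟩
      refine ⟨PS_mono gci_Ioc_subset_S0 hv, hv', ?_⟩
      rw [hv 0 (by norm_num)]
      exact gci_zero_mem_dig l
  · refine Dom.ci (dom_of_LP fun s0 s2 h0 h2 => ?_) gci_PsiC_subset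
    obtain ⟨φ, k1, k2, k3⟩ := h.gci_exists_renC hT (s0 ∪ s2)
      (gci_mem_PS_S0_union gci_Ioc_subset_S0 (fun _ hv => hv.1) h0 h2)
    exact ⟨φ, k1, fun v hv => k2 v (h0 hv),
      fun v hv => (k3 v (Finset.mem_union_right _ hv)).2.2 (h2 hv)⟩

/-- Rename the active coordinates in `(1, 2]` into `(a, 1)`, `a` = the largest of `0` and the active
coordinates `< 1`, preserving types, and keep the others. -/
theorem IsModel.smallR (h : IsModel g p m) (hT : Typ bs Js) (l : ι) :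
    CI m (F (PS (Set.Iio 1))) (F (cor l {l} {l} ∪ Psi bs Js))
        (F (Sl (Set.Iio 1) 0 (dig l {l}) ∪ Psi bs Js)) ∧
      CI m (F (PS (Set.Iio 1))) (F (Psi bs Js)) (F (PsiR bs Js)) := by
  classical
  constructor
  · refine Dom.ci (dom_of_LP fun s0 s2 h0 h2 => ?_) (Set.union_subset_union ?_ le_rfl)
    · obtain ⟨φ, k1, k2, k3⟩ := h.gci_exists_renR hT (s0 ∪ s2)
        (gci_mem_PS_S0_union gci_Iio_subset_S0 (gci_cor_Psi_subset l _ _) h0 h2)
      refine ⟨φ, k1, fun v hv => k2 v (h0 hv), fun v hv => ?_⟩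
      obtain ⟨k4, k5, k6⟩ := k3 v (Finset.mem_union_right _ hv)
      rcases h2 hv with hv' | hv'
      · exact Or.inl ⟨k4, k5 ▸ hv'.2.2⟩
      · exact Or.inr (gci_PsiR_subset (k6 hv'))
    · rintro v ⟨hv, hv'⟩
      refine ⟨PS_mono gci_Iio_subset_S0 hv, ?_, hv'⟩
      rw [hv 2 (by norm_num)]
      exact gci_zero_mem_dig l
  · refine Dom.ci (dom_of_LP fun s0 s2 h0 h2 => ?_) gci_PsiR_subset
    obtain ⟨φ, k1, k2, k3⟩ := h.gci_exists_renR hT (s0 ∪ s2)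
      (gci_mem_PS_S0_union gci_Iio_subset_S0 (fun _ hv => hv.1) h0 h2)
    exact ⟨φ, k1, fun v hv => k2 v (h0 hv),
      fun v hv => (k3 v (Finset.mem_union_right _ hv)).2.2 (h2 hv)⟩

/-- Rename `0 ↦ 2` and the active coordinates `< 0` into `(1, 2)`, preserving types. -/
theorem IsModel.transportC (h : IsModel g p m) (hT : Typ bs Js) (l : ι) {f : Om ι → ℂ}
    (hf : B m (F (PS ∅)) f) (hQ : AEStronglyMeasurable[F (QB bs Js l)] f m) :
    AEStronglyMeasurable[F (Sl (Set.Ioc 1 2) 2 (dig l {l}ᶜ) ∪ Psi bs Js)] f m := by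
  classical
  refine Dom.transport (dom_of_LP fun s0 s2 h0 h2 => ?_) hf hQ
  have hs : ∀ v ∈ s0 ∪ s2, v ∈ PS (Set.Iic (0 : ℚ)) := by
    intro v hv
    rcases Finset.mem_union.1 hv with hv | hv
    · exact PS_mono (Set.empty_subset _) (h0 hv)
    · rcases h2 hv with hv | hv
      · exact hv.1
      · exact hv.1
  set C : Finset ℚ := insert 0 (act (s0 ∪ s2)) with hC
  have hCS : ∀ y ∈ C, y ≤ 0 := by
    intro y hy
    rcases Finset.mem_insert.1 hy with rfl | hy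
    · exact le_rfl
    · exact gci_act_subset hs hy
  obtain ⟨ρ0, hρ0, hρ⟩ := hT.chain (C.filter (· < 0)) (show (1 : ℚ) < 2 by norm_num)
  set ρ : ℚ → ℚ := fun y => if y < 0 then ρ0 y else 2 with hρdef
  have hlt : ∀ y, y < 0 → ρ y = ρ0 y := fun y hy => if_pos hy
  have hge : ∀ y, ¬ y < 0 → ρ y = 2 := fun y hy => if_neg hy
  have hmem : ∀ y ∈ C, y < 0 → y ∈ C.filter (· < 0) := fun y hy h1 => Finset.mem_filter.2 ⟨hy, h1⟩
  have hmono : StrictMonoOn ρ (C : Set ℚ) := by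
    intro y hy y' hy' hyy
    have h1 : y < 0 := hyy.trans_le (hCS y' hy')
    rw [hlt y h1]
    by_cases h2 : y' < 0
    · rw [hlt y' h2]
      exact hρ0 (hmem y hy h1) (hmem y' hy' h2) hyy
    · rw [hge y' h2]
      exact (hρ y (hmem y hy h1)).2.1
  have hmaps : Set.MapsTo ρ (C : Set ℚ) (Set.Ioc 1 2) := by
    intro y hy
    by_cases h1 : y < 0
    · rw [hlt y h1]
      exact ⟨(hρ y (hmem y hy h1)).1, (hρ y (hmem y hy h1)).2.1.le⟩
    · rw [hge y h1]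
      norm_num
  refine ⟨ren ρ, h.fub.lp_ren C hmono _ fun v hv => gci_mem_PS_insert_act 0 hv,
    fun v hv => ren_eq_self fun y hy => (hy (h0 hv y (Set.notMem_empty y))).elim, fun v hv => ?_⟩
  have hvC := gci_mem_PS_insert_act (s := s0 ∪ s2) 0 (Finset.mem_union_right _ hv)
  rcases h2 hv with hv' | hv'
  · refine Or.inl ⟨ren_mem_PS hmaps hvC, ?_⟩
    have := ren_apply hmono.injOn hvC (Finset.mem_coe.2 (Finset.mem_insert_self 0 _))
    rw [hge 0 (lt_irrefl _)] at this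
    rw [this]
    exact hv'.2
  · refine Or.inr (gci_PsiC_subset (hT.gci_ren_At hmono.injOn hmaps (fun r hr hrC => ?_) hvC hv'))
    rw [hlt r hr]
    obtain ⟨k1, k2, k3, k4⟩ := hρ r (hmem r hrC hr)
    exact ⟨⟨k1, k2⟩, k3, k4⟩

lemma QB_subset (l : ι) : QB bs Js l ⊆ Sl (Set.Iio 1) 0 (dig l {l}ᶜ) ∪ Psi bs Js := by
  have h1 : Set.Iic (0 : ℚ) ⊆ Set.Iio 1 := Set.Iic_subset_Iio.2 (by norm_num)
  refine Set.union_subset_union (fun v hv => ⟨PS_mono h1 hv.1, hv.2⟩) ?_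
  refine (gci_At_mono h1 fun y (hy : y < 0) => ?_).trans gci_PsiR_subset
  exact ⟨hy.trans (by norm_num), hy.ne⟩

/-- `frame_indep` with `D = Iio 1`, `R = Ioo 1 2` and monotonicity -/
theorem IsModel.indep_small (h : IsModel g p m) (hT : Typ bs Js) :
    Indep (F (PsiC bs Js)) (F (PsiR bs Js)) m := by
  have H := h.frame_indep hT (D := Set.Iio 1) (R := Set.Ioo 1 2) fun y hy r hr => lt_trans hy hr.1
  exact indep_of_indep_of_le_right
    (indep_of_indep_of_le_left H.symm (F_mono (gci_At_mono (Set.subset_univ _) le_rfl)))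
    (F_mono fun _ hv => hv.1)

/-- `frame_indep` with `D = ∅` -/
theorem IsModel.indep_Z (h : IsModel g p m) (hT : Typ bs Js) :
    Indep (F (PS ∅)) (F (Psi bs Js)) m := by
  have H := h.frame_indep hT (D := ∅) (R := I0) fun y hy => (Set.notMem_empty y hy).elim
  exact indep_of_indep_of_le_right H (F_mono (gci_At_mono (Set.subset_univ _) le_rfl))

end Crest.Agent.R69
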