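import Mathlib

/-!
# R69: a joint singular pair of a doubly commuting family of operators

(filled by helper65)
-/

set_option autoImplicit false
open scoped ComplexConjugate

namespace Crest.Agent.R69

/-- A commuting family of operators preserving a nonzero finite dimensional subspace has a common
eigenvector in it (strong induction on the dimension: if some `T a` is not a scalar on `E`, pass to
`E ⊓ eigenspace`; `Module.End.exists_eigenvalue`). -/
theorem exists_common_eigenvector {H W : Type*} [AddCommGroup H] [Module ℂ H]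
    (T : W → H →ₗ[ℂ] H) (hT : ∀ a b, Commute (T a) (T b)) (E : Submodule ℂ H)
    [FiniteDimensional ℂ E] (hE : E ≠ ⊥) (hinv : ∀ a, ∀ x ∈ E, T a x ∈ E) :
    ∃ e ∈ E, e ≠ 0 ∧ ∀ a, ∃ c : ℂ, T a e = c • e := by
  induction hn : Module.finrank ℂ E using Nat.strong_induction_on generalizing E with
  | _ n ih =>
    by_cases h : ∀ a, ∃ c : ℂ, ∀ x ∈ E, T a x = c • x
    · obtain ⟨e, he, h0⟩ := (Submodule.ne_bot_iff E).1 hE
      exact ⟨e, he, h0, fun a => (h a).imp fun c hc => hc e he⟩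
    push Not at h
    obtain ⟨a, ha⟩ := h
    have : Nontrivial E := Submodule.nontrivial_iff_ne_bot.2 hE
    obtain ⟨c, hc⟩ := Module.End.exists_eigenvalue ((T a).restrict (hinv a))
    obtain ⟨v, hv, hv0⟩ := hc.exists_hasEigenvector
    have h1 : E ⊓ Module.End.eigenspace (T a) c < E := inf_lt_left.2 fun h => by
      obtain ⟨x, hx, hx'⟩ := ha c
      exact hx' (Module.End.mem_eigenspace_iff.1 (h hx))
    have := Submodule.finiteDimensional_inf_left E (Module.End.eigenspace (T a) c)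
    obtain ⟨e, he, h⟩ := ih _ (hn ▸ Submodule.finrank_lt_finrank_of_lt h1)
      (E ⊓ Module.End.eigenspace (T a) c)
      ((Submodule.ne_bot_iff _).2 ⟨v, ⟨v.2, Module.End.mem_eigenspace_iff.2
        (congrArg Subtype.val (Module.End.mem_eigenspace_iff.1 hv))⟩, fun h => hv0 (Subtype.ext h)⟩)
      (fun b x hx => ⟨hinv b x hx.1, Module.End.mapsTo_genEigenspace_of_comm (hT a b) c 1 hx.2⟩) rfl
    exact ⟨e, he.1, h⟩

/-- `K = M ξ * star (M ξ)` is compact, self-adjoint and nonzero, so it has an eigenvalue `λ ≠ 0` with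
finite dimensional eigenspace `E` (`Mathlib/Analysis/InnerProductSpace/Spectrum.lean`:
`orthogonalComplement_iSup_eigenspaces_eq_bot`, `finite_dimensional_eigenspace`).  Let `e ∈ E` be a unit
common eigenvector of all `M a * star (M b)`, with eigenvalue `c(a,b)`; `v a = star (M a) e`,
`‖v ξ‖² = λ > 0`, `e' = v ξ / √λ`.  With `A = star (M a) * M ξ`, `B = star (M ξ) * M ξ`:
`A B (v ξ) = λ² v a` and `B A (v ξ) = λ c(ξ,a) v ξ`, so `v a` is a multiple of `e'`; the factor is
`⟪e', star (M a) e⟫ = ⟪M a e', e⟫`. -/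
theorem svd_pair {H W : Type*} [NormedAddCommGroup H] [InnerProductSpace ℂ H] [CompleteSpace H]
    (M : W → H →L[ℂ] H) (ξ : W) (hc : IsCompactOperator (M ξ)) (h0 : M ξ ≠ 0)
    (comm0 : ∀ a b c d, Commute (M a * star (M b)) (M c * star (M d)))
    (comm1 : ∀ a b c d, Commute (star (M a) * M b) (star (M c) * M d)) :
    ∃ e e' : H, ‖e‖ = 1 ∧ ‖e'‖ = 1 ∧ ∃ c : W → ℂ, c ξ ≠ 0 ∧
      ∀ a, M a e' = c a • e ∧ star (M a) e = conj (c a) • e' := by
  have hK : IsCompactOperator (M ξ * star (M ξ)) := hc.comp_clm (star (M ξ))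
  obtain ⟨μ, hμ, hμ0⟩ : ∃ μ, Module.End.HasEigenvalue
      ((M ξ * star (M ξ) : H →L[ℂ] H) : Module.End ℂ H) μ ∧ μ ≠ 0 := by
    by_contra h
    push Not at h
    exact h0 ((CStarRing.mul_star_self_eq_zero_iff _).1
      ((ContinuousLinearMap.eq_zero_of_forall_hasEigenvalue_eq_zero hK
        (IsSelfAdjoint.mul_star_self (M ξ)).isSymmetric).1 h))
  have := ContinuousLinearMap.finite_dimensional_eigenspace hK μ hμ0
  have hcomm : ∀ p q : W × W, Commute ((M p.1 * star (M p.2) : H →L[ℂ] H) : Module.End ℂ H)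
      ((M q.1 * star (M q.2) : H →L[ℂ] H) : Module.End ℂ H) := fun p q =>
    (comm0 p.1 p.2 q.1 q.2).map ContinuousLinearMap.toLinearMapRingHom
  obtain ⟨e₀, he₀, h1, h2⟩ := exists_common_eigenvector _ hcomm _ hμ fun p x hx =>
    Module.End.mapsTo_genEigenspace_of_comm (hcomm (ξ, ξ) p) μ 1 hx
  choose d hd using h2
  obtain ⟨e, he, h3, h4⟩ : ∃ e : H, ‖e‖ = 1 ∧ M ξ (star (M ξ) e) = μ • e ∧
      ∀ a b, M a (star (M b) e) = d (a, b) • e :=
    ⟨(‖e₀‖⁻¹ : ℂ) • e₀, norm_smul_inv_norm h1, by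
      rw [map_smul, map_smul, smul_comm]
      exact congrArg _ (Module.End.mem_eigenspace_iff.1 he₀), fun a b => by
      rw [map_smul, map_smul, smul_comm]
      exact congrArg _ (hd (a, b))⟩
  have hv : star (M ξ) e ≠ 0 := fun h => by
    rw [h, map_zero, eq_comm, smul_eq_zero] at h3
    rcases h3 with h3 | rfl
    · exact hμ0 h3
    · simp at he
  have hr : ((‖star (M ξ) e‖ : ℝ) : ℂ) ≠ 0 := by simpa using hv
  have he' : ‖(‖star (M ξ) e‖⁻¹ : ℂ) • star (M ξ) e‖ = 1 := norm_smul_inv_norm hv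
  have h5 : ∀ a, M a ((‖star (M ξ) e‖⁻¹ : ℂ) • star (M ξ) e) =
      ((‖star (M ξ) e‖⁻¹ : ℂ) * d (a, ξ)) • e := fun a => by rw [map_smul, h4, smul_smul]
  refine ⟨e, _, he, he', fun a => (‖star (M ξ) e‖⁻¹ : ℂ) * d (a, ξ),
    mul_ne_zero (inv_ne_zero hr) fun h => ?_, fun a => ⟨h5 a, ?_⟩⟩
  · rw [h4, h, zero_smul, eq_comm, smul_eq_zero] at h3
    rcases h3 with h3 | rfl
    · exact hμ0 h3
    · simp at he
  · have h6 := congrArg (· (star (M ξ) e)) (comm1 a ξ ξ ξ).eq
    simp only [ContinuousLinearMap.mul_apply, h3, map_smul, h4 ξ a] at h6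
    obtain ⟨k, hk⟩ : ∃ k : ℂ, star (M a) e = k • (‖star (M ξ) e‖⁻¹ : ℂ) • star (M ξ) e :=
      ⟨μ⁻¹ * d (ξ, a) * ‖star (M ξ) e‖, by
        rw [smul_smul, mul_inv_cancel_right₀ hr, mul_smul, ← smul_right_injective H hμ0 h6,
          inv_smul_smul₀ hμ0]⟩
    have h7 := ContinuousLinearMap.adjoint_inner_right (M a)
      ((‖star (M ξ) e‖⁻¹ : ℂ) • star (M ξ) e) e
    rw [← ContinuousLinearMap.star_eq_adjoint, hk, h5, inner_smul_right, inner_smul_left _ _ (_ * _),
      inner_self_eq_norm_sq_to_K, inner_self_eq_norm_sq_to_K, he, he'] at h7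
    rw [hk]
    congr 1
    simpa using h7

end Crest.Agent.R69
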