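import Crest.Agent.R69.HS
import Crest.Agent.R69.SVD

/-!
# R69: a joint singular pair of functions



Let `M` be given by `exists_HS` and `W = {ζ : Lp ℂ 2 μ // AEStronglyMeasurable[𝒟] ζ μ}` (or `lpMeas`).
* For bounded `G` and any `f, x ∈ L²`: `M G f = E[G · E[f|R1] | R0]` and
  `star (M G) x = E[conj G · E[x|R0] | R1]` a.e. (test against all of `L²` with the formula).
  In particular `M G f` is bounded by `‖G‖_∞ ∫ ‖f‖` (`ce_indep` for `‖E[f|R1]‖`).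
* Hence `M G1 star(M G2) M G3 star(M G4) x = Kop G1 G2 (Kop G3 G4 (E[x|R0]))` for bounded `x`; the
  commutation extends to all `x` (`exists_B_close`, continuity) and to all symbols in `W`
  (`exists_B_close`, continuity of `M`, one slot at a time; `{a | Commute …}` is closed).  The second
  family uses `comm1` with the conjugate symbols.
* `svd_pair` gives `e, e', c`; `c a = ⟪e, M a e'⟫` is continuous in `a`, so `c G ≠ 0` for some bounded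
  `G`; then `e = M G e' / c G` and `e' = star (M G) e / conj (c G)` are bounded and `R0`- resp.
  `R1`-measurable.
-/

set_option autoImplicit false
open MeasureTheory ProbabilityTheory Filter Topology
open scoped ComplexConjugate InnerProductSpace

namespace Crest.Agent.R69

universe u
variable {Ω : Type u} {R0 R1 𝒟 : MeasurableSpace Ω} {m0 : MeasurableSpace Ω} {μ : Measure Ω}
  [IsProbabilityMeasure μ]

/-- `T` is the operator with kernel `G` from `L²(R1)` to `L²(R0)` -/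
def HRep {m0 : MeasurableSpace Ω} (μ : Measure Ω) (R0 R1 : MeasurableSpace Ω) (G : Ω → ℂ)
    (T : Lp ℂ 2 μ →L[ℂ] Lp ℂ 2 μ) : Prop :=
  ∀ f x : Lp ℂ 2 μ, ⟪x, T f⟫_ℂ = ∫ ω, G ω * ((μ[f | R1]) ω * conj ((μ[x | R0]) ω)) ∂μ

omit [IsProbabilityMeasure μ] in
lemma hsp_inner (x y : Lp ℂ 2 μ) : ⟪x, y⟫_ℂ = ∫ ω, y ω * conj (x ω) ∂μ := by
  rw [L2.inner_def]
  simp only [RCLike.inner_apply]

lemma hsp_norm_sq (x : Lp ℂ 2 μ) : ∫ ω, ‖x ω‖ ^ 2 ∂μ = ‖x‖ ^ 2 := by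
  have h := hsp_inner x x
  rw [int_mul_conj, inner_self_eq_norm_sq_to_K] at h
  refine Complex.ofReal_injective ?_
  rw [← h, Complex.ofReal_pow]
  rfl

omit [IsProbabilityMeasure μ] in
lemma hsp_memLp_conj {f : Ω → ℂ} (hf : MemLp f 2 μ) : MemLp (fun ω => conj (f ω)) 2 μ :=
  Complex.conjCLE.toContinuousLinearMap.comp_memLp' hf

omit [IsProbabilityMeasure μ] in
lemma HRep.congr {G G' : Ω → ℂ} {T : Lp ℂ 2 μ →L[ℂ] Lp ℂ 2 μ} (h : HRep μ R0 R1 G T) (e : G =ᵐ[μ] G') :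
    HRep μ R0 R1 G' T := fun f x => by
  rw [h f x]
  refine integral_congr_ae ?_
  filter_upwards [e] with ω hω
  rw [hω]

omit [IsProbabilityMeasure μ] in
lemma HRep.star {G : Ω → ℂ} {T : Lp ℂ 2 μ →L[ℂ] Lp ℂ 2 μ} (h : HRep μ R0 R1 G T) :
    HRep μ R1 R0 (fun ω => conj (G ω)) (star T) := fun f x => by
  rw [ContinuousLinearMap.star_eq_adjoint, ContinuousLinearMap.adjoint_inner_right, ← inner_conj_symm,
    h x f, ← integral_conj]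
  refine integral_congr_ae (Eventually.of_forall fun ω => ?_)
  simp only [map_mul, Complex.conj_conj]
  ring

lemma HRep.coe {G : Ω → ℂ} {T : Lp ℂ 2 μ →L[ℂ] Lp ℂ 2 μ} (h : HRep μ R0 R1 G T) (h0 : R0 ≤ m0)
    (hG : B μ m0 G) (f : Lp ℂ 2 μ) : T f =ᵐ[μ] μ[fun ω => G ω * (μ[f | R1]) ω | R0] := by
  have hu : MemLp (fun ω => G ω * (μ[f | R1]) ω) 2 μ := hG.mul_memLp le_rfl (memLp_ce (Lp.memLp f) R1)
  have hg := memLp_ce hu R0
  have key : T f = hg.toLp _ := by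
    refine ext_inner_left ℂ fun x => ?_
    have hx := hsp_memLp_conj (Lp.memLp x)
    have e1 := ce_conj ((Lp.memLp x).integrable one_le_two) R0
    rw [h f x, hsp_inner]
    calc ∫ ω, G ω * ((μ[f | R1]) ω * conj ((μ[x | R0]) ω)) ∂μ
        = ∫ ω, (μ[fun ω => conj (x ω) | R0]) ω * (G ω * (μ[f | R1]) ω) ∂μ := by
          refine integral_congr_ae ?_
          filter_upwards [e1] with ω hω
          rw [hω]
          ring
      _ = ∫ ω, (μ[fun ω => conj (x ω) | R0]) ω * (μ[fun ω => G ω * (μ[f | R1]) ω | R0]) ω ∂μ :=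
          (int_mul_ce_L2 h0 (memLp_ce hx R0) (ce_aesm _ R0) hu).symm
      _ = ∫ ω, (μ[fun ω => G ω * (μ[f | R1]) ω | R0]) ω * (μ[fun ω => conj (x ω) | R0]) ω ∂μ := by
          simp only [mul_comm]
      _ = ∫ ω, (μ[fun ω => G ω * (μ[f | R1]) ω | R0]) ω * conj (x ω) ∂μ :=
          int_mul_ce_L2 h0 hg (ce_aesm _ R0) hx
      _ = _ := by
          refine integral_congr_ae ?_
          filter_upwards [hg.coeFn_toLp] with ω hω
          rw [hω]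
  rw [key]
  exact hg.coeFn_toLp

lemma HRep.bdd {G : Ω → ℂ} {T : Lp ℂ 2 μ →L[ℂ] Lp ℂ 2 μ} (h : HRep μ R0 R1 G T) (h0 : R0 ≤ m0)
    (h1 : R1 ≤ m0) (hi : Indep R1 R0 μ) (hG : B μ m0 G) (f : Lp ℂ 2 μ) : B μ R0 (T f) := by
  refine B.congr ⟨ce_aesm _ R0, ?_⟩ (h.coe h0 hG f).symm
  obtain ⟨C, hC⟩ := hG.2
  have hv : Integrable (μ[f | R1]) μ := integrable_condExp
  have hu : Integrable (fun ω => G ω * (μ[f | R1]) ω) μ := hG.mul_integrable le_rfl hv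
  have hw : Integrable (fun ω => C * ‖(μ[f | R1]) ω‖) μ := hv.norm.const_mul C
  have h2 := condExp_mono (m := R0) hu.norm hw (by
    filter_upwards [hC] with ω hω
    rw [norm_mul]
    exact mul_le_mul_of_nonneg_right hω (norm_nonneg _))
  have h3 : μ[fun ω => C * ‖(μ[f | R1]) ω‖ | R0] =ᵐ[μ] fun _ => ∫ ω, C * ‖(μ[f | R1]) ω‖ ∂μ :=
    condExp_indep_eq h1 h0 (stronglyMeasurable_condExp.norm.const_mul C) hi
  refine ⟨∫ ω, C * ‖(μ[f | R1]) ω‖ ∂μ, ?_⟩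
  filter_upwards [norm_condExp_le (m := R0) (μ := μ) fun ω => G ω * (μ[f | R1]) ω, h2, h3] with ω a b c
  exact a.trans (b.trans c.le)

omit [IsProbabilityMeasure μ] in
lemma Kop_congr (G G' : Ω → ℂ) {x x' : Ω → ℂ} (e : x =ᵐ[μ] x') :
    Kop μ R0 R1 G G' x =ᵐ[μ] Kop μ R0 R1 G G' x' := by
  have e1 : μ[fun ω' => conj (G' ω') * x ω' | R1] =ᵐ[μ] μ[fun ω' => conj (G' ω') * x' ω' | R1] := by
    refine condExp_congr_ae ?_
    filter_upwards [e] with ω hω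
    rw [hω]
  refine condExp_congr_ae ?_
  filter_upwards [e1] with ω hω
  rw [hω]

lemma HRep.mul_star {G G' : Ω → ℂ} {T T' : Lp ℂ 2 μ →L[ℂ] Lp ℂ 2 μ} (h : HRep μ R0 R1 G T)
    (h' : HRep μ R0 R1 G' T') (h0 : R0 ≤ m0) (h1 : R1 ≤ m0) (hG : B μ m0 G) (hG' : B μ m0 G')
    (x : Lp ℂ 2 μ) : (T * Star.star T') x =ᵐ[μ] Kop μ R0 R1 G G' (μ[x | R0]) := by
  have e1 := h'.star.coe h1 hG'.conj x
  have e2 := (condExp_congr_ae (m := R1) e1).trans (ce_tower (𝒜 := R1) (ℬ := R1) le_rfl h1 _)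
  refine (h.coe h0 hG (Star.star T' x)).trans (condExp_congr_ae ?_)
  filter_upwards [e2] with ω hω
  rw [hω]

lemma hsp_mem_closure {𝒢 : MeasurableSpace Ω} {m0 : MeasurableSpace Ω} {μ : Measure Ω}
    [IsProbabilityMeasure μ] (h : 𝒢 ≤ m0) {ζ : Lp ℂ 2 μ}
    (hζ : AEStronglyMeasurable[𝒢] ζ μ) : ζ ∈ closure {η : Lp ℂ 2 μ | B μ 𝒢 η} := by
  refine Metric.mem_closure_iff.2 fun ε hε => ?_
  obtain ⟨g, hg, hle⟩ := exists_B_close h (Lp.memLp ζ) hζ (ε := (ε / 2) ^ 2) (by positivity)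
  have hm := hg.memLp h 2
  refine ⟨hm.toLp g, hg.congr hm.coeFn_toLp.symm, ?_⟩
  have e : ∫ ω, ‖ζ ω - g ω‖ ^ 2 ∂μ = ‖ζ - hm.toLp g‖ ^ 2 := by
    rw [← hsp_norm_sq]
    refine integral_congr_ae ?_
    filter_upwards [Lp.coeFn_sub ζ (hm.toLp g), hm.coeFn_toLp] with ω a b
    rw [a, Pi.sub_apply, b]
  rw [e] at hle
  rw [dist_eq_norm]
  have := (sq_le_sq₀ (norm_nonneg _) (by positivity)).1 hle
  linarith

lemma hsp_comm_bdd {G1 G2 G3 G4 : Ω → ℂ} {T1 T2 T3 T4 : Lp ℂ 2 μ →L[ℂ] Lp ℂ 2 μ}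
    (r1 : HRep μ R0 R1 G1 T1) (r2 : HRep μ R0 R1 G2 T2) (r3 : HRep μ R0 R1 G3 T3)
    (r4 : HRep μ R0 R1 G4 T4) (h0 : R0 ≤ m0) (h1 : R1 ≤ m0) (b1 : B μ m0 G1) (b2 : B μ m0 G2)
    (b3 : B μ m0 G3) (b4 : B μ m0 G4)
    (hc : ∀ x, B μ R0 x →
      Kop μ R0 R1 G1 G2 (Kop μ R0 R1 G3 G4 x) =ᵐ[μ] Kop μ R0 R1 G3 G4 (Kop μ R0 R1 G1 G2 x)) :
    Commute (T1 * star T2) (T3 * star T4) := by
  have key : ∀ {G1 G2 G3 G4 : Ω → ℂ} {T1 T2 T3 T4 : Lp ℂ 2 μ →L[ℂ] Lp ℂ 2 μ},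
      HRep μ R0 R1 G1 T1 → HRep μ R0 R1 G2 T2 → HRep μ R0 R1 G3 T3 → HRep μ R0 R1 G4 T4 →
      B μ m0 G1 → B μ m0 G2 → B μ m0 G3 → B μ m0 G4 → ∀ x : Lp ℂ 2 μ,
      (T1 * star T2 * (T3 * star T4)) x =ᵐ[μ] Kop μ R0 R1 G1 G2 (Kop μ R0 R1 G3 G4 (μ[x | R0])) := by
    intro G1 G2 G3 G4 T1 T2 T3 T4 r1 r2 r3 r4 b1 b2 b3 b4 x
    refine (r1.mul_star r2 h0 h1 b1 b2 ((T3 * star T4) x)).trans (Kop_congr _ _ ?_)
    exact (condExp_congr_ae (m := R0) (r3.mul_star r4 h0 h1 b3 b4 x)).trans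
      (ce_tower (𝒜 := R0) (ℬ := R0) le_rfl h0 _)
  have hd : Dense {η : Lp ℂ 2 μ | B μ m0 η} := fun ζ =>
    hsp_mem_closure le_rfl (Lp.aestronglyMeasurable ζ)
  refine DFunLike.coe_injective (Continuous.ext_on hd (ContinuousLinearMap.continuous _)
    (ContinuousLinearMap.continuous _) fun x hx => Lp.ext ?_)
  exact (key r1 r2 r3 r4 b1 b2 b3 b4 x).trans ((hc _ (B.condExp hx R0)).trans
    (key r3 r4 r1 r2 b3 b4 b1 b2 x).symm)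

lemma hsp_comm_closure {E A : Type*} [TopologicalSpace E] [TopologicalSpace A] [T2Space A] [Mul A]
    [ContinuousMul A] {s : Set E} {F F' : E → A} (hF : Continuous F) (hF' : Continuous F')
    (h : ∀ a ∈ s, ∀ b ∈ s, ∀ c ∈ s, ∀ d ∈ s, Commute (F a * F' b) (F c * F' d)) :
    ∀ a ∈ closure s, ∀ b ∈ closure s, ∀ c ∈ closure s, ∀ d ∈ closure s,
      Commute (F a * F' b) (F c * F' d) := by
  intro a ha b hb c hc d hd
  have hz : IsClosed {q : E × E × E × E | F q.1 * F' q.2.1 * (F q.2.2.1 * F' q.2.2.2) =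
      F q.2.2.1 * F' q.2.2.2 * (F q.1 * F' q.2.1)} := isClosed_eq (by fun_prop) (by fun_prop)
  have hm : (a, b, c, d) ∈ closure (s ×ˢ s ×ˢ s ×ˢ s) := by
    rw [closure_prod_eq, closure_prod_eq, closure_prod_eq]
    exact ⟨ha, hb, hc, hd⟩
  exact closure_minimal (fun q hq => h _ hq.1 _ hq.2.1 _ hq.2.2.1 _ hq.2.2.2) hz hm

omit [IsProbabilityMeasure μ] in
lemma hsp_B_of_smul {𝒢 : MeasurableSpace Ω} {m0 : MeasurableSpace Ω} {μ : Measure Ω} {c : ℂ} (hc : c ≠ 0)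
    {e y : Lp ℂ 2 μ} (h : y = c • e) (hy : B μ 𝒢 y) : B μ 𝒢 e := by
  refine ((B.const c⁻¹).mul hy).congr ?_
  filter_upwards [Lp.coeFn_smul c e] with ω hω
  rw [h, hω, Pi.smul_apply, smul_eq_mul, inv_mul_cancel_left₀ hc]

theorem exists_sing_pair (h0 : R0 ≤ m0) (h1 : R1 ≤ m0) (hD : 𝒟 ≤ m0) (hi : Indep R0 R1 μ)
    (hD' : ∀ G : Ω → ℂ, AEStronglyMeasurable[𝒟] G μ → AEStronglyMeasurable[R0 ⊔ R1] G μ)
    (comm0 : ∀ G1 G2 G3 G4 x, B μ 𝒟 G1 → B μ 𝒟 G2 → B μ 𝒟 G3 → B μ 𝒟 G4 → B μ R0 x →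
      Kop μ R0 R1 G1 G2 (Kop μ R0 R1 G3 G4 x) =ᵐ[μ] Kop μ R0 R1 G3 G4 (Kop μ R0 R1 G1 G2 x))
    (comm1 : ∀ G1 G2 G3 G4 x, B μ 𝒟 G1 → B μ 𝒟 G2 → B μ 𝒟 G3 → B μ 𝒟 G4 → B μ R1 x →
      Kop μ R1 R0 G1 G2 (Kop μ R1 R0 G3 G4 x) =ᵐ[μ] Kop μ R1 R0 G3 G4 (Kop μ R1 R0 G1 G2 x))
    {ξ : Ω → ℂ} (hξ : MemLp ξ 2 μ) (hξ' : AEStronglyMeasurable[𝒟] ξ μ)
    (hξ0 : ¬ ξ =ᵐ[μ] fun _ => 0) :
    ∃ e e' : Ω → ℂ, B μ R0 e ∧ B μ R1 e' ∧ ∫ ω, ‖e ω‖ ^ 2 ∂μ = 1 ∧ ∫ ω, ‖e' ω‖ ^ 2 ∂μ = 1 ∧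
      (∀ G, B μ 𝒟 G →
        (μ[fun ω => G ω * e' ω | R0] =ᵐ[μ]
          fun ω => (∫ y, G y * (e' y * conj (e y)) ∂μ) * e ω) ∧
        (μ[fun ω => conj (G ω) * e ω | R1] =ᵐ[μ]
          fun ω => conj (∫ y, G y * (e' y * conj (e y)) ∂μ) * e' ω)) ∧
      ∫ y, ξ y * (e' y * conj (e y)) ∂μ ≠ 0 ∧
      ∃ G, B μ 𝒟 G ∧ ∫ y, G y * (e' y * conj (e y)) ∂μ ≠ 0 := by
  obtain ⟨M, hM, hcpt, hinj⟩ := exists_HS h0 h1 hi
  have rep : ∀ a : Lp ℂ 2 μ, HRep μ R0 R1 a (M a) := fun a f x => hM a f x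
  have hMc : Continuous fun a => M a := M.continuous
  have hMs : Continuous fun a => star (M a) := hMc.star
  have c0 := hsp_comm_closure (s := {η : Lp ℂ 2 μ | B μ 𝒟 η}) hMc hMs fun a ha b hb c hc d hd =>
    hsp_comm_bdd (rep a) (rep b) (rep c) (rep d) h0 h1 (B.mono ha hD) (B.mono hb hD) (B.mono hc hD)
      (B.mono hd hD) fun x hx => comm0 _ _ _ _ x ha hb hc hd hx
  have c1 := hsp_comm_closure (s := {η : Lp ℂ 2 μ | B μ 𝒟 η}) hMs hMc fun a ha b hb c hc d hd => by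
    have := hsp_comm_bdd (rep a).star (rep b).star (rep c).star (rep d).star h1 h0
      (B.mono ha hD).conj (B.mono hb hD).conj (B.mono hc hD).conj (B.mono hd hD).conj
      fun x hx => comm1 _ _ _ _ x (B.conj ha) (B.conj hb) (B.conj hc) (B.conj hd) hx
    rwa [star_star, star_star] at this
  have hcl : ∀ a : {ζ : Lp ℂ 2 μ // AEStronglyMeasurable[𝒟] ζ μ},
      a.1 ∈ closure {η : Lp ℂ 2 μ | B μ 𝒟 η} := fun a => hsp_mem_closure hD a.2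
  let ξ' : {ζ : Lp ℂ 2 μ // AEStronglyMeasurable[𝒟] ζ μ} := ⟨hξ.toLp ξ, hξ'.congr hξ.coeFn_toLp.symm⟩
  have hne : M ξ'.1 ≠ 0 := by
    intro h
    have h2 : hξ.toLp ξ = 0 := hinj _ (hD' _ ξ'.2) h
    refine hξ0 (hξ.coeFn_toLp.symm.trans ?_)
    rw [h2]
    exact Lp.coeFn_zero _ _ _
  obtain ⟨e, e', he, he', c, hcξ, hc⟩ := svd_pair (fun a : {ζ : Lp ℂ 2 μ //
      AEStronglyMeasurable[𝒟] ζ μ} => M a.1) ξ' (hcpt _ (hD' _ ξ'.2)) hne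
    (fun a b c d => c0 _ (hcl a) _ (hcl b) _ (hcl c) _ (hcl d))
    (fun a b c d => c1 _ (hcl a) _ (hcl b) _ (hcl c) _ (hcl d))
  have hce : ∀ a, c a = ⟪e, M a.1 e'⟫_ℂ := fun a => by
    rw [(hc a).1, inner_smul_right, inner_self_eq_norm_sq_to_K, he]
    simp
  have hU : IsOpen {a : Lp ℂ 2 μ | ⟪e, M a e'⟫_ℂ ≠ 0} :=
    isOpen_ne_fun (continuous_const.inner (hMc.clm_apply continuous_const)) continuous_const
  obtain ⟨G, hG0, hG⟩ := mem_closure_iff.1 (hcl ξ') _ hU (by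
    change ⟪e, M ξ'.1 e'⟫_ℂ ≠ 0
    rw [← hce]
    exact hcξ)
  have hG' : B μ 𝒟 G := hG
  have hcG : c ⟨G, hG'.1⟩ ≠ 0 := by
    rw [hce]
    exact hG0
  have hBe : B μ R0 e := hsp_B_of_smul hcG (hc ⟨G, hG'.1⟩).1
    ((rep G).bdd h0 h1 hi.symm (hG'.mono hD) e')
  have hBe' : B μ R1 e' := hsp_B_of_smul ((map_ne_zero _).2 hcG) (hc ⟨G, hG'.1⟩).2
    ((rep G).star.bdd h1 h0 hi (hG'.mono hD).conj e)
  have e0 := ce_of_aesm h0 hBe.1 (hBe.integrable h0)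
  have e1 := ce_of_aesm h1 hBe'.1 (hBe'.integrable h1)
  have hci : ∀ (a : {ζ : Lp ℂ 2 μ // AEStronglyMeasurable[𝒟] ζ μ}) (F : Ω → ℂ), a.1 =ᵐ[μ] F →
      ∫ y, F y * (e' y * conj (e y)) ∂μ = c a := fun a F hF => by
    rw [hce, hM]
    refine integral_congr_ae ?_
    filter_upwards [e0, e1, hF] with ω a0 a1 a2
    rw [a0, a1, a2]
  refine ⟨e, e', hBe, hBe', by rw [hsp_norm_sq, he, one_pow], by rw [hsp_norm_sq, he', one_pow],
    fun F hF => ?_, ?_, G, hG', ?_⟩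
  · have hm := hF.memLp hD 2
    let a : {ζ : Lp ℂ 2 μ // AEStronglyMeasurable[𝒟] ζ μ} := ⟨hm.toLp F, hF.1.congr hm.coeFn_toLp.symm⟩
    have r : HRep μ R0 R1 F (M a.1) := (rep a.1).congr hm.coeFn_toLp
    rw [hci a F hm.coeFn_toLp]
    constructor
    · have h2 := r.coe h0 (hF.mono hD) e'
      rw [(hc a).1] at h2
      have h3 : μ[fun ω => F ω * e' ω | R0] =ᵐ[μ] μ[fun ω => F ω * (μ[e' | R1]) ω | R0] := by
        refine condExp_congr_ae ?_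
        filter_upwards [e1] with ω hω
        rw [hω]
      exact h3.trans (h2.symm.trans (Lp.coeFn_smul _ _))
    · have h2 := r.star.coe h1 (hF.mono hD).conj e
      rw [(hc a).2] at h2
      have h3 : μ[fun ω => conj (F ω) * e ω | R1] =ᵐ[μ]
          μ[fun ω => conj (F ω) * (μ[e | R0]) ω | R1] := by
        refine condExp_congr_ae ?_
        filter_upwards [e0] with ω hω
        rw [hω]
      exact h3.trans (h2.symm.trans (Lp.coeFn_smul _ _))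
  · rw [hci ξ' ξ hξ.coeFn_toLp]
    exact hcξ
  · rw [hci ⟨G, hG'.1⟩ G EventuallyEq.rfl]
    exact hcG

end Crest.Agent.R69
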