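import Crest.Agent.R69.GComm
import Crest.Agent.R69.HSPair

/-!
# R69: characters of a grid

Notation as in `GComm.lean`.
-/

set_option autoImplicit false
open MeasureTheory ProbabilityTheory Filter Topology
open scoped ComplexConjugate

namespace Crest.Agent.R69

universe u
variable {Ω : Type u} {C : Fin 3 → Fin 3 → MeasurableSpace Ω} {m0 : MeasurableSpace Ω}
  {μ : Measure Ω} [IsProbabilityMeasure μ]

/-- inequalities between sups of cells -/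
local macro "grid_le" C:term : tactic =>
  `(tactic| (simp only [colS_eq, rowS_eq, ← Cs_singleton (C := $C), ← Cs_union]
             exact Cs_mono (by decide)))

omit [IsProbabilityMeasure μ] in
private lemma CI.conv {𝒜 ℬ 𝒞 𝒜' ℬ' 𝒞' : MeasurableSpace Ω} {m0 : MeasurableSpace Ω} {μ : Measure Ω}
    (H : CI μ 𝒜 ℬ 𝒞) (h1 : 𝒜' ≤ 𝒜) (h2 : ℬ' ≤ ℬ) (h2' : ℬ ≤ ℬ') (h3 : 𝒞 ≤ 𝒞') : CI μ 𝒜' ℬ' 𝒞' := by
  obtain rfl := le_antisymm h2 h2'
  exact fun f hf => (H f ⟨hf.1.mono h1, hf.2⟩).mono h3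

omit [IsProbabilityMeasure μ] in
private lemma Grid.indR (h : Grid μ C) {i i' : Fin 3} (hi : i ≠ i') {𝒳 𝒴 : MeasurableSpace Ω}
    (hx : 𝒳 ≤ rowS C i) (hy : 𝒴 ≤ rowS C i') : Indep 𝒳 𝒴 μ :=
  indep_of_indep_of_le_right (indep_of_indep_of_le_left (h.rowI i i' hi) hx) hy

omit [IsProbabilityMeasure μ] in
private lemma Grid.indC (h : Grid μ C) {j j' : Fin 3} (hj : j ≠ j') {𝒳 𝒴 : MeasurableSpace Ω}
    (hx : 𝒳 ≤ colS C j) (hy : 𝒴 ≤ colS C j') : Indep 𝒳 𝒴 μ :=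
  indep_of_indep_of_le_right (indep_of_indep_of_le_left (h.colI j j' hj) hx) hy

omit [IsProbabilityMeasure μ] in
private lemma Grid.a3_inst (h : Grid μ C) (i : Fin 3) :
    CI μ (C i 0) (colS C 1 ⊔ colS C 2) (colS C 1 ⊔ C i 2) ∧
    CI μ (C i 2) (colS C 0 ⊔ colS C 1) (C i 0 ⊔ colS C 1) ∧
    CI μ (Cs C ({i}ᶜ ×ˢ {1})) (colS C 0 ⊔ colS C 2) (colS C 0 ⊔ Cs C ({i}ᶜ ×ˢ {2})) ∧
    CI μ (Cs C ({i}ᶜ ×ˢ {2})) (colS C 0 ⊔ colS C 1) (colS C 0 ⊔ Cs C ({i}ᶜ ×ˢ {1})) ∧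
    Cs C ({i}ᶜ ×ˢ {1}) ≤ colS C 1 ∧ Cs C ({i}ᶜ ×ˢ {2}) ≤ colS C 2 := by
  have hi : ({i} : Finset (Fin 3)) ≠ Finset.univ := by clear h; revert i; decide
  have hi' : ({i}ᶜ : Finset (Fin 3)) ≠ Finset.univ := by clear h hi; revert i; decide
  simp only [colS_eq, ← Cs_singleton (C := C), ← Cs_union]
  refine ⟨(h.a3 {i} 0 hi).conv ?_ ?_ ?_ ?_, (h.a3 {i} 2 hi).conv ?_ ?_ ?_ ?_,
    (h.a3 {i}ᶜ 1 hi').conv ?_ ?_ ?_ ?_, (h.a3 {i}ᶜ 2 hi').conv ?_ ?_ ?_ ?_, ?_, ?_⟩ <;>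
  refine Cs_mono ?_ <;> clear h hi hi' <;> revert i <;> decide

/-- `determined` for the columns with `B = C i ·`, `B' =` the other two rows (`a3` with `ρ = {i}` and
`ρ = {i}ᶜ`); `z = ξ`. -/
lemma Grid.col_determined (h : Grid μ C) (i : Fin 3) {ξ η : Ω → ℂ} (hξ : B μ (C i 0 ⊔ C i 1) ξ)
    (hη : B μ (Cs C ({i}ᶜ ×ˢ {2})) η) (hξη : ξ =ᵐ[μ] μ[η | C i 2]) :
    AEStronglyMeasurable[Cs C ({i}ᶜ ×ˢ {2})] ξ μ := by
  obtain ⟨h1, h2, h3, h4, h5, h6⟩ := h.a3_inst i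
  have hξ1 : AEStronglyMeasurable[C i 2] ξ μ := (ce_aesm η (C i 2)).congr hξη.symm
  have hξ2 : AEStronglyMeasurable[colS C 2] ξ μ := hξ1.mono (le_colS (C := C) i 2)
  have hle : C i 0 ⊔ C i 1 ≤ m0 := sup_le (h.le _ _) (h.le _ _)
  have hξ3 : ξ =ᵐ[μ] μ[ξ | colS C 2] := (ce_of_aesm (h.colS_le 2) hξ2 (hξ.integrable hle)).symm
  have hξ4 : B μ (colS C 0 ⊔ colS C 1) ξ :=
    hξ.mono (sup_le_sup (le_colS (C := C) i 0) (le_colS (C := C) i 1))
  exact determined (h.colS_le 0) (h.colS_le 1) (h.colS_le 2) (h.colI 0 1 (by decide))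
    (h.colI 0 2 (by decide)) (h.colI 1 2 (by decide)) (le_colS (C := C) i 0) (le_colS (C := C) i 2)
    h5 h6 h1 h2 h3 h4 hξ4 hξ3 hη hξη

private lemma norm_one_iff {z : ℂ} : ‖z‖ = 1 ↔ z * conj z = 1 := by
  rw [Complex.mul_conj, Complex.normSq_eq_norm_sq]
  constructor
  · intro h; simp [h]
  · intro h
    have h' : ‖z‖ ^ 2 = 1 := by exact_mod_cast h
    exact (pow_eq_one_iff_of_nonneg (norm_nonneg z) two_ne_zero).1 h'

/-- From a joint singular pair to a column character.  Write `c G = ∫ G e' conj e`, `c G₀ ≠ 0`.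
* `e = E[G₀ e' | R 0] / c G₀ ∈ C02` and `∈ A'` (`range_mem`); `e' ∈ C12` (same for `swapRow C`, `conj G₀`).
* `e = E[G₀ e' / c G₀ | C02]`, so `e ∈ C12 ⊔ C22` by `col_determined` (`i = 0`); by `a4` (`i = 0`,
  `σ = {0,1}`) and `CI.aesm`, `e ∈ R 1 ⊔ (C20 ⊔ C21)`.
* For `y ∈ B μ C12`, `ξ_y = E[e y | R 2]` lies in `C22` and in `C20 ⊔ C21` (`CI_il`), equals `E[e y | C22]`, so
  lies in `C02 ⊔ C12` (`col_determined`, `i = 2`): `ξ_y ∈ 𝒟`.
* Let `w = E[e conj e' | 𝒟]`.  For `y ∈ C12`, `z ∈ C22`, `G = conj E[z|𝒟]`: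
  `∫ e y z = ∫ ξ_y z = ∫ ξ_y conj G = ∫ (conj G e) y = conj (c G) ∫ e' y = (∫ w z)(∫ e' y) = ∫ e' w y z`.
  So `e = e' w` (`ae_eq_of_forall_prod` on `C12 ⊔ C22`).
* Conditioning `e conj e = e' conj e' w conj w` on `C22` gives `‖w‖ = 1`; then `‖e‖ = ‖e'‖`, conditioning on
  `C02` gives `‖e‖ = 1`.  Hence `w = e conj e'`. -/
theorem Grid.col_of_pair (h : Grid μ C) {e e' : Ω → ℂ} (he : B μ (rowS C 0) e)
    (he' : B μ (rowS C 1) e') (hn : ∫ ω, ‖e ω‖ ^ 2 ∂μ = 1) (hn' : ∫ ω, ‖e' ω‖ ^ 2 ∂μ = 1)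
    (hp : ∀ G, B μ (DD μ C) G →
      (μ[fun ω => G ω * e' ω | rowS C 0] =ᵐ[μ]
        fun ω => (∫ y, G y * (e' y * conj (e y)) ∂μ) * e ω) ∧
      (μ[fun ω => conj (G ω) * e ω | rowS C 1] =ᵐ[μ]
        fun ω => conj (∫ y, G y * (e' y * conj (e y)) ∂μ) * e' ω))
    (h0 : ∃ G, B μ (DD μ C) G ∧ ∫ y, G y * (e' y * conj (e y)) ∂μ ≠ 0) :
    Chr μ (C 0 2) (C 1 2) (C 2 2) (fun ω => e ω * conj (e' ω)) ∧
      AEStronglyMeasurable[C 2 0 ⊔ C 2 1] (fun ω => e ω * conj (e' ω)) μ := by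
  obtain ⟨G₀, hG₀, hc⟩ := h0
  have hR0 := h.rowS_le 0
  have hR1 := h.rowS_le 1
  have hR2 := h.rowS_le 2
  have hD := h.DD_le
  have hD22 : DD μ C ≤ C 2 2 := inf_le_left.trans inf_le_left
  have hDR : DD μ C ≤ rowS C 2 := hD22.trans (le_rowS (C := C) 2 2)
  have i02 : Indep (C 0 2) (C 2 2) μ := h.indR (by decide) (le_rowS 0 2) (le_rowS 2 2)
  have i12 : Indep (C 1 2) (C 2 2) μ := h.indR (by decide) (le_rowS 1 2) (le_rowS 2 2)
  have i10 : Indep (C 1 2) (C 0 2) μ := h.indR (by decide) (le_rowS 1 2) (le_rowS 0 2)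
  have iR12 : Indep (rowS C 1) (rowS C 2) μ := h.rowI 1 2 (by decide)
  obtain ⟨hp0, hp1⟩ := hp G₀ hG₀
  generalize (∫ y, G₀ y * (e' y * conj (e y)) ∂μ) = c at hc hp0 hp1
  have hc' : conj c ≠ 0 := by simpa using hc
  have he_eq : e =ᵐ[μ] fun ω => c⁻¹ * (μ[fun ω => G₀ ω * e' ω | rowS C 0]) ω := by
    filter_upwards [hp0] with ω hω
    rw [hω]; field_simp
  have he'_eq : e' =ᵐ[μ] fun ω => (conj c)⁻¹ * (μ[fun ω => conj (G₀ ω) * e ω | rowS C 1]) ω := by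
    filter_upwards [hp1] with ω hω
    rw [hω]; field_simp
  have hrm := h.range_mem hG₀ he'
  have heA : B μ (C 0 0 ⊔ C 0 1) e := he.of_aesm ((hrm.1.const_mul c⁻¹).congr he_eq.symm)
  have he02 : B μ (C 0 2) e := he.of_aesm ((hrm.2.const_mul c⁻¹).congr he_eq.symm)
  have hG₀' : B μ (DD μ (R69.swapRow C)) (fun ω => conj (G₀ ω)) := by rw [DD_swapRow]; exact hG₀.conj
  have hrm' : AEStronglyMeasurable[C 1 2] (μ[fun ω => conj (G₀ ω) * e ω | rowS C 1]) μ :=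
    (h.swapRow.range_mem hG₀' he).2
  have he12 : B μ (C 1 2) e' := he'.of_aesm ((hrm'.const_mul (conj c)⁻¹).congr he'_eq.symm)
  -- `e` is determined by the rest of its column
  have hedet : B μ (C 1 2 ⊔ C 2 2) e := by
    have hη : B μ (Cs C ({0}ᶜ ×ˢ {2})) (fun ω => c⁻¹ * (G₀ ω * e' ω)) :=
      (B.const _).mul ((hG₀.mono (hD22.trans (le_Cs (by decide)))).mul (he12.mono (le_Cs (by decide))))
    have h1 : e =ᵐ[μ] μ[fun ω => c⁻¹ * (G₀ ω * e' ω) | C 0 2] := by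
      filter_upwards [he_eq, ce_const_mul (μ := μ) c⁻¹ (fun ω => G₀ ω * e' ω) (C 0 2),
        ce_eq_of_aesm (le_rowS (C := C) 0 2) hR0 hrm.2] with ω h1 h2 h3
      rw [h1, h2, h3]
    exact he.of_aesm ((h.col_determined 0 heA hη h1).mono (by grid_le C))
  have herow : B μ (rowS C 1 ⊔ (C 2 0 ⊔ C 2 1)) e := by
    have hci : CI μ (C 0 0 ⊔ C 0 1) (rowS C 1 ⊔ rowS C 2) (rowS C 1 ⊔ (C 2 0 ⊔ C 2 1)) :=
      (h.a4 0 {0, 1} (by decide)).conv (by grid_le C) (by grid_le C) (by grid_le C) (by grid_le C)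
    exact he.of_aesm (hci.aesm (sup_le hR1 hR2) heA
      (hedet.1.mono (sup_le_sup (le_rowS (C := C) 1 2) (le_rowS (C := C) 2 2))))
  -- the legs
  have hleg : ∀ y, B μ (C 1 2) y → B μ (DD μ C) (μ[fun ω => e ω * y ω | rowS C 2]) := by
    intro y hy
    have hy1 : B μ (rowS C 1) y := hy.mono (le_rowS (C := C) 1 2)
    have b1 : B μ (rowS C 1 ⊔ C 2 2) (fun ω => e ω * y ω) :=
      (hedet.mono (sup_le_sup_right (le_rowS (C := C) 1 2) _)).mul (hy1.mono le_sup_left)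
    have b2 : B μ (rowS C 1 ⊔ (C 2 0 ⊔ C 2 1)) (fun ω => e ω * y ω) :=
      herow.mul (hy1.mono le_sup_left)
    have a1 := CI_il hR1 hR2 iR12 (le_rowS (C := C) 2 2) _ b1
    have a2 := CI_il hR1 hR2 iR12 (sup_le (le_rowS (C := C) 2 0) (le_rowS (C := C) 2 1)) _ b2
    have b3 : B μ (Cs C ({2}ᶜ ×ˢ {2})) (fun ω => e ω * y ω) :=
      (he02.mono (le_Cs (by decide))).mul (hy.mono (le_Cs (by decide)))
    have a3 := h.col_determined 2 ((b1.condExp (rowS C 2)).of_aesm a2) b3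
      (ce_eq_of_aesm (le_rowS (C := C) 2 2) hR2 a1)
    exact (b1.condExp (rowS C 2)).of_aesm (aesm_DD_iff.2 ⟨a1, a3.mono (by grid_le C), a2⟩)
  have hee' : B μ m0 (fun ω => e ω * conj (e' ω)) := (he.mono hR0).mul (he'.mono hR1).conj
  set w := μ[fun ω => e ω * conj (e' ω) | DD μ C] with hw
  have hwD : B μ (DD μ C) w := hee'.condExp _
  have hw2 : B μ (C 2 2) w := hwD.mono hD22
  have key : e =ᵐ[μ] fun ω => e' ω * w ω := by
    have b1 : B μ (C 1 2 ⊔ C 2 2) (fun ω => e' ω * w ω) :=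
      (he12.mono le_sup_left).mul (hw2.mono le_sup_right)
    have hle : C 1 2 ⊔ C 2 2 ≤ m0 := sup_le (h.le _ _) (h.le _ _)
    refine ae_eq_of_forall_prod (h.le 1 2) (h.le 2 2) (he.integrable hR0) (b1.integrable hle)
      hedet.1 b1.1 fun y z hy hz => ?_
    have hζ : B μ (DD μ C) (μ[z | DD μ C]) := hz.condExp _
    have iey : Integrable (fun ω => e ω * y ω) μ :=
      ((he.mono hR0).mul (hy.mono (h.le _ _))).integrable le_rfl
    have iz : Integrable z μ := hz.integrable (h.le _ _)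
    have hq := (hp _ hζ.conj).2
    simp only [Complex.conj_conj] at hq
    have iq : Integrable (fun ω => (μ[z | DD μ C]) ω * e ω) μ :=
      ((hζ.mono hD).mul (he.mono hR0)).integrable le_rfl
    have hcc : conj (∫ ω, conj ((μ[z | DD μ C]) ω) * (e' ω * conj (e ω)) ∂μ) =
        ∫ ω, w ω * z ω ∂μ := by
      rw [← integral_conj]
      calc _ = ∫ ω, (μ[z | DD μ C]) ω * (e ω * conj (e' ω)) ∂μ := by
            refine integral_congr_ae (ae_of_all _ fun ω => ?_)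
            simp only [map_mul, Complex.conj_conj]; ring
        _ = ∫ ω, (μ[z | DD μ C]) ω * w ω ∂μ := (int_mul_ce hζ hD (hee'.integrable le_rfl)).symm
        _ = ∫ ω, z ω * w ω ∂μ := int_ce_mul hwD hD iz
        _ = _ := by simp only [mul_comm]
    calc ∫ ω, e ω * (y ω * z ω) ∂μ = ∫ ω, (e ω * y ω) * z ω ∂μ := by simp only [mul_assoc]
      _ = ∫ ω, (μ[fun ω => e ω * y ω | rowS C 2]) ω * z ω ∂μ :=
          (int_ce_mul (hz.mono (le_rowS (C := C) 2 2)) hR2 iey).symm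
      _ = ∫ ω, (μ[fun ω => e ω * y ω | rowS C 2]) ω * (μ[z | DD μ C]) ω ∂μ :=
          (int_mul_ce (hleg y hy) hD iz).symm
      _ = ∫ ω, (e ω * y ω) * (μ[z | DD μ C]) ω ∂μ := int_ce_mul (hζ.mono hDR) hR2 iey
      _ = ∫ ω, ((μ[z | DD μ C]) ω * e ω) * y ω ∂μ := by
          refine integral_congr_ae (ae_of_all _ fun ω => ?_); ring
      _ = ∫ ω, (μ[fun ω => (μ[z | DD μ C]) ω * e ω | rowS C 1]) ω * y ω ∂μ :=
          (int_ce_mul (hy.mono (le_rowS (C := C) 1 2)) hR1 iq).symm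
      _ = ∫ ω, (∫ ω, w ω * z ω ∂μ) * (e' ω * y ω) ∂μ := by
          refine integral_congr_ae ?_
          filter_upwards [hq] with ω hω
          rw [hω, hcc, mul_assoc]
      _ = (∫ ω, e' ω * y ω ∂μ) * ∫ ω, w ω * z ω ∂μ := by rw [integral_const_mul, mul_comm]
      _ = ∫ ω, (e' ω * y ω) * (w ω * z ω) ∂μ :=
          (int_mul_indep (h.le 1 2) (h.le 2 2) i12 (he12.mul hy).1 (hw2.mul hz).1).symm
      _ = _ := by refine integral_congr_ae (ae_of_all _ fun ω => ?_); ring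
  have n1 : ∫ ω, e ω * conj (e ω) ∂μ = 1 := by rw [int_mul_conj, hn]; simp
  have n2 : ∫ ω, e' ω * conj (e' ω) ∂μ = 1 := by rw [int_mul_conj, hn']; simp
  have bee := he02.mul he02.conj
  have bee' := he12.mul he12.conj
  have hw1 : ∀ᵐ ω ∂μ, w ω * conj (w ω) = 1 := by
    have e1 : (fun ω => e ω * conj (e ω)) =ᵐ[μ]
        fun ω => (w ω * conj (w ω)) * (e' ω * conj (e' ω)) := by
      filter_upwards [key] with ω hω
      rw [hω, map_mul]; ring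
    filter_upwards [condExp_congr_ae (m := C 2 2) e1, ce_indep (h.le 0 2) (h.le 2 2) i02 bee.1,
      ce_mul_left (hw2.mul hw2.conj) (h.le 2 2) (bee'.integrable (h.le 1 2)),
      ce_indep (h.le 1 2) (h.le 2 2) i12 bee'.1] with ω a1 a2 a3 a4
    rw [a2, a3, a4, n1, n2, mul_one] at a1
    exact a1.symm
  have e2 : (fun ω => e ω * conj (e ω)) =ᵐ[μ] fun ω => e' ω * conj (e' ω) := by
    filter_upwards [key, hw1] with ω hω h1
    rw [hω, map_mul]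
    linear_combination (e' ω * conj (e' ω)) * h1
  have he1 : ∀ᵐ ω ∂μ, e ω * conj (e ω) = 1 := by
    filter_upwards [condExp_congr_ae (m := C 0 2) e2,
      ce_of_aesm (h.le 0 2) bee.1 (bee.integrable (h.le 0 2)),
      ce_indep (h.le 1 2) (h.le 0 2) i10 bee'.1] with ω a1 a2 a3
    rw [a2, a3, n2] at a1
    exact a1
  have he'1 : ∀ᵐ ω ∂μ, e' ω * conj (e' ω) = 1 := by
    filter_upwards [e2, he1] with ω a1 a2
    rw [← a1, a2]
  have hweq : w =ᵐ[μ] fun ω => e ω * conj (e' ω) := by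
    filter_upwards [key, he'1] with ω a1 a2
    rw [a1]
    linear_combination (-w ω) * a2
  refine ⟨⟨hw2.1.congr hweq, e, fun ω => conj (e' ω), he02.1, he12.conj.1, ?_, ?_, .rfl⟩,
    (aesm_DD_iff.1 hwD.1).2.2.congr hweq⟩
  · filter_upwards [he1] with ω a using norm_one_iff.2 a
  · filter_upwards [he'1] with ω a
    rw [Complex.norm_conj]; exact norm_one_iff.2 a

/-- The leg `e` of a column character `w = e e'` in `𝒟` splits.  `e = E[w conj e' | R 0] ∈ A'`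
(`range_mem`), likewise `e' = E[w conj e | R 1] ∈ B'` (`range_mem` for `swapRow C`).  For `f ∈ B μ C00`:
`Khat w w f = e φ_f` with `φ_f = E[conj e · f | C01]` (pull out `conj e' ∈ B' ≤ C10 ⊔ K 1`;
`y = E[conj e · f | C10 ⊔ K 1] ∈ C10 ⊔ C01` by `CI_il2`, and `E[y | A'] = E[y | C01] = φ_f` by `CI_il` for the
rows, `CI.mono_mid` and the tower property), and `Khat w w f ∈ C00` (`khat_mem`).  Some `φ_f` is not a.e. zero (else
`conj e = 0` by `ae_eq_of_forall_prod`).  `a = e φ_f ∈ C00` has `‖a‖² = ‖φ_f‖²`; independence of `C00` and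
`C01` makes both equal to a constant `r² > 0`; `α = a / r`, `β = conj φ_f / r`. -/
lemma Grid.leg_split (h : Grid μ C) {w e e' : Ω → ℂ} (hw : B μ (DD μ C) w)
    (he : AEStronglyMeasurable[C 0 2] e μ) (he' : AEStronglyMeasurable[C 1 2] e' μ)
    (h1 : ∀ᵐ ω ∂μ, ‖e ω‖ = 1) (h1' : ∀ᵐ ω ∂μ, ‖e' ω‖ = 1) (hwe : w =ᵐ[μ] fun ω => e ω * e' ω) :
    ∃ α β : Ω → ℂ, AEStronglyMeasurable[C 0 0] α μ ∧ AEStronglyMeasurable[C 0 1] β μ ∧
      (∀ᵐ ω ∂μ, ‖α ω‖ = 1) ∧ (∀ᵐ ω ∂μ, ‖β ω‖ = 1) ∧ e =ᵐ[μ] fun ω => α ω * β ω := by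
  have hR0 := h.rowS_le 0
  have hR1 := h.rowS_le 1
  have hA : C 0 0 ⊔ C 0 1 ≤ m0 := sup_le (h.le _ _) (h.le _ _)
  have hK : C 1 0 ⊔ colS C 1 ≤ m0 := sup_le (h.le _ _) (h.colS_le 1)
  have be : B μ (C 0 2) e := B.of_uni he h1
  have be' : B μ (C 1 2) e' := B.of_uni he' h1'
  have beR : B μ (rowS C 0) e := be.mono (le_rowS (C := C) 0 2)
  have beR' : B μ (rowS C 1) e' := be'.mono (le_rowS (C := C) 1 2)
  have heA : B μ (C 0 0 ⊔ C 0 1) e := by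
    have e1 : (fun ω => w ω * conj (e' ω)) =ᵐ[μ] e := by
      filter_upwards [hwe, h1'] with ω a1 a2
      rw [a1, mul_assoc, norm_one_iff.1 a2, mul_one]
    exact be.of_aesm ((h.range_mem hw beR'.conj).1.congr
      ((condExp_congr_ae e1).trans (ce_of_aesm hR0 beR.1 (beR.integrable hR0))))
  have heB : B μ (C 1 0 ⊔ C 1 1) e' := by
    have e1 : (fun ω => w ω * conj (e ω)) =ᵐ[μ] e' := by
      filter_upwards [hwe, h1] with ω a1 a2
      rw [a1, mul_comm (e ω), mul_assoc, norm_one_iff.1 a2, mul_one]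
    have hw' : B μ (DD μ (R69.swapRow C)) w := by rw [DD_swapRow]; exact hw
    have : AEStronglyMeasurable[C 1 0 ⊔ C 1 1] (μ[fun ω => w ω * conj (e ω) | rowS C 1]) μ :=
      (h.swapRow.range_mem hw' beR.conj).1
    exact be'.of_aesm (this.congr
      ((condExp_congr_ae e1).trans (ce_of_aesm hR1 beR'.1 (beR'.integrable hR1))))
  have hKhat : ∀ f, B μ (C 0 0) f →
      Khat μ C w w f =ᵐ[μ] fun ω => e ω * (μ[fun ω => conj (e ω) * f ω | C 0 1]) ω := by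
    intro f hf
    have bef : B μ (C 0 0 ⊔ C 0 1) (fun ω => conj (e ω) * f ω) := heA.conj.mul (hf.mono le_sup_left)
    have ief := bef.integrable hA
    set y := μ[fun ω => conj (e ω) * f ω | C 1 0 ⊔ colS C 1] with hy
    have by1 : B μ (C 1 0 ⊔ colS C 1) y := bef.condExp _
    have s1 : μ[fun ω => conj (w ω) * f ω | C 1 0 ⊔ colS C 1] =ᵐ[μ] fun ω => conj (e' ω) * y ω := by
      have e1 : (fun ω => conj (w ω) * f ω) =ᵐ[μ] fun ω => conj (e' ω) * (conj (e ω) * f ω) := by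
        filter_upwards [hwe] with ω a
        rw [a, map_mul]; ring
      exact (condExp_congr_ae e1).trans
        (ce_mul_left (heB.conj.mono (sup_le_sup_left (le_colS (C := C) 1 1) _)) hK ief)
    have s2 : (fun ω => w ω * (μ[fun ω => conj (w ω) * f ω | C 1 0 ⊔ colS C 1]) ω) =ᵐ[μ]
        fun ω => e ω * y ω := by
      filter_upwards [s1, hwe, h1'] with ω a1 a2 a3
      rw [a1, a2]
      linear_combination (e ω * y ω) * norm_one_iff.1 a3
    have by2 : B μ (rowS C 1 ⊔ C 0 1) y := by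
      have hci := CI_il2 (h.colS_le 0) (h.colS_le 1) (h.colI 0 1 (by decide)) (le_colS (C := C) 1 0)
        (le_colS (C := C) 0 1)
      have := hci _ (bef.mono (sup_le_sup_right (le_colS (C := C) 0 0) _))
      exact by1.of_aesm (this.mono (sup_le_sup_right (le_rowS (C := C) 1 0) _))
    have s4 : μ[y | C 0 0 ⊔ C 0 1] =ᵐ[μ] μ[fun ω => conj (e ω) * f ω | C 0 1] := by
      have hci := (CI_il hR1 hR0 (h.rowI 1 0 (by decide)) (le_rowS (C := C) 0 1)).mono_mid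
        (ℬ' := C 0 0 ⊔ C 0 1) le_sup_right (sup_le (le_rowS (C := C) 0 0) (le_rowS (C := C) 0 1)) hR0
      exact (hci.ce_eq le_sup_right hA by2).trans
        (ce_tower ((le_colS (C := C) 0 1).trans le_sup_right) hK _)
    refine (condExp_congr_ae s2).trans ((ce_mul_left heA hA (by1.integrable hK)).trans ?_)
    filter_upwards [s4] with ω a
    rw [a]
  obtain ⟨f, hf, hφ⟩ : ∃ f, B μ (C 0 0) f ∧
      ¬ μ[fun ω => conj (e ω) * f ω | C 0 1] =ᵐ[μ] fun _ => 0 := by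
    by_contra hcon
    push Not at hcon
    have : (fun ω => conj (e ω)) =ᵐ[μ] fun _ => 0 := by
      refine ae_eq_of_forall_prod (h.le 0 0) (h.le 0 1) (heA.conj.integrable hA) (integrable_const _)
        heA.conj.1 aestronglyMeasurable_const fun x y hx hy => ?_
      have iex : Integrable (fun ω => conj (e ω) * x ω) μ :=
        (heA.conj.mul (hx.mono le_sup_left)).integrable hA
      calc ∫ ω, conj (e ω) * (x ω * y ω) ∂μ = ∫ ω, (conj (e ω) * x ω) * y ω ∂μ := by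
            simp only [mul_assoc]
        _ = ∫ ω, (μ[fun ω => conj (e ω) * x ω | C 0 1]) ω * y ω ∂μ :=
            (int_ce_mul hy (h.le 0 1) iex).symm
        _ = _ := by
            refine integral_congr_ae ?_
            filter_upwards [hcon x hx] with ω a
            rw [a]; simp
    obtain ⟨ω, a1, a2⟩ := (this.and h1).exists
    have : e ω = 0 := by simpa using a1
    simp [this] at a2
  set φ := μ[fun ω => conj (e ω) * f ω | C 0 1] with hφdef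
  have bφ : B μ (C 0 1) φ := (heA.conj.mul (hf.mono le_sup_left)).condExp _
  have ba : B μ (C 0 0) (fun ω => e ω * φ ω) :=
    (heA.mul (bφ.mono le_sup_right)).of_aesm ((h.khat_mem hw hw hf).congr (hKhat f hf))
  set ρ : ℝ := ∫ ω, ‖φ ω‖ ^ 2 ∂μ with hρ
  have hφρ : ∀ᵐ ω ∂μ, φ ω * conj (φ ω) = ρ := by
    have e1 : (fun ω => (e ω * φ ω) * conj (e ω * φ ω)) =ᵐ[μ] fun ω => φ ω * conj (φ ω) := by
      filter_upwards [h1] with ω a
      rw [map_mul]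
      linear_combination (φ ω * conj (φ ω)) * norm_one_iff.1 a
    have baa := ba.mul ba.conj
    filter_upwards [e1, condExp_congr_ae (m := C 0 0) e1,
      ce_of_aesm (h.le 0 0) baa.1 (baa.integrable (h.le 0 0)),
      ce_indep (h.le 0 1) (h.le 0 0) (h.indC (by decide) (le_colS 0 1) (le_colS 0 0))
        (bφ.mul bφ.conj).1] with ω a0 a1 a2 a3
    rw [a2, a3, int_mul_conj] at a1
    rw [← a0, a1]
  have hρ0 : 0 < ρ := by
    refine lt_of_le_of_ne (integral_nonneg fun ω => by positivity) fun h0 => hφ ?_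
    exact ae_zero_of_int_sq (bφ.memLp (h.le 0 1) 2) h0.ge
  have hr : (√ρ : ℂ) ≠ 0 := by exact_mod_cast (Real.sqrt_pos.2 hρ0).ne'
  have hrr : (√ρ : ℂ) * √ρ = ρ := by exact_mod_cast Real.mul_self_sqrt hρ0.le
  have hφn : ∀ᵐ ω ∂μ, ‖φ ω‖ = √ρ := by
    filter_upwards [hφρ] with ω a
    rw [Complex.mul_conj, Complex.normSq_eq_norm_sq] at a
    have a' : ‖φ ω‖ ^ 2 = ρ := by exact_mod_cast a
    rw [← a', Real.sqrt_sq (norm_nonneg _)]
  have hs : √ρ ≠ 0 := (Real.sqrt_pos.2 hρ0).ne'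
  refine ⟨fun ω => (√ρ : ℂ)⁻¹ * (e ω * φ ω), fun ω => (√ρ : ℂ)⁻¹ * conj (φ ω), ba.1.const_mul _,
    bφ.conj.1.const_mul _, ?_, ?_, ?_⟩
  · filter_upwards [h1, hφn] with ω a1 a2
    simp [a1, a2, hs, abs_of_nonneg (Real.sqrt_nonneg ρ)]
  · filter_upwards [hφn] with ω a2
    simp [a2, hs, abs_of_nonneg (Real.sqrt_nonneg ρ)]
  · filter_upwards [hφρ] with ω a
    field_simp
    linear_combination (e ω) * hrr - (e ω) * a

/-- `e = α β`, `e' = α' β'` (`leg_split` for `C` and `swapRow C`); `α α' = E[w conj (β β') | K 0] ∈ C20` and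
`β β' ∈ C21` by `CI_il`. -/
theorem Grid.row_of_col (h : Grid μ C) {w : Ω → ℂ} (hw : Chr μ (C 0 2) (C 1 2) (C 2 2) w)
    (hw' : AEStronglyMeasurable[C 2 0 ⊔ C 2 1] w μ) : Chr μ (C 2 0) (C 2 1) (C 2 2) w := by
  have hD : B μ (DD μ C) w := hw.b.of_aesm (aesm_DD_iff.2 ⟨hw.1, hw.aesm_sup, hw'⟩)
  obtain ⟨h22, e, e', he, he', h1, h1', hwe⟩ := hw
  obtain ⟨α, β, hα, hβ, a1, b1, hab⟩ := h.leg_split hD he he' h1 h1' hwe
  have hD' : B μ (DD μ (R69.swapRow C)) w := by rw [DD_swapRow]; exact hD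
  obtain ⟨α', β', hα', hβ', a1', b1', hab'⟩ := h.swapRow.leg_split hD' he' he h1' h1
    (hwe.trans (ae_of_all _ fun ω => mul_comm _ _))
  have bα : B μ (colS C 0) (fun ω => α ω * α' ω) :=
    ((B.of_uni hα a1).mono (le_colS (C := C) 0 0)).mul ((B.of_uni hα' a1').mono (le_colS (C := C) 1 0))
  have bβ : B μ (colS C 1) (fun ω => β ω * β' ω) :=
    ((B.of_uni hβ b1).mono (le_colS (C := C) 0 1)).mul ((B.of_uni hβ' b1').mono (le_colS (C := C) 1 1))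
  have uα : ∀ᵐ ω ∂μ, ‖α ω * α' ω‖ = 1 := by
    filter_upwards [a1, a1'] with ω x y
    rw [norm_mul, x, y, mul_one]
  have uβ : ∀ᵐ ω ∂μ, ‖β ω * β' ω‖ = 1 := by
    filter_upwards [b1, b1'] with ω x y
    rw [norm_mul, x, y, mul_one]
  have hwab : w =ᵐ[μ] fun ω => (α ω * α' ω) * (β ω * β' ω) := by
    filter_upwards [hwe, hab, hab'] with ω x y z
    rw [x, y, z]; ring
  have bw : B μ (C 2 0 ⊔ C 2 1) w := hD.of_aesm hw'
  refine ⟨h22, _, _, ?_, ?_, uα, uβ, hwab⟩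
  · have b2 : B μ (colS C 1 ⊔ C 2 0) (fun ω => w ω * conj (β ω * β' ω)) :=
      (bw.mono (by grid_le C)).mul (bβ.conj.mono le_sup_left)
    have e1 : (fun ω => w ω * conj (β ω * β' ω)) =ᵐ[μ] fun ω => α ω * α' ω := by
      filter_upwards [hwab, uβ] with ω x y
      rw [x, mul_assoc, norm_one_iff.1 y, mul_one]
    exact (CI_il (h.colS_le 1) (h.colS_le 0) (h.colI 1 0 (by decide)) (le_colS (C := C) 2 0)).aesm
      (h.colS_le 0) (b2.congr e1) bα.1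
  · have b2 : B μ (colS C 0 ⊔ C 2 1) (fun ω => w ω * conj (α ω * α' ω)) :=
      (bw.mono (by grid_le C)).mul (bα.conj.mono le_sup_left)
    have e1 : (fun ω => w ω * conj (α ω * α' ω)) =ᵐ[μ] fun ω => β ω * β' ω := by
      filter_upwards [hwab, uα] with ω x y
      rw [x, mul_comm (α ω * α' ω), mul_assoc, norm_one_iff.1 y, mul_one]
    exact (CI_il (h.colS_le 0) (h.colS_le 1) (h.colI 0 1 (by decide)) (le_colS (C := C) 2 1)).aesm
      (h.colS_le 1) (b2.congr e1) bβ.1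

/-- `exists_sing_pair` (`kop_comm` for `C` and `swapRow C`), `col_of_pair`, `row_of_col` -/
theorem Grid.exists_chr (h : Grid μ C) {ξ : Ω → ℂ} (hξ : MemLp ξ 2 μ)
    (hξ' : AEStronglyMeasurable[DD μ C] ξ μ) (hξ0 : ¬ ξ =ᵐ[μ] fun _ => 0) :
    ∃ w, Chr μ (C 0 2) (C 1 2) (C 2 2) w ∧ Chr μ (C 2 0) (C 2 1) (C 2 2) w ∧
      ∫ ω, ξ ω * conj (w ω) ∂μ ≠ 0 := by
  obtain ⟨e, e', he, he', hn, hn', hp, hx, h0⟩ := exists_sing_pair (𝒟 := DD μ C) (h.rowS_le 0)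
    (h.rowS_le 1) h.DD_le (h.rowI 0 1 (by decide))
    (fun G hG => (aesm_DD_iff.1 hG).2.1.mono (sup_le_sup (le_rowS (C := C) 0 2) (le_rowS (C := C) 1 2)))
    (fun G1 G2 G3 G4 x h1 h2 h3 h4 hx => h.kop_comm h1 h2 h3 h4 hx)
    (fun G1 G2 G3 G4 x h1 h2 h3 h4 hx => by
      rw [← DD_swapRow] at h1 h2 h3 h4
      exact h.swapRow.kop_comm h1 h2 h3 h4 hx) hξ hξ' hξ0
  obtain ⟨hc, hr⟩ := h.col_of_pair he he' hn hn' hp h0
  refine ⟨_, hc, h.row_of_col hc hr, ?_⟩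
  simpa only [map_mul, Complex.conj_conj, mul_comm (conj (e _))] using hx

end Crest.Agent.R69
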