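import Crest.Agent.R69.Cent

/-!
# R69: the column operators of a grid commute


Notation: `Cij = C i j`, rows `R i = rowS C i`, columns `K j = colS C j`, `A' = C00 ⊔ C01`,
`B' = C10 ⊔ C11`, `𝒟 = DD μ C` (see `aesm_DD_iff`).  Instances of `Grid.a3/a4` are converted with
`Cs_le`, `le_Cs`, `Cs_mono (by decide)`, `CI.mono_left/mono_right/mono_mid`.
-/

set_option autoImplicit false
open MeasureTheory ProbabilityTheory Filter Topology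
open scoped ComplexConjugate

namespace Crest.Agent.R69

universe u
variable {Ω : Type u} {C : Fin 3 → Fin 3 → MeasurableSpace Ω} {m0 : MeasurableSpace Ω}
  {μ : Measure Ω} [IsProbabilityMeasure μ]

omit [IsProbabilityMeasure μ] in
private lemma b_col {G : Ω → ℂ} (hG : B μ (DD μ C) G) : B μ (C 0 2 ⊔ C 1 2) G :=
  hG.of_aesm (aesm_DD_iff.1 hG.1).2.1

omit [IsProbabilityMeasure μ] in
private lemma b_row {G : Ω → ℂ} (hG : B μ (DD μ C) G) : B μ (C 2 0 ⊔ C 2 1) G :=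
  hG.of_aesm (aesm_DD_iff.1 hG.1).2.2

private lemma A_le (i : Fin 3) : C i 0 ⊔ C i 1 ≤ rowS C i := le_sup_left

/-- `a4` with `i = 2`, `σ = {0, 1}` and `CI.aesm` -/
lemma Grid.aesm_four (h : Grid μ C) {G : Ω → ℂ} (hG : B μ (DD μ C) G) :
    AEStronglyMeasurable[(C 0 0 ⊔ C 0 1) ⊔ (C 1 0 ⊔ C 1 1)] G μ := by
  have h4 := h.a4 2 {0, 1} (by decide)
  have h1 : C 2 0 ⊔ C 2 1 ≤ Cs C ({2} ×ˢ {0, 1}) := sup_le (le_Cs (by decide)) (le_Cs (by decide))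
  have h2 : C 0 2 ⊔ C 1 2 ≤ Cs C ({2}ᶜ ×ˢ Finset.univ) :=
    sup_le (le_Cs (by decide)) (le_Cs (by decide))
  have h3 : Cs C ({2}ᶜ ×ˢ {0, 1}) ≤ (C 0 0 ⊔ C 0 1) ⊔ (C 1 0 ⊔ C 1 1) := by
    have : ({2}ᶜ ×ˢ {0, 1} : Finset (Fin 3 × Fin 3)) = {(0, 0), (0, 1), (1, 0), (1, 1)} := by decide
    rw [this, Cs_insert, Cs_insert, Cs_insert, Cs_singleton, sup_assoc]
  exact (h4.aesm (h.Cs_le _) ((b_row hG).mono h1) ((b_col hG).1.mono h2)).mono h3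

private lemma b_four (h : Grid μ C) {G : Ω → ℂ} (hG : B μ (DD μ C) G) :
    B μ ((C 0 0 ⊔ C 0 1) ⊔ (C 1 0 ⊔ C 1 1)) G := hG.of_aesm (h.aesm_four hG)

/-- The range of `M_G` (`CI_il` twice: `G f ∈ R 1 ⊔ A'` and `G f ∈ R 1 ⊔ C02`). -/
lemma Grid.range_mem (h : Grid μ C) {G f : Ω → ℂ} (hG : B μ (DD μ C) G) (hf : B μ (rowS C 1) f) :
    AEStronglyMeasurable[C 0 0 ⊔ C 0 1] (μ[fun ω => G ω * f ω | rowS C 0]) μ ∧
      AEStronglyMeasurable[C 0 2] (μ[fun ω => G ω * f ω | rowS C 0]) μ := by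
  have hi := h.rowI 1 0 (by decide)
  constructor
  · refine CI_il (h.rowS_le 1) (h.rowS_le 0) hi (A_le 0) _ (B.mul ((b_four h hG).mono ?_)
      (hf.mono le_sup_left))
    exact sup_le le_sup_right ((A_le 1).trans le_sup_left)
  · refine CI_il (h.rowS_le 1) (h.rowS_le 0) hi (le_rowS 0 2) _ (B.mul ((b_col hG).mono ?_)
      (hf.mono le_sup_left))
    exact sup_le le_sup_right ((le_rowS 1 2).trans le_sup_left)

/-- the lifted operator `K̂ w = E[G · E[conj G' · w | C10 ⊔ K 1] | A']` -/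
noncomputable def Khat {m0 : MeasurableSpace Ω} (μ : Measure Ω)
    (C : Fin 3 → Fin 3 → MeasurableSpace Ω) (G G' w : Ω → ℂ) : Ω → ℂ :=
  μ[fun ω => G ω * (μ[fun ω' => conj (G' ω') * w ω' | C 1 0 ⊔ colS C 1]) ω | C 0 0 ⊔ C 0 1]

/-- `y = E[conj G' · f | C10 ⊔ K 1] ∈ C10 ⊔ C21` by `CI_il2` (`conj G' · f ∈ K 0 ⊔ C21`), so
`G y ∈ K 0 ⊔ C21` and `CI_il3` (with `𝒳 = C00`, `𝒴 = C01`, `𝒴' = C21`) applies. -/
lemma Grid.khat_mem (h : Grid μ C) {G G' f : Ω → ℂ} (hG : B μ (DD μ C) G) (hG' : B μ (DD μ C) G')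
    (hf : B μ (C 0 0) f) : AEStronglyMeasurable[C 0 0] (Khat μ C G G' f) μ := by
  have hi := h.colI 0 1 (by decide)
  have h1 : C 2 0 ⊔ C 2 1 ≤ colS C 0 ⊔ C 2 1 := sup_le_sup_right (le_colS 2 0) _
  have h2 : B μ (colS C 0 ⊔ C 2 1) fun ω => conj (G' ω) * f ω :=
    ((b_row hG').mono h1).conj.mul (hf.mono ((le_colS 0 0).trans le_sup_left))
  have h3 := CI_il2 (h.colS_le 0) (h.colS_le 1) hi (le_colS 1 0) (le_colS 2 1) _ h2
  have h4 := ((h2.condExp (C 1 0 ⊔ colS C 1)).of_aesm h3).mono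
    (sup_le_sup_right (le_colS 1 0) (C 2 1))
  have hi' : Indep (C 0 1) (C 2 1) μ :=
    indep_of_indep_of_le (h.rowI 0 2 (by decide)) (le_rowS 0 1) (le_rowS 2 1)
  exact CI_il3 (h.colS_le 0) (h.colS_le 1) hi (le_colS 0 0) (le_colS 0 1) (le_colS 2 1) hi' _
    (((b_row hG).mono h1).mul h4)

/-- pull-out, twice -/
lemma Grid.khat_mul (h : Grid μ C) {G G' w φ : Ω → ℂ} (hG : B μ (DD μ C) G) (hG' : B μ (DD μ C) G')
    (hw : B μ m0 w) (hφ : B μ (C 0 1) φ) :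
    Khat μ C G G' (fun ω => w ω * φ ω) =ᵐ[μ] fun ω => Khat μ C G G' w ω * φ ω := by
  have h1 : C 1 0 ⊔ colS C 1 ≤ m0 := sup_le (h.le 1 0) (h.colS_le 1)
  have h2 : C 0 0 ⊔ C 0 1 ≤ m0 := sup_le (h.le 0 0) (h.le 0 1)
  have h3 : B μ m0 fun ω => conj (G' ω) * w ω := (hG'.mono h.DD_le).conj.mul hw
  have h4 := ce_mul_right (𝒢 := C 1 0 ⊔ colS C 1) (hφ.mono ((le_colS 0 1).trans le_sup_right)) h1
    (h3.integrable le_rfl)
  have h5 := (hG.mono h.DD_le).mul ((h3.condExp (C 1 0 ⊔ colS C 1)).mono h1)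
  refine EventuallyEq.trans (condExp_congr_ae ?_)
    (ce_mul_right (𝒢 := C 0 0 ⊔ C 0 1) (hφ.mono le_sup_right) h2 (h5.integrable le_rfl))
  simp only [mul_assoc] at h4 ⊢
  filter_upwards [h4] with ω hω
  rw [hω]

omit [IsProbabilityMeasure μ] in
private lemma b_kop {R0 R1 : MeasurableSpace Ω} {m0 : MeasurableSpace Ω} {μ : Measure Ω}
    (h1 : R1 ≤ m0) {G G' x : Ω → ℂ} (hG : B μ m0 G) (hG' : B μ m0 G') (hx : B μ m0 x) :
    B μ R0 (Kop μ R0 R1 G G' x) :=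
  (hG.mul (((hG'.conj.mul hx).condExp R1).mono h1)).condExp R0

omit [IsProbabilityMeasure μ] in
private lemma kop_congr' {R0 R1 : MeasurableSpace Ω} {m0 : MeasurableSpace Ω} {μ : Measure Ω}
    {G G' x x' : Ω → ℂ}
    (h : μ[fun ω => conj (G' ω) * x ω | R1] =ᵐ[μ] μ[fun ω => conj (G' ω) * x' ω | R1]) :
    Kop μ R0 R1 G G' x =ᵐ[μ] Kop μ R0 R1 G G' x' := by
  refine condExp_congr_ae ?_
  filter_upwards [h] with ω hω
  rw [hω]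

omit [IsProbabilityMeasure μ] in
private lemma kop_congr {R0 R1 : MeasurableSpace Ω} {m0 : MeasurableSpace Ω} {μ : Measure Ω}
    {G G' x x' : Ω → ℂ} (h : x =ᵐ[μ] x') : Kop μ R0 R1 G G' x =ᵐ[μ] Kop μ R0 R1 G G' x' := by
  refine kop_congr' (condExp_congr_ae ?_)
  filter_upwards [h] with ω hω
  rw [hω]

omit [IsProbabilityMeasure μ] in
private lemma khat_congr {G G' x x' : Ω → ℂ} (h : x =ᵐ[μ] x') :
    Khat μ C G G' x =ᵐ[μ] Khat μ C G G' x' :=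
  kop_congr (R0 := C 0 0 ⊔ C 0 1) (R1 := C 1 0 ⊔ colS C 1) h

omit [IsProbabilityMeasure μ] in
private lemma b_khat (h : Grid μ C) {G G' x : Ω → ℂ} (hG : B μ (DD μ C) G)
    (hG' : B μ (DD μ C) G') (hx : B μ m0 x) : B μ (C 0 0 ⊔ C 0 1) (Khat μ C G G' x) :=
  b_kop (R0 := C 0 0 ⊔ C 0 1) (R1 := C 1 0 ⊔ colS C 1) (sup_le (h.le 1 0) (h.colS_le 1))
    (hG.mono h.DD_le) (hG'.mono h.DD_le) hx

/-- `E[K̂ w | C02] = K w` for `w ∈ A'`.  Let `y = E[conj G' · w | C10 ⊔ K 1]`; `y ∈ C10 ⊔ (C01 ⊔ C11)` by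
`CI_il2` and `aesm_four`, and `E[y | R 1] = E[y | B'] = E[conj G' · w | B'] = E[conj G' · w | R 1]` (`CI_il`).
For `x ∈ B μ C02`: `∫ K̂w x = ∫ G y E[x|A'] = ∫ G y x` (`E[x | A' ⊔ R 1] = E[x | A']` by `ce_sup_indep`,
`G y ∈ A' ⊔ R 1`), and `∫ (G x) y = ∫ (G x) E[y | R 1]` because `G x ∈ C02 ⊔ R 1` and
`E[y | C02 ⊔ R 1] ∈ R 1` (`indep3` gives `C01 ⟂ R 1 ⊔ C02`, then `CI_il`). -/
lemma Grid.ce_khat (h : Grid μ C) {G G' w : Ω → ℂ} (hG : B μ (DD μ C) G) (hG' : B μ (DD μ C) G')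
    (hw : B μ (C 0 0 ⊔ C 0 1) w) :
    μ[Khat μ C G G' w | C 0 2] =ᵐ[μ] Kop μ (rowS C 0) (rowS C 1) G G' w := by
  have hR0 := h.rowS_le 0
  have hR1 := h.rowS_le 1
  have hA : C 0 0 ⊔ C 0 1 ≤ m0 := (A_le 0).trans hR0
  have hY : C 1 0 ⊔ colS C 1 ≤ m0 := sup_le (h.le 1 0) (h.colS_le 1)
  have hr := h.rowI 0 1 (by decide)
  -- the integrand
  have hz : B μ ((C 0 0 ⊔ C 0 1) ⊔ (C 1 0 ⊔ C 1 1)) fun ω => conj (G' ω) * w ω :=
    (b_four h hG').conj.mul (hw.mono le_sup_left)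
  set y := μ[fun ω => conj (G' ω) * w ω | C 1 0 ⊔ colS C 1] with hy
  set t := μ[fun ω => conj (G' ω) * w ω | rowS C 1] with ht
  have hty : B μ (rowS C 1) t := hz.condExp _
  have hyb : B μ (C 1 0 ⊔ (C 0 1 ⊔ C 1 1)) y := by
    refine (hz.condExp _).of_aesm (CI_il2 (h.colS_le 0) (h.colS_le 1) (h.colI 0 1 (by decide))
      (le_colS 1 0) (sup_le (le_colS 0 1) (le_colS 1 1)) _ (hz.mono ?_))
    exact sup_le (sup_le_sup (le_colS 0 0) le_sup_left) (sup_le_sup (le_colS 1 0) le_sup_right)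
  have hci : CI μ (rowS C 0 ⊔ (C 1 0 ⊔ C 1 1)) (rowS C 1) (C 1 0 ⊔ C 1 1) :=
    CI_il hR0 hR1 hr (A_le 1)
  have e1 : μ[y | rowS C 1] =ᵐ[μ] t := by
    refine (hci.ce_eq (A_le 1) hR1 (hyb.mono ?_)).trans (EventuallyEq.trans ?_
      (hci.ce_eq (A_le 1) hR1 (hz.mono (sup_le_sup_right (A_le 0) _))).symm)
    · exact sup_le (le_sup_left.trans le_sup_right) (sup_le_sup (le_rowS 0 1) le_sup_right)
    · exact ce_tower (sup_le_sup_left (le_colS 1 1) _) hY _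
  have hS : rowS C 1 ⊔ C 0 2 ≤ m0 := sup_le hR1 (h.le 0 2)
  have e2 : μ[y | rowS C 1 ⊔ C 0 2] =ᵐ[μ] t := by
    have hi : Indep (C 0 1) (rowS C 1 ⊔ C 0 2) μ := indep3 hR1 (h.le 0 2) (h.le 0 1)
      (indep_of_indep_of_le_right hr.symm (sup_le (le_rowS 0 2) (le_rowS 0 1)))
      (indep_of_indep_of_le (h.colI 2 1 (by decide)) (le_colS 0 2) (le_colS 0 1))
    refine ((CI_il (h.le 0 1) hS hi le_sup_left).ce_eq le_sup_left hS (hyb.mono ?_)).trans e1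
    exact sup_le ((le_rowS 1 0).trans le_sup_right) (sup_le_sup_left (le_rowS 1 1) _)
  have hGy : B μ ((C 0 0 ⊔ C 0 1) ⊔ rowS C 1) fun ω => G ω * y ω := by
    refine ((b_four h hG).mono (sup_le_sup_left (A_le 1) _)).mul (hyb.mono ?_)
    exact sup_le ((le_rowS 1 0).trans le_sup_right) (sup_le_sup le_sup_right (le_rowS 1 1))
  have hAR : (C 0 0 ⊔ C 0 1) ⊔ rowS C 1 ≤ m0 := sup_le hA hR1
  have hGt : B μ m0 fun ω => G ω * t ω := (hG.mono h.DD_le).mul (hty.mono hR1)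
  refine ce_eq_of_forall_B (h.le 0 2) ((b_khat h hG hG' (hw.mono hA)).integrable hA)
    ((hGt.condExp _).integrable hR0) (h.range_mem hG hty).2 fun x hx => ?_
  have hxi := hx.integrable (h.le 0 2)
  have hx0 := hx.mono (le_rowS 0 2)
  have hGx : B μ (rowS C 1 ⊔ C 0 2) fun ω => G ω * x ω := by
    refine ((b_col hG).mono ?_).mul (hx.mono le_sup_right)
    exact sup_le le_sup_right ((le_rowS 1 2).trans le_sup_left)
  calc ∫ ω, Khat μ C G G' w ω * x ω ∂μ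
      = ∫ ω, G ω * y ω * (μ[x | C 0 0 ⊔ C 0 1]) ω ∂μ := int_ce_comm (hGy.mono hAR) hA hxi
    _ = ∫ ω, G ω * y ω * (μ[x | (C 0 0 ⊔ C 0 1) ⊔ rowS C 1]) ω ∂μ := by
      refine integral_congr_ae ?_
      filter_upwards [ce_sup_indep hR0 hR1 hr (A_le 0) hx0] with ω hω
      rw [hω]
    _ = ∫ ω, G ω * y ω * x ω ∂μ := int_mul_ce hGy hAR hxi
    _ = ∫ ω, G ω * x ω * y ω ∂μ := by simp only [mul_right_comm]
    _ = ∫ ω, G ω * x ω * (μ[y | rowS C 1 ⊔ C 0 2]) ω ∂μ :=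
      (int_mul_ce hGx hS ((hz.condExp _).integrable hY)).symm
    _ = ∫ ω, G ω * t ω * x ω ∂μ := by
      refine integral_congr_ae ?_
      filter_upwards [e2] with ω hω
      rw [hω, mul_right_comm]
    _ = ∫ ω, Kop μ (rowS C 0) (rowS C 1) G G' w ω * x ω ∂μ :=
      (int_ce_mul hx0 hR0 (hGt.integrable le_rfl)).symm

private lemma kop_ce_aux (h : Grid μ C) {𝒳 : MeasurableSpace Ω} {G G' x : Ω → ℂ}
    (h𝒳 : 𝒳 ≤ rowS C 0) (hG' : B (m0 := m0) μ (𝒳 ⊔ rowS C 1) G')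
    (hx : B (m0 := m0) μ (rowS C 0) x) :
    Kop (m0 := m0) μ (rowS C 0) (rowS C 1) G G' (condExp 𝒳 (m₀ := m0) μ x) =ᵐ[μ]
      Kop (m0 := m0) μ (rowS C 0) (rowS C 1) G G' x := by
  have hR0 := h.rowS_le 0
  have hR1 := h.rowS_le 1
  have hS : 𝒳 ⊔ rowS C 1 ≤ m0 := sup_le (h𝒳.trans hR0) hR1
  refine kop_congr' (EventuallyEq.trans (condExp_congr_ae ?_)
    (ce_tower (𝒜 := rowS C 1) (ℬ := 𝒳 ⊔ rowS C 1) le_sup_right hS _))
  filter_upwards [ce_mul_left hG'.conj hS (hx.integrable hR0),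
    ce_sup_indep hR0 hR1 (h.rowI 0 1 (by decide)) h𝒳 hx] with ω h1 h2
  rw [h1, h2]

/-- `K x` only depends on `E[x | C02]` and only on `E[x | A']`: `conj G' ∈ C02 ⊔ R 1`, resp. `A' ⊔ R 1`,
and `E[x | 𝒳 ⊔ R 1] = E[x | 𝒳]`. -/
lemma Grid.kop_ce (h : Grid μ C) {G G' x : Ω → ℂ} (hG' : B μ (DD μ C) G') (hx : B μ (rowS C 0) x) :
    (Kop μ (rowS C 0) (rowS C 1) G G' (μ[x | C 0 2]) =ᵐ[μ] Kop μ (rowS C 0) (rowS C 1) G G' x) ∧
      (Kop μ (rowS C 0) (rowS C 1) G G' (μ[x | C 0 0 ⊔ C 0 1]) =ᵐ[μ]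
        Kop μ (rowS C 0) (rowS C 1) G G' x) :=
  ⟨kop_ce_aux h (le_rowS 0 2) ((b_col hG').mono (sup_le_sup_left (le_rowS 1 2) _)) hx,
    kop_ce_aux h (A_le 0) ((b_four h hG').mono (sup_le_sup_left (A_le 1) _)) hx⟩

private lemma swapCol_swapCol : swapCol (swapCol C) = C := by
  funext i j
  simp only [swapCol, Equiv.swap_apply_self]

private lemma khat_khat (h : Grid μ C) {G1 G2 G3 G4 f φ : Ω → ℂ} (h1 : B μ (DD μ C) G1)
    (h2 : B μ (DD μ C) G2) (h3 : B μ (DD μ C) G3) (h4 : B μ (DD μ C) G4) (hf : B μ (C 0 0) f)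
    (hφ : B μ (C 0 1) φ) :
    Khat μ C G1 G2 (Khat μ (swapCol C) G3 G4 fun ω => φ ω * f ω) =ᵐ[μ]
      fun ω => Khat μ C G1 G2 f ω * Khat μ (swapCol C) G3 G4 φ ω := by
  rw [← DD_swapCol] at h3 h4
  have hφ0 := hφ.mono (h.le 0 1)
  have e1 := h.swapCol.khat_mul h3 h4 hφ0 (φ := f) hf
  have hb : B μ (C 0 1) (Khat μ (swapCol C) G3 G4 φ) :=
    (b_khat h.swapCol h3 h4 hφ0).of_aesm (h.swapCol.khat_mem h3 h4 hφ)
  refine (khat_congr ?_).trans (h.khat_mul h1 h2 (hf.mono (h.le 0 0)) hb)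
  filter_upwards [e1] with ω hω
  rw [hω, mul_comm]

private lemma kop_kop (h : Grid μ C) {G1 G2 G3 G4 w : Ω → ℂ} (h1 : B μ (DD μ C) G1)
    (h2 : B μ (DD μ C) G2) (h3 : B μ (DD μ C) G3) (h4 : B μ (DD μ C) G4)
    (hw : B μ (C 0 0 ⊔ C 0 1) w) :
    Kop μ (rowS C 0) (rowS C 1) G1 G2 (Kop μ (rowS C 0) (rowS C 1) G3 G4 w) =ᵐ[μ]
      μ[Khat μ C G1 G2 (Khat μ (swapCol C) G3 G4 w) | C 0 2] := by
  rw [← DD_swapCol] at h3 h4
  have e1 := h.swapCol.ce_khat h3 h4 (w := w) (hw.mono (sup_comm (C 0 0) (C 0 1)).le)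
  rw [rowS_swapCol, rowS_swapCol, swapCol_two] at e1
  have hb : B μ (C 0 0 ⊔ C 0 1) (Khat μ (swapCol C) G3 G4 w) :=
    (b_khat h.swapCol h3 h4 (hw.mono (sup_le (h.le 0 0) (h.le 0 1)))).mono
      (sup_comm (C 0 1) (C 0 0)).le
  exact ((kop_congr e1.symm).trans (h.kop_ce h2 (hb.mono (A_le 0))).1).trans
    (h.ce_khat h1 h2 hb).symm

private lemma kop_comm_prod (h : Grid μ C) {G1 G2 G3 G4 f φ : Ω → ℂ} (h1 : B μ (DD μ C) G1)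
    (h2 : B μ (DD μ C) G2) (h3 : B μ (DD μ C) G3) (h4 : B μ (DD μ C) G4) (hf : B μ (C 0 0) f)
    (hφ : B μ (C 0 1) φ) :
    Kop μ (rowS C 0) (rowS C 1) G1 G2 (Kop μ (rowS C 0) (rowS C 1) G3 G4 fun ω => f ω * φ ω)
      =ᵐ[μ] Kop μ (rowS C 0) (rowS C 1) G3 G4
        (Kop μ (rowS C 0) (rowS C 1) G1 G2 fun ω => f ω * φ ω) := by
  have hw : B μ (C 0 0 ⊔ C 0 1) fun ω => f ω * φ ω :=
    (hf.mono le_sup_left).mul (hφ.mono le_sup_right)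
  have e1 := kop_kop h h1 h2 h3 h4 hw
  have e2 := khat_khat h h1 h2 h3 h4 hf hφ
  rw [← DD_swapCol] at h1 h2 h3 h4
  have e3 := kop_kop h.swapCol h3 h4 h1 h2 (hw.mono (sup_comm (C 0 0) (C 0 1)).le)
  have e4 := khat_khat h.swapCol h3 h4 h1 h2 (f := φ) (φ := f) hφ hf
  rw [rowS_swapCol, rowS_swapCol, swapCol_two] at e3
  rw [swapCol_swapCol] at e3 e4
  refine e1.trans (EventuallyEq.trans (condExp_congr_ae ?_) e3.symm)
  simp only [mul_comm (φ _) (f _)] at e2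
  filter_upwards [e2, e4] with ω a b
  rw [a, b, mul_comm]

/-- the transpose of `Kop` -/
private noncomputable def adj {m0 : MeasurableSpace Ω} (μ : Measure Ω)
    (R0 R1 : MeasurableSpace Ω) (G G' u : Ω → ℂ) : Ω → ℂ :=
  fun ω => conj (G' ω) * (μ[fun ω' => G ω' * (μ[u | R0]) ω' | R1]) ω

private lemma b_adj {R0 R1 : MeasurableSpace Ω} {m0 : MeasurableSpace Ω} {μ : Measure Ω}
    (h0 : R0 ≤ m0) (h1 : R1 ≤ m0) {G G' u : Ω → ℂ} (hG : B μ m0 G) (hG' : B μ m0 G')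
    (hu : B μ m0 u) : B μ m0 (adj μ R0 R1 G G' u) :=
  hG'.conj.mul (((hG.mul ((hu.condExp R0).mono h0)).condExp R1).mono h1)

private lemma int_kop {R0 R1 : MeasurableSpace Ω} {m0 : MeasurableSpace Ω} {μ : Measure Ω}
    [IsProbabilityMeasure μ] (h0 : R0 ≤ m0) (h1 : R1 ≤ m0) {G G' x u : Ω → ℂ} (hG : B μ m0 G)
    (hG' : B μ m0 G') (hx : B μ m0 x) (hu : B μ m0 u) :
    ∫ ω, Kop μ R0 R1 G G' x ω * u ω ∂μ = ∫ ω, adj μ R0 R1 G G' u ω * x ω ∂μ := by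
  have hz := hG'.conj.mul hx
  calc ∫ ω, Kop μ R0 R1 G G' x ω * u ω ∂μ
      = ∫ ω, G ω * (μ[fun ω' => conj (G' ω') * x ω' | R1]) ω * (μ[u | R0]) ω ∂μ :=
        int_ce_comm (hG.mul ((hz.condExp R1).mono h1)) h0 (hu.integrable le_rfl)
    _ = ∫ ω, (μ[fun ω' => conj (G' ω') * x ω' | R1]) ω * (G ω * (μ[u | R0]) ω) ∂μ := by
        simp only [mul_assoc, mul_left_comm]
    _ = ∫ ω, conj (G' ω) * x ω * (μ[fun ω' => G ω' * (μ[u | R0]) ω' | R1]) ω ∂μ :=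
        int_ce_comm hz h1 ((hG.mul ((hu.condExp R0).mono h0)).integrable le_rfl)
    _ = ∫ ω, adj μ R0 R1 G G' u ω * x ω ∂μ := by simp only [adj, mul_right_comm]

private lemma int_kop_kop {R0 R1 : MeasurableSpace Ω} {m0 : MeasurableSpace Ω} {μ : Measure Ω}
    [IsProbabilityMeasure μ] (h0 : R0 ≤ m0) (h1 : R1 ≤ m0) {G1 G2 G3 G4 x u : Ω → ℂ}
    (g1 : B μ m0 G1) (g2 : B μ m0 G2) (g3 : B μ m0 G3) (g4 : B μ m0 G4) (hx : B μ m0 x)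
    (hu : B μ m0 u) :
    ∫ ω, Kop μ R0 R1 G1 G2 (Kop μ R0 R1 G3 G4 x) ω * u ω ∂μ =
      ∫ ω, adj μ R0 R1 G3 G4 (adj μ R0 R1 G1 G2 u) ω * x ω ∂μ := by
  rw [int_kop h0 h1 g1 g2 ((b_kop h1 g3 g4 hx).mono h0) hu,
    ← int_kop h0 h1 g3 g4 hx (b_adj h0 h1 g1 g2 hu)]
  simp only [mul_comm]

/-- Commutation.  Let `K = Kop G1 G2`, `K' = Kop G3 G4`, `K̂ = Khat μ C G1 G2`,
`Ǩ = Khat μ (swapCol C) G3 G4` (use `Grid.swapCol`, `DD_swapCol`, `rowS_swapCol`, `sup_comm`).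
For `w = f φ` (`f ∈ C00`, `φ ∈ C01`): `K̂ Ǩ w = (K̂ f)(Ǩ φ) = Ǩ K̂ w` (`khat_mem`, `khat_mul`), and
`K K' w = K (E[Ǩ w|C02]) = K Ǩ w = E[K̂ Ǩ w|C02]`, `K' K w = E[Ǩ K̂ w|C02]`.  For general `x` replace `x` by
`E[x|A']` (`kop_ce`) and test against `u ∈ B μ m0`: `∫ u · Kop G G' x = ∫ x · Kop (conj G') (conj G) u'`
with `u' = E[u | R 0]`, so both sides are of the form `∫ v x` and `int_eq_of_prod` applies. -/
theorem Grid.kop_comm (h : Grid μ C) {G1 G2 G3 G4 x : Ω → ℂ} (h1 : B μ (DD μ C) G1)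
    (h2 : B μ (DD μ C) G2) (h3 : B μ (DD μ C) G3) (h4 : B μ (DD μ C) G4) (hx : B μ (rowS C 0) x) :
    Kop μ (rowS C 0) (rowS C 1) G1 G2 (Kop μ (rowS C 0) (rowS C 1) G3 G4 x) =ᵐ[μ]
      Kop μ (rowS C 0) (rowS C 1) G3 G4 (Kop μ (rowS C 0) (rowS C 1) G1 G2 x) := by
  have hR0 := h.rowS_le 0
  have hR1 := h.rowS_le 1
  have g1 := h1.mono h.DD_le
  have g2 := h2.mono h.DD_le
  have g3 := h3.mono h.DD_le
  have g4 := h4.mono h.DD_le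
  have hz := hx.condExp (C 0 0 ⊔ C 0 1)
  have hz0 := hz.mono ((A_le 0).trans hR0)
  refine (kop_congr (h.kop_ce h4 hx).2.symm).trans
    (EventuallyEq.trans ?_ (kop_congr (h.kop_ce h2 hx).2))
  have b1 := (b_kop (R0 := rowS C 0) hR1 g1 g2 ((b_kop hR1 g3 g4 hz0).mono hR0)).mono hR0
  have b2 := (b_kop (R0 := rowS C 0) hR1 g3 g4 ((b_kop hR1 g1 g2 hz0).mono hR0)).mono hR0
  refine ae_eq_of_forall_B le_rfl (b1.integrable le_rfl) (b2.integrable le_rfl) b1.1 b2.1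
    fun u hu => ?_
  rw [int_kop_kop hR0 hR1 g1 g2 g3 g4 hz0 hu, int_kop_kop hR0 hR1 g3 g4 g1 g2 hz0 hu]
  refine int_eq_of_prod (h.le 0 0) (h.le 0 1)
    ((b_adj hR0 hR1 g3 g4 (b_adj hR0 hR1 g1 g2 hu)).integrable le_rfl)
    ((b_adj hR0 hR1 g1 g2 (b_adj hR0 hR1 g3 g4 hu)).integrable le_rfl) (fun f φ hf hφ => ?_) hz
  have hw := (hf.mono (h.le 0 0)).mul (hφ.mono (h.le 0 1))
  rw [← int_kop_kop hR0 hR1 g1 g2 g3 g4 hw hu, ← int_kop_kop hR0 hR1 g3 g4 g1 g2 hw hu]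
  refine integral_congr_ae ?_
  filter_upwards [kop_comm_prod h h1 h2 h3 h4 hf hφ] with ω hω
  rw [hω]

end Crest.Agent.R69
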