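import Crest.Agent.R69.CI

/-!
# R69: Hilbert–Schmidt operators with kernels in `L²(R0 ⊔ R1)`

Write `P0 x = μ[x | R0]`, `P1 f = μ[f | R1]` (these are a.e. the coercions of `condExpL2`).  By
independence `‖P1 f · conj (P0 x)‖₂ = ‖P1 f‖₂ ‖P0 x‖₂ ≤ ‖f‖ ‖x‖` (`int_mul_indep`), so the form
`(ξ, f, x) ↦ ∫ ξ · P1 f · conj (P0 x)` is bounded by `‖ξ‖ ‖f‖ ‖x‖`; Riesz representation
(`InnerProductSpace.toDual`, `LinearMap.mkContinuous₂`) gives `M`.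
Compactness: for `ξ = a b` with `a ∈ B μ R0`, `b ∈ B μ R1`, `M ξ f = (∫ b P1 f) • a` has rank one; the `ξ`
with `M ξ` compact form a closed subspace `V` (`isClosed_setOf_isCompactOperator`,
`compactOperator` submodule); for `ξ ∈ L²(R0 ⊔ R1)` the component of `ξ` orthogonal to the closed span of
the products is `R0 ⊔ R1`-measurable (`lpMeas` is closed) and orthogonal to all products, hence `0`
(`ae_eq_of_forall_prod`).  Injectivity: again `ae_eq_of_forall_prod`.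
-/

set_option autoImplicit false
set_option linter.unusedSectionVars false
open MeasureTheory ProbabilityTheory Filter Topology
open scoped ComplexConjugate InnerProductSpace

namespace Crest.Agent.R69

universe u
variable {Ω : Type u} {R0 R1 : MeasurableSpace Ω} {m0 : MeasurableSpace Ω} {μ : Measure Ω}
  [IsProbabilityMeasure μ]

namespace HSAux

lemma inner_eq (x y : Lp ℂ 2 μ) : ⟪x, y⟫_ℂ = ∫ ω, y ω * conj (x ω) ∂μ := by
  rw [L2.inner_def]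
  simp only [RCLike.inner_apply]

lemma norm_eq (x : Lp ℂ 2 μ) : √(∫ ω, ‖x ω‖ ^ 2 ∂μ) = ‖x‖ := by
  have h := inner_eq x x
  rw [int_mul_conj, inner_self_eq_norm_sq_to_K] at h
  have h' : ∫ ω, ‖x ω‖ ^ 2 ∂μ = ‖x‖ ^ 2 := by
    have : ((‖x‖ ^ 2 : ℝ) : ℂ) = ((∫ ω, ‖x ω‖ ^ 2 ∂μ : ℝ) : ℂ) := by
      rw [← h]; simp
    exact (Complex.ofReal_injective this).symm
  rw [h', Real.sqrt_sq (norm_nonneg _)]

lemma int_Lp (x : Lp ℂ 2 μ) : Integrable x μ := (Lp.memLp x).integrable (by norm_num)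

/-- products of independent `L²` functions -/
lemma prod_L2 (_h0 : R0 ≤ m0) (_h1 : R1 ≤ m0) (hi : Indep R0 R1 μ) {u v : Ω → ℂ}
    (hu : StronglyMeasurable[R1] u) (hv : StronglyMeasurable[R0] v) (hu2 : MemLp u 2 μ)
    (hv2 : MemLp v 2 μ) :
    MemLp (fun ω => u ω * conj (v ω)) 2 μ ∧
      ∫ ω, ‖u ω * conj (v ω)‖ ^ 2 ∂μ = (∫ ω, ‖u ω‖ ^ 2 ∂μ) * ∫ ω, ‖v ω‖ ^ 2 ∂μ := by
  have hU : Measurable[R1] (fun ω => ‖u ω‖ ^ 2) :=
    ((continuous_norm.pow 2).comp_stronglyMeasurable hu).measurable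
  have hV : Measurable[R0] (fun ω => ‖v ω‖ ^ 2) :=
    ((continuous_norm.pow 2).comp_stronglyMeasurable hv).measurable
  have hI : IndepFun (fun ω => ‖u ω‖ ^ 2) (fun ω => ‖v ω‖ ^ 2) μ := by
    rw [IndepFun_iff_Indep]
    exact indep_of_indep_of_le hi.symm hU.comap_le hV.comap_le
  have iu : Integrable (fun ω => ‖u ω‖ ^ 2) μ := (memLp_two_iff_integrable_sq_norm hu2.1).1 hu2
  have iv : Integrable (fun ω => ‖v ω‖ ^ 2) μ := (memLp_two_iff_integrable_sq_norm hv2.1).1 hv2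
  have e : (fun ω => ‖u ω * conj (v ω)‖ ^ 2) = fun ω => ‖u ω‖ ^ 2 * ‖v ω‖ ^ 2 := by
    funext ω; rw [norm_mul, Complex.norm_conj, mul_pow]
  have hm : AEStronglyMeasurable (fun ω => u ω * conj (v ω)) μ :=
    hu2.1.mul (Complex.continuous_conj.comp_aestronglyMeasurable hv2.1)
  refine ⟨(memLp_two_iff_integrable_sq_norm hm).2 ?_, ?_⟩
  · rw [e]; exact hI.integrable_mul iu iv
  · rw [e]; exact hI.integral_fun_mul_eq_mul_integral iu.1 iv.1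

variable (R0 R1) in
/-- the kernel `P1 f · conj (P0 x)` -/
noncomputable def K (f x : Lp ℂ 2 μ) : Ω → ℂ := fun ω => (μ[f | R1]) ω * conj ((μ[x | R0]) ω)

variable (R0 R1) in
/-- the form -/
noncomputable def Φ (ξ f x : Lp ℂ 2 μ) : ℂ := ∫ ω, ξ ω * K R0 R1 f x ω ∂μ

lemma K_L2 (h0 : R0 ≤ m0) (h1 : R1 ≤ m0) (hi : Indep R0 R1 μ) (f x : Lp ℂ 2 μ) :
    MemLp (K R0 R1 f x) 2 μ :=
  (prod_L2 h0 h1 hi stronglyMeasurable_condExp stronglyMeasurable_condExp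
    (memLp_ce (Lp.memLp f) R1) (memLp_ce (Lp.memLp x) R0)).1

lemma K_int (h0 : R0 ≤ m0) (h1 : R1 ≤ m0) (hi : Indep R0 R1 μ) (ξ f x : Lp ℂ 2 μ) :
    Integrable (fun ω => ξ ω * K R0 R1 f x ω) μ :=
  (Lp.memLp ξ).integrable_mul (K_L2 h0 h1 hi f x)

lemma Φ_le (h0 : R0 ≤ m0) (h1 : R1 ≤ m0) (hi : Indep R0 R1 μ) (ξ f x : Lp ℂ 2 μ) :
    ‖Φ R0 R1 ξ f x‖ ≤ ‖ξ‖ * ‖f‖ * ‖x‖ := by
  have h := norm_int_mul_le (Lp.memLp ξ) (K_L2 h0 h1 hi f x)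
  have e := (prod_L2 h0 h1 hi stronglyMeasurable_condExp stronglyMeasurable_condExp
    (memLp_ce (Lp.memLp f) R1) (memLp_ce (Lp.memLp x) R0)).2
  have a1 := Real.sqrt_le_sqrt (int_sq_ce_le (𝒢 := R1) h1 (Lp.memLp f))
  have a0 := Real.sqrt_le_sqrt (int_sq_ce_le (𝒢 := R0) h0 (Lp.memLp x))
  rw [norm_eq] at a1 a0 h
  have e' : √(∫ ω, ‖K R0 R1 f x ω‖ ^ 2 ∂μ) ≤ ‖f‖ * ‖x‖ := by
    unfold K
    rw [e, Real.sqrt_mul (integral_nonneg fun ω => by positivity)]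
    exact mul_le_mul a1 a0 (Real.sqrt_nonneg _) (norm_nonneg _)
  calc ‖Φ R0 R1 ξ f x‖ ≤ ‖ξ‖ * √(∫ ω, ‖K R0 R1 f x ω‖ ^ 2 ∂μ) := h
    _ ≤ ‖ξ‖ * (‖f‖ * ‖x‖) := mul_le_mul_of_nonneg_left e' (norm_nonneg _)
    _ = _ := by ring

lemma ce_add_Lp (R : MeasurableSpace Ω) (f g : Lp ℂ 2 μ) :
    μ[(f + g : Lp ℂ 2 μ) | R] =ᵐ[μ] fun ω => (μ[f | R]) ω + (μ[g | R]) ω :=
  (condExp_congr_ae (Lp.coeFn_add f g)).trans (ce_add (int_Lp f) (int_Lp g) R)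

lemma ce_smul_Lp (R : MeasurableSpace Ω) (c : ℂ) (f : Lp ℂ 2 μ) :
    μ[(c • f : Lp ℂ 2 μ) | R] =ᵐ[μ] fun ω => c * (μ[f | R]) ω :=
  (condExp_congr_ae (Lp.coeFn_smul c f)).trans (ce_const_mul c f R)

lemma Φ_add1 (h0 : R0 ≤ m0) (h1 : R1 ≤ m0) (hi : Indep R0 R1 μ) (ξ ξ' f x : Lp ℂ 2 μ) :
    Φ R0 R1 (ξ + ξ') f x = Φ R0 R1 ξ f x + Φ R0 R1 ξ' f x := by
  unfold Φ
  rw [← integral_add (K_int h0 h1 hi ξ f x) (K_int h0 h1 hi ξ' f x)]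
  refine integral_congr_ae ?_
  filter_upwards [Lp.coeFn_add ξ ξ'] with ω h
  rw [h, Pi.add_apply, add_mul]

lemma Φ_smul1 (c : ℂ) (ξ f x : Lp ℂ 2 μ) : Φ R0 R1 (c • ξ) f x = c * Φ R0 R1 ξ f x := by
  unfold Φ
  rw [← integral_const_mul]
  refine integral_congr_ae ?_
  filter_upwards [Lp.coeFn_smul c ξ] with ω h
  rw [h, Pi.smul_apply, smul_eq_mul, mul_assoc]

lemma Φ_add2 (h0 : R0 ≤ m0) (h1 : R1 ≤ m0) (hi : Indep R0 R1 μ) (ξ f f' x : Lp ℂ 2 μ) :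
    Φ R0 R1 ξ (f + f') x = Φ R0 R1 ξ f x + Φ R0 R1 ξ f' x := by
  unfold Φ
  rw [← integral_add (K_int h0 h1 hi ξ f x) (K_int h0 h1 hi ξ f' x)]
  refine integral_congr_ae ?_
  filter_upwards [ce_add_Lp R1 f f'] with ω h
  simp only [K, h]; ring

lemma Φ_smul2 (c : ℂ) (ξ f x : Lp ℂ 2 μ) : Φ R0 R1 ξ (c • f) x = c * Φ R0 R1 ξ f x := by
  unfold Φ
  rw [← integral_const_mul]
  refine integral_congr_ae ?_
  filter_upwards [ce_smul_Lp R1 c f] with ω h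
  simp only [K, h]; ring

lemma Φ_add3 (h0 : R0 ≤ m0) (h1 : R1 ≤ m0) (hi : Indep R0 R1 μ) (ξ f x x' : Lp ℂ 2 μ) :
    Φ R0 R1 ξ f (x + x') = Φ R0 R1 ξ f x + Φ R0 R1 ξ f x' := by
  unfold Φ
  rw [← integral_add (K_int h0 h1 hi ξ f x) (K_int h0 h1 hi ξ f x')]
  refine integral_congr_ae ?_
  filter_upwards [ce_add_Lp R0 x x'] with ω h
  simp only [K, h, map_add]; ring

lemma Φ_smul3 (c : ℂ) (ξ f x : Lp ℂ 2 μ) : Φ R0 R1 ξ f (c • x) = conj c * Φ R0 R1 ξ f x := by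
  unfold Φ
  rw [← integral_const_mul]
  refine integral_congr_ae ?_
  filter_upwards [ce_smul_Lp R0 c x] with ω h
  simp only [K, h, map_mul]; ring

lemma riesz (h0 : R0 ≤ m0) (h1 : R1 ≤ m0) (hi : Indep R0 R1 μ) (ξ f : Lp ℂ 2 μ) :
    ∃ y : Lp ℂ 2 μ, ∀ x, ⟪x, y⟫_ℂ = Φ R0 R1 ξ f x := by
  let l : Lp ℂ 2 μ →ₗ[ℂ] ℂ :=
    { toFun := fun x => conj (Φ R0 R1 ξ f x)
      map_add' := fun x x' => by rw [Φ_add3 h0 h1 hi, map_add]
      map_smul' := fun c x => by rw [Φ_smul3, map_mul, Complex.conj_conj]; rfl }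
  let L : Lp ℂ 2 μ →L[ℂ] ℂ := l.mkContinuous (‖ξ‖ * ‖f‖) fun x => by
    change ‖conj (Φ R0 R1 ξ f x)‖ ≤ _
    rw [Complex.norm_conj]; exact Φ_le h0 h1 hi ξ f x
  refine ⟨(InnerProductSpace.toDual ℂ (Lp ℂ 2 μ)).symm L, fun x => ?_⟩
  rw [← inner_conj_symm, InnerProductSpace.toDual_symm_apply]
  change conj (conj (Φ R0 R1 ξ f x)) = _
  rw [Complex.conj_conj]

lemma exists_M (h0 : R0 ≤ m0) (h1 : R1 ≤ m0) (hi : Indep R0 R1 μ) :
    ∃ M : Lp ℂ 2 μ →L[ℂ] (Lp ℂ 2 μ →L[ℂ] Lp ℂ 2 μ),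
      ∀ ξ f x : Lp ℂ 2 μ, ⟪x, M ξ f⟫_ℂ = Φ R0 R1 ξ f x := by
  choose m hm using riesz h0 h1 hi
  let l : Lp ℂ 2 μ →ₗ[ℂ] Lp ℂ 2 μ →ₗ[ℂ] Lp ℂ 2 μ := LinearMap.mk₂ ℂ m
    (fun ξ ξ' f => ext_inner_left ℂ fun x => by
      rw [inner_add_right, hm, hm, hm, Φ_add1 h0 h1 hi])
    (fun c ξ f => ext_inner_left ℂ fun x => by
      rw [inner_smul_right, hm, hm, Φ_smul1])
    (fun ξ f f' => ext_inner_left ℂ fun x => by
      rw [inner_add_right, hm, hm, hm, Φ_add2 h0 h1 hi])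
    (fun c ξ f => ext_inner_left ℂ fun x => by
      rw [inner_smul_right, hm, hm, Φ_smul2])
  have hb : ∀ ξ f, ‖l ξ f‖ ≤ 1 * ‖ξ‖ * ‖f‖ := by
    intro ξ f
    change ‖m ξ f‖ ≤ _
    have h := Φ_le h0 h1 hi ξ f (m ξ f)
    rw [← hm, inner_self_eq_norm_sq_to_K] at h
    have h' : ‖m ξ f‖ * ‖m ξ f‖ ≤ ‖ξ‖ * ‖f‖ * ‖m ξ f‖ := by
      simpa [sq] using h
    rw [one_mul]
    rcases (norm_nonneg (m ξ f)).eq_or_lt with h2 | h2
    · rw [← h2]; positivity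
    · exact le_of_mul_le_mul_right h' h2
  exact ⟨l.mkContinuous₂ 1 hb, fun ξ f x => hm ξ f x⟩

/-- the form on a product kernel -/
lemma Φ_prod (h0 : R0 ≤ m0) (h1 : R1 ≤ m0) (hi : Indep R0 R1 μ) {a b : Ω → ℂ} (ha : B μ R0 a)
    (hb : B μ R1 b) (ξ f x : Lp ℂ 2 μ) (hξ : ξ =ᵐ[μ] fun ω => a ω * b ω) :
    Φ R0 R1 ξ f x = (∫ ω, b ω * f ω ∂μ) * ∫ ω, a ω * conj (x ω) ∂μ := by
  have hcx : Integrable (fun ω => conj (x ω)) μ :=
    (Complex.conjCLE : ℂ →L[ℝ] ℂ).integrable_comp (int_Lp x)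
  rw [← int_mul_ce (𝒢 := R1) hb h1 (int_Lp f), ← int_mul_ce (𝒢 := R0) ha h0 hcx,
    ← int_mul_indep (f := fun ω => b ω * (μ[f | R1]) ω)
      (g := fun ω => a ω * (μ[fun ω => conj (x ω) | R0]) ω) h1 h0 hi.symm
      (hb.aesm.mul (ce_aesm _ _)) (ha.aesm.mul (ce_aesm _ _))]
  unfold Φ
  refine integral_congr_ae ?_
  filter_upwards [hξ, ce_conj (int_Lp x) R0] with ω e1 e2
  simp only [K, e1, e2]; ring

/-- the form on bounded test functions -/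
lemma Φ_test (h0 : R0 ≤ m0) (h1 : R1 ≤ m0) {a b : Ω → ℂ} (ha : B μ R0 a)
    (hb : B μ R1 b) (ξ : Lp ℂ 2 μ) :
    Φ R0 R1 ξ ((hb.memLp h1 2).toLp b) ((ha.conj.memLp h0 2).toLp fun ω => conj (a ω)) =
      ∫ ω, ξ ω * (a ω * b ω) ∂μ := by
  have e1 : μ[((hb.memLp h1 2).toLp b : Lp ℂ 2 μ) | R1] =ᵐ[μ] b :=
    (condExp_congr_ae (MemLp.coeFn_toLp _)).trans (ce_of_aesm h1 hb.aesm (hb.integrable h1))
  have e0 : μ[((ha.conj.memLp h0 2).toLp (fun ω => conj (a ω)) : Lp ℂ 2 μ) | R0] =ᵐ[μ]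
      fun ω => conj (a ω) :=
    (condExp_congr_ae (MemLp.coeFn_toLp _)).trans
      (ce_of_aesm h0 ha.conj.aesm (ha.conj.integrable h0))
  unfold Φ
  refine integral_congr_ae ?_
  filter_upwards [e1, e0] with ω e1 e0
  simp only [K, e1, e0, Complex.conj_conj]; ring

lemma eq_zero_of_prod (h0 : R0 ≤ m0) (h1 : R1 ≤ m0) (η : Lp ℂ 2 μ)
    (hη : AEStronglyMeasurable[R0 ⊔ R1] η μ)
    (H : ∀ a b, B μ R0 a → B μ R1 b → ∫ ω, η ω * (a ω * b ω) ∂μ = 0) : η = 0 := by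
  have h := ae_eq_of_forall_prod (𝒳 := R0) (𝒴 := R1) (f := η) (g := fun _ => 0) h0 h1 (int_Lp η)
    (integrable_zero _ _ _) hη aestronglyMeasurable_const (fun a b ha hb => by
      rw [H a b ha hb]; simp)
  exact Lp.ext (h.trans (Lp.coeFn_zero ℂ 2 μ).symm)

end HSAux

open HSAux in
theorem exists_HS (h0 : R0 ≤ m0) (h1 : R1 ≤ m0) (hi : Indep R0 R1 μ) :
    ∃ M : Lp ℂ 2 μ →L[ℂ] (Lp ℂ 2 μ →L[ℂ] Lp ℂ 2 μ),
      (∀ ξ f x : Lp ℂ 2 μ,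
        ⟪x, M ξ f⟫_ℂ = ∫ ω, ξ ω * ((μ[f | R1]) ω * conj ((μ[x | R0]) ω)) ∂μ) ∧
      (∀ ξ : Lp ℂ 2 μ, AEStronglyMeasurable[R0 ⊔ R1] ξ μ → IsCompactOperator (M ξ)) ∧
      (∀ ξ : Lp ℂ 2 μ, AEStronglyMeasurable[R0 ⊔ R1] ξ μ → M ξ = 0 → ξ = 0) := by
  obtain ⟨M, hM⟩ := exists_M h0 h1 hi
  have h01 : R0 ⊔ R1 ≤ m0 := sup_le h0 h1
  refine ⟨M, hM, ?_, ?_⟩
  · -- compactness
    let W : Submodule ℂ (Lp ℂ 2 μ) :=
      (compactOperator (RingHom.id ℂ) (Lp ℂ 2 μ) (Lp ℂ 2 μ)).comap M.toLinearMap ⊓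
        lpMeas ℂ ℂ (R0 ⊔ R1) 2 μ
    have hW : IsClosed (W : Set (Lp ℂ 2 μ)) :=
      (isClosed_setOfPred_isCompactOperator.preimage M.continuous).inter
        (isClosed_aestronglyMeasurable h01)
    have : CompleteSpace W := hW.completeSpace_coe
    have hprod : ∀ a b (ha : B μ R0 a) (hb : B μ R1 b) (ξ : Lp ℂ 2 μ),
        (ξ =ᵐ[μ] fun ω => a ω * b ω) → ξ ∈ W := by
      intro a b ha hb ξ hξ
      refine ⟨?_, ((ha.mono le_sup_left).mul (hb.mono le_sup_right)).aesm.congr hξ.symm⟩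
      let A : Lp ℂ 2 μ := (ha.memLp h0 2).toLp a
      let Bc : Lp ℂ 2 μ := (hb.conj.memLp h1 2).toLp fun ω => conj (b ω)
      have e : (M ξ : Lp ℂ 2 μ → Lp ℂ 2 μ) = (fun c : ℂ => c • A) ∘ innerSL ℂ Bc := by
        funext f
        refine ext_inner_left ℂ fun x => ?_
        rw [hM, Φ_prod h0 h1 hi ha hb ξ f x hξ, Function.comp_apply, inner_smul_right,
          innerSL_apply_apply, inner_eq, inner_eq]
        congr 1
        · refine integral_congr_ae ?_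
          filter_upwards [(hb.conj.memLp h1 2).coeFn_toLp] with ω h
          rw [h, Complex.conj_conj, mul_comm]
        · refine integral_congr_ae ?_
          filter_upwards [(ha.memLp h0 2).coeFn_toLp] with ω h
          rw [h]
      change IsCompactOperator (M ξ)
      rw [e]
      exact (isCompactOperator_of_locallyCompactSpace_dom (innerSL ℂ Bc)).continuous_comp
        (by fun_prop)
    intro ξ hξ
    obtain ⟨y, hy, z, hz, e⟩ := W.exists_add_mem_mem_orthogonal ξ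
    have hzm : z ∈ lpMeas ℂ ℂ (R0 ⊔ R1) 2 μ := by
      have : z = ξ - y := by rw [e]; abel
      rw [this]
      exact Submodule.sub_mem _ hξ hy.2
    have hz0 : z = 0 := by
      refine eq_zero_of_prod h0 h1 z hzm fun a b ha hb => ?_
      have hab : B μ m0 fun ω => conj (a ω) * conj (b ω) :=
        (ha.conj.mono h0).mul (hb.conj.mono h1)
      have := hz _ (hprod _ _ ha.conj hb.conj ((hab.memLp le_rfl 2).toLp _)
        (MemLp.coeFn_toLp _))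
      rw [inner_eq] at this
      rw [← this]
      refine integral_congr_ae ?_
      filter_upwards [(hab.memLp le_rfl 2).coeFn_toLp] with ω h
      rw [h, map_mul, Complex.conj_conj, Complex.conj_conj]
    rw [e, hz0, add_zero]
    exact hy.1
  · intro ξ hξ h
    refine eq_zero_of_prod h0 h1 ξ hξ fun a b ha hb => ?_
    rw [← Φ_test h0 h1 ha hb, ← hM, h]
    simp

end Crest.Agent.R69
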