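import Crest.Agent.R69.Fiber

/-!
# R69: two fibres related by the shift on one small system and equal on the other

For `s ∈ cylS Gc` let `hc s = m[1_s | F Ψc]`, for `s ∈ cylS Gr` let `hr s = m[1_s | F Ψr]`; these depend
only on the positions in `Ψc` resp. `Ψr` (`dependsOn_of_measurable`).  For a.e. `ω` and all such `s`
(countably many): `κ ω s = hc s ω`, `κ ω (tr t ⁻¹' s) = hc s (tr t ω)` (`IsDis.ce`, `CI.ce_eq`, `ce_tr`
with `sh t Ψc = Ψc`), `κ ω s = hr s ω`.  Choose a compact `K` inside the set where all this and `q`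
hold with `m K > 1/2` (inner regularity on the Polish space `Om ι`).  The maps
`Φ ω = (Ψc.restrict ω, Ψr.restrict ω)` and `Φ' ω = (Ψc.restrict (tr t ω), Ψr.restrict ω)` have the same
law (both are the product of the marginals: `indepFun_iff_map_prod_eq_prod_map_map`).  `Φ '' K` is
compact, hence measurable, of measure `> 1/2`; so `Φ' ⁻¹' (Φ '' K)` meets `K` in a point `ω₁`, and
`Φ ω₂ = Φ' ω₁` for some `ω₂ ∈ K`.  Extend from cylinder sets with `measure_eq_on_F`
(applied to `κ ω₂` and `(κ ω₁).map (tr t)`).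
-/

set_option autoImplicit false
set_option linter.unusedSectionVars false
open MeasureTheory ProbabilityTheory Filter Topology
open scoped ComplexConjugate

namespace Crest.Agent.R69

variable {ι : Type} [Fintype ι] [DecidableEq ι] {m : Measure (Om ι)} [IsProbabilityMeasure m]
  {κ : Om ι → Measure (Om ι)}

lemma pair_meas_restrict (X : Set (P ι)) :
    Measurable[F X] (fun ω : Om ι => (X.restrict ω : X → ι → Bool)) :=
  (@measurable_pi_iff _ _ _ (F X) _ _).2 fun v => measurable_cylinderEvent_apply v.2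

/-- the compactness argument -/
lemma pair_core {Ψc Ψr : Set (P ι)} {t : P ι} (ht : MeasurePreserving (tr t) m m)
    (htc : sh t Ψc = Ψc) (hi : Indep (F Ψc) (F Ψr) m) {q : Om ι → Prop} (hq : ∀ᵐ ω ∂m, q ω) :
    ∃ ω₁ ω₂, q ω₁ ∧ q ω₂ ∧ (∀ v ∈ Ψc, ω₂ v = tr t ω₁ v) ∧ ∀ v ∈ Ψr, ω₂ v = ω₁ v := by
  have hA : MeasurableSet (toMeasurable m {ω | ¬q ω})ᶜ := (measurableSet_toMeasurable _ _).compl
  have h1 : m (toMeasurable m {ω | ¬q ω})ᶜ = 1 := by
    rw [prob_compl_eq_one_iff (measurableSet_toMeasurable _ _), measure_toMeasurable]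
    exact hq
  obtain ⟨K, hKA, hK, hKm⟩ := hA.exists_lt_isCompact (μ := m) (r := 2⁻¹) (by rw [h1]; norm_num)
  have hKq : ∀ ω ∈ K, q ω := fun ω hω => by
    by_contra hn
    exact hKA hω (subset_toMeasurable m _ hn)
  let a : Om ι → (Ψc → ι → Bool) := fun ω => Ψc.restrict ω
  let b : Om ι → (Ψr → ι → Bool) := fun ω => Ψr.restrict ω
  have ha : Measurable[F Ψc] a := pair_meas_restrict Ψc
  have hb : Measurable[F Ψr] b := pair_meas_restrict Ψr
  have htr : Measurable[F Ψc, F Ψc] (tr t) := measurable_tr fun v hv => by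
    rw [← htc, mem_sh, add_sub_cancel_right]; exact hv
  have ha' : Measurable[F Ψc] fun ω => a (tr t ω) := ha.comp htr
  have ma : Measurable a := ha.mono (F_le _) le_rfl
  have mb : Measurable b := hb.mono (F_le _) le_rfl
  have ma' : Measurable fun ω => a (tr t ω) := ha'.mono (F_le _) le_rfl
  have i1 : IndepFun a b m := (IndepFun_iff_Indep _ _ _).2
    (indep_of_indep_of_le_right (indep_of_indep_of_le_left hi ha.comap_le) hb.comap_le)
  have i2 : IndepFun (fun ω => a (tr t ω)) b m := (IndepFun_iff_Indep _ _ _).2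
    (indep_of_indep_of_le_right (indep_of_indep_of_le_left hi ha'.comap_le) hb.comap_le)
  have e1 := (indepFun_iff_map_prod_eq_prod_map_map ma.aemeasurable mb.aemeasurable).1 i1
  have e2 := (indepFun_iff_map_prod_eq_prod_map_map ma'.aemeasurable mb.aemeasurable).1 i2
  have e3 : m.map (fun ω => a (tr t ω)) = m.map a := by
    rw [show (fun ω => a (tr t ω)) = a ∘ tr t from rfl, ← Measure.map_map ma ht.measurable, ht.map_eq]
  rw [e3, ← e1] at e2
  have hcont : Continuous fun ω => (a ω, b ω) :=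
    (continuous_pi fun v => continuous_apply _).prodMk (continuous_pi fun v => continuous_apply _)
  have hL : MeasurableSet ((fun ω => (a ω, b ω)) '' K) := (hK.image hcont).isClosed.measurableSet
  have e4 : m K ≤ m ((fun ω => (a (tr t ω), b ω)) ⁻¹' ((fun ω => (a ω, b ω)) '' K)) := by
    rw [← Measure.map_apply (ma'.prodMk mb) hL, e2, Measure.map_apply (ma.prodMk mb) hL]
    exact measure_mono (Set.subset_preimage_image _ _)
  obtain ⟨ω₁, h₁, ω₂, h₂, e⟩ := nonempty_inter_of_measure_lt_add m (s := K) (u := Set.univ)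
    ((ma'.prodMk mb) hL) (Set.subset_univ _) (Set.subset_univ _) (by
      rw [measure_univ, ← ENNReal.inv_two_add_inv_two]
      exact ENNReal.add_lt_add hKm (hKm.trans_le e4))
  obtain ⟨e5, e6⟩ := Prod.mk.inj e
  exact ⟨ω₁, ω₂, hKq _ h₁, hKq _ h₂, fun v hv => congrFun e5 ⟨v, hv⟩, fun v hv => congrFun e6 ⟨v, hv⟩⟩

lemma IsDis.pair_ce {Ψ Ψ' G : Set (P ι)} (h : IsDis m Ψ κ) (hc : Ψ' ⊆ Ψ)
    (hci : CI m (F G) (F Ψ) (F Ψ')) {s : Set (Om ι)} (hs : MeasurableSet[F G] s) :
    ∀ᵐ ω ∂m, (((κ ω).real s : ℝ) : ℂ) = (m[s.indicator fun _ => (1 : ℂ) | F Ψ']) ω := by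
  filter_upwards [h.ce_ind (F_le _ _ hs), hci.ce_eq (F_mono hc) (F_le Ψ) (B.indicator hs)] with ω e1 e2
  rw [← e1, e2]

theorem IsDis.exists_pair {Ψ Ψc Ψr Gc Gr : Set (P ι)} (h : IsDis m Ψ κ) {t : P ι}
    (ht : MeasurePreserving (tr t) m m) (hc : Ψc ⊆ Ψ) (hr : Ψr ⊆ Ψ) (htc : sh t Ψc = Ψc)
    (htG : sh t Gc = Gc) (hi : Indep (F Ψc) (F Ψr) m) (hcic : CI m (F Gc) (F Ψ) (F Ψc))
    (hcir : CI m (F Gr) (F Ψ) (F Ψr)) {q : Om ι → Prop} (hq : ∀ᵐ ω ∂m, q ω) :
    ∃ ω₁ ω₂, q ω₁ ∧ q ω₂ ∧ (∀ s, MeasurableSet[F Gr] s → κ ω₂ s = κ ω₁ s) ∧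
      ∀ s, MeasurableSet[F Gc] s → κ ω₂ s = κ ω₁ (tr t ⁻¹' s) := by
  have htr : Measurable[F Gc, F Gc] (tr t) := measurable_tr fun v hv => by
    rw [← htG, mem_sh, add_sub_cancel_right]; exact hv
  have hA := (ae_ball_iff (countable_cylS Gc)).2 fun s hs => h.pair_ce hc hcic (fib_meas_cylS hs)
  have hC := (ae_ball_iff (countable_cylS Gr)).2 fun s hs => h.pair_ce hr hcir (fib_meas_cylS hs)
  have hB : ∀ᵐ ω ∂m, ∀ s ∈ cylS Gc, (((κ ω).real (tr t ⁻¹' s) : ℝ) : ℂ) =
      (m[s.indicator fun _ => (1 : ℂ) | F Ψc]) (tr t ω) := by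
    refine (ae_ball_iff (countable_cylS Gc)).2 fun s hs => ?_
    have hsm := fib_meas_cylS hs
    have e := ce_tr ht ((integrable_const (1 : ℂ)).indicator (F_le _ _ hsm)) Ψc
    rw [htc] at e
    filter_upwards [h.pair_ce hc hcic (htr hsm), e] with ω e1 e2
    rw [e1, ← e2]
    rfl
  obtain ⟨ω₁, ω₂, ⟨q1, -, B1, C1⟩, ⟨q2, A2, -, C2⟩, e1, e2⟩ :=
    pair_core ht htc hi (hq.and (hA.and (hB.and hC)))
  have p1 := h.prob ω₁
  have p2 := h.prob ω₂
  refine ⟨ω₁, ω₂, q1, q2, measure_eq_on_F fun s hs => ?_, fun s hs => ?_⟩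
  · have e := dependsOn_of_measurable
      (stronglyMeasurable_condExp (m := F Ψr) (μ := m) (f := s.indicator fun _ => (1 : ℂ))).measurable e2
    rw [← C1 s hs, ← C2 s hs, Complex.ofReal_inj, measureReal_eq_measureReal_iff] at e
    exact e
  · have p3 : IsProbabilityMeasure ((κ ω₁).map (tr t)) :=
      Measure.isProbabilityMeasure_map (measurable_tr' t).aemeasurable
    rw [← Measure.map_apply (measurable_tr' t) (F_le _ _ hs)]
    refine measure_eq_on_F (fun s hs => ?_) s hs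
    have e := dependsOn_of_measurable
      (stronglyMeasurable_condExp (m := F Ψc) (μ := m) (f := s.indicator fun _ => (1 : ℂ))).measurable e1
    rw [← B1 s hs, ← A2 s hs, Complex.ofReal_inj, measureReal_eq_measureReal_iff] at e
    rw [Measure.map_apply (measurable_tr' t) (F_le _ _ (fib_meas_cylS hs))]
    exact e

end Crest.Agent.R69
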