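import Crest.Agent.R69.FibGood
import Crest.Agent.R69.DStep
import Crest.Agent.R69.Pair
import Crest.Agent.R69.Auto
import Crest.Agent.R69.End

/-!
# R69: all slices of a top coordinate are independent
-/

set_option autoImplicit false
set_option linter.unusedSectionVars false
open MeasureTheory ProbabilityTheory Filter Topology
open scoped ComplexConjugate

namespace Crest.Agent.R69

variable {ι : Type} [Fintype ι] [DecidableEq ι] {g : ℕ → ι → ℕ} {p : Ultrafilter ℕ}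
  {m : Measure (Om ι)} [IsProbabilityMeasure m]

lemma sh_zp_eq {X : Set (P ι)} (hX : ∀ v w : P ι, v.2 = w.2 → v ∈ X → w ∈ X) (n : ℤ) :
    sh (zp n) X = X := by
  ext v
  exact ⟨fun h => hX _ _ (by simp) h, fun h => hX _ _ (by simp) h⟩

lemma measurable_tr_zp {X : Set (P ι)} (hX : ∀ v w : P ι, v.2 = w.2 → v ∈ X → w ∈ X) (n : ℤ) :
    Measurable[F X, F X] (tr (zp n)) :=
  measurable_tr fun v hv => hX _ _ (by simp) hv

lemma PS_snd {S : Set ℚ} (v w : P ι) (h : v.2 = w.2) (hv : v ∈ PS S) : w ∈ PS S :=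
  fun y hy => h ▸ hv y hy

lemma Sl_snd {S : Set ℚ} {c : ℚ} {W : Set (ι → ℤ)} (v w : P ι) (h : v.2 = w.2) (hv : v ∈ Sl S c W) :
    w ∈ Sl S c W := ⟨PS_snd v w h hv.1, h ▸ hv.2⟩

lemma At_snd {bs : ℚ → ι} {Js : ℚ → Finset ι} {S R : Set ℚ} (v w : P ι) (h : v.2 = w.2)
    (hv : v ∈ At bs Js S R) : w ∈ At bs Js S R := ⟨PS_snd v w h hv.1, h ▸ hv.2⟩

lemma At_mono {bs : ℚ → ι} {Js : ℚ → Finset ι} {S R S' R' : Set ℚ} (hS : S ⊆ S') (hR : R ⊆ R') :
    At bs Js S R ⊆ At bs Js S' R' :=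
  fun _ ⟨h1, r, hr, h2⟩ => ⟨PS_mono hS h1, r, hR hr, h2⟩

theorem IsModel.indep_all (h : IsModel g p m) (h3 : 3 ≤ Fintype.card ι) (f : ι → Om ι → ℂ)
    (hf : ∀ i, Cyl (PS ∅) (f i)) :
    Tendsto (fun n => ∫ ω, ∏ i, f i (tr (zp (g n i)) ω) ∂m) p (𝓝 (∏ i, ∫ ω, f i ω ∂m)) := by
  have : Nontrivial ι := Fintype.one_lt_card_iff_nontrivial.1 (by omega)
  obtain ⟨bs, Js, hT⟩ := exists_typ (ι := ι)
  obtain ⟨l, gr, hG⟩ := exists_grp h3
  have hlim := h.lim_top 2 f fun i => (hf i).b m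
  by_contra hcon
  have hne : ∫ ω, ∏ i, f i (tr (gam 2 (dl i)) ω) ∂m ≠ ∏ i, ∫ ω, f i ω ∂m := fun e => hcon (e ▸ hlim)
  obtain ⟨f', hsb, hQ, h0, hδ⟩ := h.dstep hT hG f hf hne
  obtain ⟨κ, hκ⟩ := exists_dis m (Psi bs Js)
  have hc : PsiC bs Js ⊆ Psi bs Js := by
    refine At_mono (fun y hy => ⟨hy.2, ?_⟩) fun y hy => ⟨hy.2.le, ?_⟩
    · rintro rfl; exact lt_irrefl _ hy.1
    · have h1 := hy.1; have h2 := hy.2
      simp only [Set.mem_insert_iff, Set.mem_singleton_iff]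
      rintro (rfl | rfl | rfl) <;> linarith
  have hr : PsiR bs Js ⊆ Psi bs Js := by
    refine At_mono (fun y hy => ⟨?_, ?_⟩) fun y hy => ⟨?_, ?_⟩
    · have : y < 1 := hy
      show y ≤ 2
      linarith
    · rintro rfl; exact lt_irrefl _ (show (1 : ℚ) < 1 from hy)
    · have : y < 1 := hy.1
      show y ≤ 2
      linarith
    · have h1 : y < 1 := hy.1
      have h2 : y ≠ 0 := hy.2
      simp only [Set.mem_insert_iff, Set.mem_singleton_iff]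
      rintro (rfl | rfl | rfl)
      · exact h2 rfl
      · linarith
      · linarith
  obtain ⟨ω₁, ω₂, ⟨hg1, hm1⟩, ⟨hg2, -⟩, Hr, Hc⟩ := hκ.exists_pair (h.mp_tr (zp 1)) hc hr
    (sh_zp_eq At_snd 1) (sh_zp_eq PS_snd 1) (h.indep_small hT) (h.smallC hT l).2 (h.smallR hT l).2
    ((h.ae_good hT hG hκ hsb hQ).and (hκ.marginal (h.indep_Z hT)))
  have := hκ.prob ω₁
  have := hκ.prob ω₂
  have hZ := ZZ_le hsb
  obtain ⟨Γ, _, χ, σ, hS⟩ := exists_charSys (κ ω₁) (κ ω₂) (τ := tr (zp 1)) (𝒵 := ZZ f')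
    (𝒢c := F (PS (Set.Ioc 1 2))) (𝒢r := F (PS (Set.Iio 1))) (a := colA l gr) (b := rowB l gr)
    (F_le _) (F_le _) (fun _ => F_mono fun _ hv => hv.1) (fun _ => F_mono fun _ hv => hv.1)
    (hZ.trans (F_mono (PS_mono (Set.empty_subset _)))) (hZ.trans (F_mono (PS_mono (Set.empty_subset _))))
    (fun _ => measurable_tr_zp Sl_snd 1) (measurable_tr_zp PS_snd 1) (measurable_tr_ZZ f') Hr Hc hg1 hg2
  have hint : ∀ u : Om ι → ℂ, SB (F (PS ∅)) u → ∫ ω, u ω ∂(κ ω₁) = ∫ ω, u ω ∂m :=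
    fun u hu => int_eq_of_eq_on (𝒢 := F (PS ∅)) (F_le _) hm1 hu.1
  have htr : ∀ (u : Om ι → ℂ) (n : ℤ), SB (F (PS ∅)) u → SB (F (PS ∅)) (fun ω => u (tr (zp n) ω)) :=
    fun u n hu => hu.comp' (measurable_tr_zp PS_snd n)
  refine hS.endgame (hZ.trans (F_le _)) (measurable_tr_ZZ f') ?_ g p h.le_atTop h.gap f'
    (sb_ZZ hsb) l ?_ hδ ?_
  · intro G G' hG hG'
    have hG := hG.mono hZ
    have hG' := hG'.mono hZ
    rw [hint G hG, hint G' hG']
    refine (h.mix2B hG.b hG'.b).congr fun n => ?_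
    simp only [tr_iterate]
    exact (hint _ ((htr G n hG).mul hG')).symm
  · rw [hint _ (hsb l), h0]
  · refine (h.lim_top 2 f' fun i => (hsb i).b).congr fun n => ?_
    simp only [tr_iterate]
    exact (hint _ (SB.prod Finset.univ fun i _ => htr (f' i) (g n i) (hsb i))).symm

end Crest.Agent.R69
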