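import Crest.Agent.R69.BExt

/-!
# R69: multiple mixing of a transformation (definition, base cases, functions)

(filled by helper65)
-/

set_option autoImplicit false
set_option linter.unusedSectionVars false
open MeasureTheory ProbabilityTheory Filter Topology

namespace Crest.Agent.R69

variable {X : Type*} [MeasurableSpace X]

/-- mixing for families of sets indexed by `ι`, at times that are pairwise far apart -/
def Mix (μ : Measure X) (T : X → X) (ι : Type) [Fintype ι] : Prop :=
  ∀ A : ι → Set X, (∀ i, MeasurableSet (A i)) → ∀ ε : ℝ, 0 < ε → ∃ L : ℕ, ∀ g : ι → ℕ,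
    (∀ i j, i ≠ j → (L : ℤ) ≤ |(g i : ℤ) - g j|) →
      |μ.real (⋂ i, T^[g i] ⁻¹' A i) - ∏ i, μ.real (A i)| < ε

variable {μ : Measure X} [IsProbabilityMeasure μ] {T : X → X}

/-- zero or one set: invariance of the measure -/
lemma mix_of_subsingleton (hT : MeasurePreserving T μ μ) (ι : Type) [Fintype ι] [Subsingleton ι] :
    Mix μ T ι := by
  intro A hA ε hε
  refine ⟨0, fun g _ => ?_⟩
  rcases isEmpty_or_nonempty ι with h | ⟨⟨d⟩⟩
  · simpa using hε
  · have : Unique ι := uniqueOfSubsingleton d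
    have h1 : (⋂ i, T^[g i] ⁻¹' A i) = T^[g default] ⁻¹' A default :=
      iInf_unique (fun i => T^[g i] ⁻¹' A i)
    rw [h1, Fintype.prod_unique]
    have := (hT.iterate (g default)).measure_preimage (hA default).nullMeasurableSet
    simpa [Measure.real, this] using hε

private lemma mix_aux (hT : MeasurePreserving T μ μ) {A B : Set X} (hA : MeasurableSet A)
    (hB : MeasurableSet B) {a b : ℕ} (hab : a ≤ b) :
    μ.real (T^[a] ⁻¹' A ∩ T^[b] ⁻¹' B) = μ.real (A ∩ T^[b - a] ⁻¹' B) := by
  have h1 : T^[a] ⁻¹' A ∩ T^[b] ⁻¹' B = T^[a] ⁻¹' (A ∩ T^[b - a] ⁻¹' B) := by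
    ext x
    simp only [Set.mem_inter_iff, Set.mem_preimage]
    rw [← Function.iterate_add_apply, Nat.sub_add_cancel hab]
  have h2 : MeasurableSet (A ∩ T^[b - a] ⁻¹' B) :=
    hA.inter ((hT.iterate (b - a)).measurable hB)
  rw [h1, Measure.real, Measure.real, (hT.iterate a).measure_preimage h2.nullMeasurableSet]

private lemma mix_aux2
    (hmix : ∀ A B : Set X, MeasurableSet A → MeasurableSet B →
      Tendsto (fun n : ℕ => μ (A ∩ (T^[n]) ⁻¹' B)) atTop (𝓝 (μ A * μ B)))
    {A B : Set X} (hA : MeasurableSet A) (hB : MeasurableSet B) {ε : ℝ} (hε : 0 < ε) :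
    ∃ N : ℕ, ∀ n, N ≤ n → |μ.real (A ∩ T^[n] ⁻¹' B) - μ.real A * μ.real B| < ε := by
  have h1 := (ENNReal.tendsto_toReal
    (ENNReal.mul_ne_top (measure_ne_top μ A) (measure_ne_top μ B))).comp (hmix A B hA hB)
  rw [ENNReal.toReal_mul] at h1
  obtain ⟨N, hN⟩ := Metric.tendsto_atTop.1 h1 ε hε
  exact ⟨N, fun n hn => by simpa [Real.dist_eq, Measure.real] using hN n hn⟩

/-- two sets: `T^[g 0] ⁻¹' A 0 ∩ T^[g 1] ⁻¹' A 1` is the preimage under `T^[min]` of
`A 0 ∩ T^[g 1 - g 0] ⁻¹' A 1` or of `A 1 ∩ T^[g 0 - g 1] ⁻¹' A 0` -/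
lemma mix_two (hT : MeasurePreserving T μ μ)
    (hmix : ∀ A B : Set X, MeasurableSet A → MeasurableSet B →
      Tendsto (fun n : ℕ => μ (A ∩ (T^[n]) ⁻¹' B)) atTop (𝓝 (μ A * μ B))) : Mix μ T (Fin 2) := by
  intro A hA ε hε
  obtain ⟨N1, h1⟩ := mix_aux2 hmix (hA 0) (hA 1) hε
  obtain ⟨N2, h2⟩ := mix_aux2 hmix (hA 1) (hA 0) hε
  refine ⟨max N1 N2, fun g hg => ?_⟩
  have h3 := hg 0 1 (by decide)
  have h4 : (⋂ i, T^[g i] ⁻¹' A i) = T^[g 0] ⁻¹' A 0 ∩ T^[g 1] ⁻¹' A 1 := by
    ext x
    simp [Fin.forall_fin_two]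
  rw [h4, Fin.prod_univ_two]
  rcases le_total (g 0) (g 1) with h | h
  · rw [mix_aux hT (hA 0) (hA 1) h]
    refine h1 _ ?_
    rw [abs_sub_comm, abs_of_nonneg (by omega)] at h3
    omega
  · rw [Set.inter_comm, mix_aux hT (hA 1) (hA 0) h, mul_comm]
    refine h2 _ ?_
    rw [abs_of_nonneg (by omega)] at h3
    omega

/-- smaller families: pad with `univ` placed at far away times, along an embedding `κ ↪ ι` -/
lemma Mix.of_card_le {ι κ : Type} [Fintype ι] [Fintype κ] (h : Mix μ T ι)
    (hc : Fintype.card κ ≤ Fintype.card ι) : Mix μ T κ := by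
  classical
  obtain ⟨e⟩ := Function.Embedding.nonempty_of_card_le hc
  intro A hA ε hε
  have hA' : ∀ i, MeasurableSet (Function.extend e A (fun _ => Set.univ) i) := by
    intro i
    by_cases hi : ∃ k, e k = i
    · obtain ⟨k, rfl⟩ := hi
      rw [e.injective.extend_apply]
      exact hA k
    · rw [Function.extend_apply' _ _ _ hi]
      exact MeasurableSet.univ
  obtain ⟨L, hL⟩ := h _ hA' ε hε
  refine ⟨L, fun g hg => ?_⟩
  set M : ℕ := Finset.univ.sup g with hM
  have hgM : ∀ k, g k ≤ M := fun k => Finset.le_sup (f := g) (Finset.mem_univ k)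
  let idx : ι → ℕ := fun i => (Fintype.equivFin ι i : ℕ)
  have hidx : Function.Injective idx := fun i j hij =>
    (Fintype.equivFin ι).injective (Fin.ext hij)
  let g' : ι → ℕ := Function.extend e g (fun i => M + L * (idx i + 1))
  have hg1 : ∀ k, g' (e k) = g k := fun k => e.injective.extend_apply _ _ k
  have hg2 : ∀ i, (¬ ∃ k, e k = i) → g' i = M + L * (idx i + 1) := fun i hi =>
    Function.extend_apply' _ _ _ hi
  have hmixed : ∀ k j, (¬ ∃ k, e k = j) → (L : ℤ) ≤ (g' j : ℤ) - g' (e k) := by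
    intro k j hj
    rw [hg1, hg2 j hj]
    have h1 : (g k : ℤ) ≤ M := by exact_mod_cast hgM k
    push_cast
    have h2 : (0 : ℤ) ≤ (L : ℤ) * idx j := by positivity
    linarith
  have hlt : ∀ i j, (¬ ∃ k, e k = i) → (¬ ∃ k, e k = j) → idx i < idx j →
      (L : ℤ) ≤ (g' j : ℤ) - g' i := by
    intro i j hi hj hij
    rw [hg2 i hi, hg2 j hj]
    push_cast
    have h1 : (idx i : ℤ) + 1 ≤ idx j := by exact_mod_cast hij
    have h2 : (0 : ℤ) ≤ L := by positivity
    nlinarith
  have h1 := hL g' (by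
    intro i j hij
    by_cases hi : ∃ k, e k = i
    · by_cases hj : ∃ k, e k = j
      · obtain ⟨k, rfl⟩ := hi
        obtain ⟨k', rfl⟩ := hj
        rw [hg1, hg1]
        exact hg k k' fun hk => hij (by rw [hk])
      · obtain ⟨k, rfl⟩ := hi
        rw [abs_sub_comm]
        exact (hmixed k j hj).trans (le_abs_self _)
    · by_cases hj : ∃ k, e k = j
      · obtain ⟨k, rfl⟩ := hj
        exact (hmixed k i hi).trans (le_abs_self _)
      · rcases lt_or_gt_of_ne (fun h => hij (hidx h)) with h | h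
        · rw [abs_sub_comm]
          exact (hlt i j hi hj h).trans (le_abs_self _)
        · exact (hlt j i hj hi h).trans (le_abs_self _))
  have h2 : (⋂ i, T^[g' i] ⁻¹' Function.extend e A (fun _ => Set.univ) i) =
      ⋂ k, T^[g k] ⁻¹' A k := by
    ext x
    simp only [Set.mem_iInter, Set.mem_preimage]
    constructor
    · intro hx k
      have := hx (e k)
      rwa [hg1, e.injective.extend_apply] at this
    · intro hx i
      by_cases hi : ∃ k, e k = i
      · obtain ⟨k, rfl⟩ := hi
        rw [hg1, e.injective.extend_apply]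
        exact hx k
      · rw [Function.extend_apply' _ _ _ hi]
        trivial
  have h3 : ∏ k, μ.real (A k) = ∏ i, μ.real (Function.extend e A (fun _ => Set.univ) i) := by
    refine Fintype.prod_of_injective e e.injective _ _ (fun i hi => ?_) (fun k => ?_)
    · rw [Function.extend_apply' _ _ _ hi]
      simp
    · rw [e.injective.extend_apply]
  rwa [h2, ← h3] at h1

private lemma Mix.tendsto_set {ι N : Type} [Fintype ι] (h : Mix μ T ι)
    (l : Filter N) (g : N → ι → ℕ)
    (hg : ∀ L : ℕ, ∀ᶠ n in l, ∀ i j, i ≠ j → (L : ℤ) ≤ |(g n i : ℤ) - g n j|)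
    (A : ι → Set X) (hA : ∀ i, MeasurableSet (A i)) :
    Tendsto (fun n => μ.real (⋂ i, T^[g n i] ⁻¹' A i)) l (𝓝 (∏ i, μ.real (A i))) := by
  refine Metric.tendsto_nhds.2 fun ε hε => ?_
  obtain ⟨L, hL⟩ := h A hA ε hε
  filter_upwards [hg L] with n hn
  rw [Real.dist_eq]
  exact hL _ hn

omit [MeasurableSpace X] in
private lemma fin_range_eq {f : X → ℂ} (hf : (Set.range f).Finite) (x : X) :
    f x = ∑ c ∈ hf.toFinset, c * (f ⁻¹' {c}).indicator (fun _ => (1 : ℂ)) x := by
  rw [Finset.sum_eq_single (f x)]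
  · simp
  · intro c _ hc
    have : x ∉ f ⁻¹' {c} := fun hx => hc (Set.mem_singleton_iff.1 hx).symm
    simp [this]
  · intro hx
    exact absurd (hf.mem_toFinset.2 ⟨x, rfl⟩) hx

private lemma int_ind {s : Set X} (hs : MeasurableSet s) :
    ∫ x, s.indicator (fun _ => (1 : ℂ)) x ∂μ = (μ.real s : ℂ) := by
  rw [integral_indicator hs]
  simp

private lemma ind_integrable {s : Set X} (hs : MeasurableSet s) :
    Integrable (fun x => s.indicator (fun _ => (1 : ℂ)) x) μ :=
  (integrable_const (1 : ℂ)).indicator hs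

/-- From sets to measurable functions with finite range (each `f i` is a finite linear combination of
indicators of its fibres; expand the product with `Finset.prod_univ_sum`, or induct slot by slot). -/
lemma Mix.tendsto_fun {ι N : Type} [Fintype ι] (h : Mix μ T ι) (hT : MeasurePreserving T μ μ)
    (l : Filter N) (g : N → ι → ℕ)
    (hg : ∀ L : ℕ, ∀ᶠ n in l, ∀ i j, i ≠ j → (L : ℤ) ≤ |(g n i : ℤ) - g n j|)
    (f : ι → X → ℂ) (hf : ∀ i, Measurable (f i)) (hf' : ∀ i, (Set.range (f i)).Finite) :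
    Tendsto (fun n => ∫ x, ∏ i, f i (T^[g n i] x) ∂μ) l (𝓝 (∏ i, ∫ x, f i x ∂μ)) := by
  classical
  have hm : ∀ i c, MeasurableSet (f i ⁻¹' {c}) := fun i c => hf i (measurableSet_singleton c)
  have h1 : ∀ i, ∫ x, f i x ∂μ = ∑ c ∈ (hf' i).toFinset, c * (μ.real (f i ⁻¹' {c}) : ℂ) := by
    intro i
    rw [integral_congr_ae (Eventually.of_forall (fin_range_eq (hf' i))), integral_finsetSum]
    · refine Finset.sum_congr rfl fun c _ => ?_
      rw [integral_const_mul, int_ind (hm i c)]
    · intro c _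
      exact (ind_integrable (hm i c)).const_mul c
  have h2 : ∀ n, ∫ x, ∏ i, f i (T^[g n i] x) ∂μ =
      ∑ p ∈ Fintype.piFinset fun i => (hf' i).toFinset,
        (∏ i, p i) * (μ.real (⋂ i, T^[g n i] ⁻¹' (f i ⁻¹' {p i})) : ℂ) := by
    intro n
    have hm' : ∀ p : ι → ℂ, MeasurableSet (⋂ i, T^[g n i] ⁻¹' (f i ⁻¹' {p i})) := fun p =>
      MeasurableSet.iInter fun i => (hT.iterate _).measurable (hm i _)
    have h3 : ∀ x, ∏ i, f i (T^[g n i] x) =
        ∑ p ∈ Fintype.piFinset fun i => (hf' i).toFinset,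
          (∏ i, p i) * (⋂ i, T^[g n i] ⁻¹' (f i ⁻¹' {p i})).indicator (fun _ => (1 : ℂ)) x := by
      intro x
      rw [Finset.prod_congr rfl fun i _ => fin_range_eq (hf' i) (T^[g n i] x),
        Finset.prod_univ_sum]
      refine Finset.sum_congr rfl fun p _ => ?_
      rw [Finset.prod_mul_distrib]
      congr 1
      by_cases hx : x ∈ ⋂ i, T^[g n i] ⁻¹' (f i ⁻¹' {p i})
      · rw [Set.indicator_of_mem hx]
        refine Finset.prod_eq_one fun i _ => ?_
        have hi : T^[g n i] x ∈ f i ⁻¹' {p i} := Set.mem_iInter.1 hx i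
        exact Set.indicator_of_mem hi _
      · rw [Set.indicator_of_notMem hx]
        obtain ⟨i, hi⟩ := not_forall.1 (fun h' => hx (Set.mem_iInter.2 h'))
        have hi' : T^[g n i] x ∉ f i ⁻¹' {p i} := hi
        exact Finset.prod_eq_zero (Finset.mem_univ i) (Set.indicator_of_notMem hi' _)
    rw [integral_congr_ae (Eventually.of_forall h3), integral_finsetSum]
    · refine Finset.sum_congr rfl fun p _ => ?_
      rw [integral_const_mul, int_ind (hm' p)]
    · intro p _
      exact (ind_integrable (hm' p)).const_mul _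
  simp only [h1, h2]
  rw [Finset.prod_univ_sum]
  refine tendsto_finsetSum _ fun p _ => ?_
  rw [Finset.prod_mul_distrib]
  refine Tendsto.const_mul _ ?_
  have h4 := h.tendsto_set l g hg (fun i => f i ⁻¹' {p i}) fun i => hm i _
  have h5 := (Complex.continuous_ofReal.tendsto _).comp h4
  rw [Complex.ofReal_prod] at h5
  exact h5

/-- the statement in the form of the target theorem (gaps `n j ≥ L` make the times `L`-separated;
pass from `μ.real` to `μ` with `ENNReal.tendsto_toReal_iff`) -/
lemma Mix.tendsto_gaps {k : ℕ} (h : Mix μ T (Fin (k + 1))) (A : Fin (k + 1) → Set X)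
    (hA : ∀ i, MeasurableSet (A i)) :
    Tendsto (fun n : Fin k → ℕ =>
        μ (⋂ i : Fin (k + 1), (T^[∑ j : Fin k, if (j : ℕ) < (i : ℕ) then n j else 0]) ⁻¹' A i))
      atTop (𝓝 (∏ i, μ (A i))) := by
  have h1 := h.tendsto_set (atTop : Filter (Fin k → ℕ))
    (fun n i => ∑ j : Fin k, if (j : ℕ) < (i : ℕ) then n j else 0) (by
      intro L
      filter_upwards [eventually_ge_atTop (fun _ : Fin k => L)] with n hn
      have key : ∀ i i' : Fin (k + 1), i < i' →
          (∑ j : Fin k, if (j : ℕ) < (i : ℕ) then n j else 0) + L ≤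
            ∑ j : Fin k, if (j : ℕ) < (i' : ℕ) then n j else 0 := by
        intro i i' hi
        have hik : (i : ℕ) < k := by have := i'.2; have : (i : ℕ) < i' := hi; omega
        have h2 : L ≤ ∑ j : Fin k, if j = ⟨i, hik⟩ then n j else 0 := by
          simpa using hn ⟨i, hik⟩
        refine (Nat.add_le_add_left h2 _).trans ?_
        rw [← Finset.sum_add_distrib]
        refine Finset.sum_le_sum fun j _ => ?_
        have hi' : (i : ℕ) < i' := hi
        by_cases hj : j = ⟨i, hik⟩
        · subst hj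
          simp [hi']
        · by_cases hj' : (j : ℕ) < i
          · have : (j : ℕ) < i' := by omega
            simp [hj, hj', this]
          · simp [hj, hj']
      intro i j hij
      rcases lt_or_gt_of_ne hij with h | h
      · rw [abs_sub_comm]
        refine le_trans ?_ (le_abs_self _)
        have := key i j h
        omega
      · refine le_trans ?_ (le_abs_self _)
        have := key j i h
        omega) A hA
  rw [← ENNReal.tendsto_toReal_iff (fun _ => measure_ne_top _ _)
    (ENNReal.prod_ne_top fun i _ => measure_ne_top _ _), ENNReal.toReal_prod]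
  exact h1

end Crest.Agent.R69
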