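import Crest.Agent.R69.Cyl

/-!
# R69: construction of the array measure

(Proved.)

`Om ι` is compact metrizable, so `ProbabilityMeasure (Om ι)` is compact (Prokhorov,
`Mathlib/MeasureTheory/Measure/Prokhorov.lean`), every ultrafilter on it converges
(`Ultrafilter.lim`, `Ultrafilter.le_nhds_lim`), and integrals of cylinder functions (continuous,
bounded: `Cyl.continuous`) are continuous in the measure
(`ProbabilityMeasure.tendsto_iff_forall_integral_tendsto`, real and imaginary parts, or the `RCLike`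
version).

* For a list `l` of coordinates define `M [] = m0`, `M (c :: l) = lim_{n → p} (M l).map (· ∘ sub (g n) c)`,
  and `MS S = M (S.sort (· ≤ ·))` for a finset `S`; if `c` is the least element of `S` then
  `MS S = lim_p (MS (S.erase c)).map (· ∘ sub (g n) c)`.
* Consistency: if `f` depends on `s` and `act s ⊆ S ∩ S'` then `∫ f dMS S = ∫ f dMS S'`.  Induction on
  `#S + #S'`, with `c` the least element of `S ∪ S'`: if `c ∉ S'` then `c` is not active,
  `f (ω ∘ sub _ c) = f ω` and `∫ f dMS S = ∫ f dMS (S.erase c)`; if `c ∈ S ∩ S'` apply the induction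
  hypothesis to `f (· ∘ sub (g n) c)`, which depends on `s.image (sub (g n) c)` whose active
  coordinates lie in `act s \ {c}`.
* `m` = limit of `MS S` along an ultrafilter `≤ atTop` on `Finset ℚ`; `∫ f dm = ∫ f dMS S` whenever
  `act s ⊆ S`.  `Fub`: take `S = insert c (act s)`, whose least element is `c`.  The last claim is
  `S = ∅`.
-/

set_option autoImplicit false
set_option linter.unusedSectionVars false
open MeasureTheory ProbabilityTheory Filter Topology
open scoped ComplexConjugate

namespace Crest.Agent.R69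

variable {ι : Type} [Fintype ι] [DecidableEq ι]

namespace ModelAux

/-- limit of probability measures along an ultrafilter -/
noncomputable def ul {κ : Type} (q : Ultrafilter κ) (μ : κ → ProbabilityMeasure (Om ι)) :
    ProbabilityMeasure (Om ι) := (q.map μ).lim

lemma tendsto_ul {κ : Type} (q : Ultrafilter κ) (μ : κ → ProbabilityMeasure (Om ι))
    {f : Om ι → ℂ} {s : Finset (P ι)} (hf : DependsOn f (s : Set (P ι))) :
    Tendsto (fun n => ∫ ω, f ω ∂(μ n : Measure (Om ι))) q
      (𝓝 (∫ ω, f ω ∂(ul q μ : Measure (Om ι)))) := by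
  have h1 : Tendsto μ q (𝓝 (ul q μ)) := Ultrafilter.le_nhds_lim (q.map μ)
  have hc : Continuous f := Cyl.continuous (X := Set.univ) ⟨s, Set.subset_univ _, hf⟩
  exact (ProbabilityMeasure.tendsto_iff_forall_integral_rclike_tendsto ℂ).1 h1
    (BoundedContinuousFunction.mkOfCompact ⟨f, hc⟩)

/-- the iterated limit along a list of coordinates -/
noncomputable def ML (g : ℕ → ι → ℕ) (p : Ultrafilter ℕ) (m0 : ProbabilityMeasure (Om ι)) :
    List ℚ → ProbabilityMeasure (Om ι)
  | [] => m0
  | c :: l => ul p fun n =>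
      (ML g p m0 l).map (measurable_comp_pos' (sub (g n) c)).aemeasurable

variable (g : ℕ → ι → ℕ) (p : Ultrafilter ℕ) (m0 : ProbabilityMeasure (Om ι))

lemma tendsto_cons (c : ℚ) (l : List ℚ) {f : Om ι → ℂ} {s : Finset (P ι)}
    (hf : DependsOn f (s : Set (P ι))) :
    Tendsto (fun n => ∫ ω, f (ω ∘ sub (g n) c) ∂(ML g p m0 l : Measure (Om ι))) p
      (𝓝 (∫ ω, f ω ∂(ML g p m0 (c :: l) : Measure (Om ι)))) := by
  have h := tendsto_ul p (fun n =>
      (ML g p m0 l).map (measurable_comp_pos' (sub (g n) c)).aemeasurable) hf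
  refine h.congr fun n => ?_
  have hc : Continuous f := Cyl.continuous (X := Set.univ) ⟨s, Set.subset_univ _, hf⟩
  rw [ProbabilityMeasure.toMeasure_map,
    integral_map (measurable_comp_pos' (sub (g n) c)).aemeasurable hc.aestronglyMeasurable]

lemma drop (c : ℚ) (l : List ℚ) {f : Om ι → ℂ} {s : Finset (P ι)}
    (hf : DependsOn f (s : Set (P ι))) (hc : c ∉ act s) :
    ∫ ω, f ω ∂(ML g p m0 (c :: l) : Measure (Om ι)) = ∫ ω, f ω ∂(ML g p m0 l : Measure (Om ι)) := by
  have h := tendsto_cons g p m0 c l hf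
  have e : ∀ n ω, f (ω ∘ sub (g n) c) = f ω := fun n ω =>
    DependsOn.comp_fix hf (fun v hv => sub_eq_self (g n) (by
      by_contra h0
      exact hc (mem_act.2 ⟨v, hv, h0⟩))) ω
  simp only [e] at h
  exact tendsto_nhds_unique h tendsto_const_nhds

lemma act_sub (x : ι → ℕ) (c : ℚ) (s : Finset (P ι)) :
    act (s.image (sub x c)) ⊆ (act s).erase c := by
  intro y hy
  obtain ⟨v, hv, h0⟩ := mem_act.1 hy
  obtain ⟨w, hw, rfl⟩ := Finset.mem_image.1 hv
  rw [sub_snd] at h0
  have hyc : y ≠ c := by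
    rintro rfl
    exact h0 Finsupp.erase_same
  rw [Finsupp.erase_ne hyc] at h0
  exact Finset.mem_erase.2 ⟨hyc, mem_act.2 ⟨w, hw, h0⟩⟩

lemma filt (A : Finset ℚ) (l : List ℚ) : ∀ {f : Om ι → ℂ} {s : Finset (P ι)},
    DependsOn f (s : Set (P ι)) → act s ⊆ A →
    ∫ ω, f ω ∂(ML g p m0 l : Measure (Om ι))
      = ∫ ω, f ω ∂(ML g p m0 (l.filter fun y => decide (y ∈ A)) : Measure (Om ι)) := by
  induction l with
  | nil => intro f s _ _; rfl
  | cons c l ih =>
    intro f s hf hA
    by_cases hc : c ∈ A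
    · rw [List.filter_cons_of_pos (by simpa using hc)]
      have h1 := tendsto_cons g p m0 c l hf
      have h2 := tendsto_cons g p m0 c (l.filter fun y => decide (y ∈ A)) hf
      refine tendsto_nhds_unique h1 (h2.congr fun n => ?_)
      exact (ih (DependsOn.comp_pos hf (sub (g n) c))
        ((act_sub (g n) c s).trans ((Finset.erase_subset _ _).trans hA))).symm
    · rw [List.filter_cons_of_neg (by simpa using hc), drop g p m0 c l hf fun h => hc (hA h)]
      exact ih hf hA

lemma filter_sort {A S : Finset ℚ} (h : A ⊆ S) :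
    ((S.sort (· ≤ ·)).filter fun y => decide (y ∈ A)) = A.sort (· ≤ ·) := by
  refine List.Perm.eq_of_pairwise' (r := (· ≤ ·)) ((S.pairwise_sort _).filter _)
    (A.pairwise_sort _) ?_
  refine (List.perm_ext_iff_of_nodup ((S.sort_nodup _).filter _) (A.sort_nodup _)).2 fun y => ?_
  simp only [List.mem_filter, Finset.mem_sort, decide_eq_true_eq]
  exact ⟨fun hy => hy.2, fun hy => ⟨h hy, hy⟩⟩

/-- the array measure -/
noncomputable def MM : ProbabilityMeasure (Om ι) :=
  ul (Ultrafilter.of (atTop : Filter (Finset ℚ))) fun S => ML g p m0 (S.sort (· ≤ ·))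

lemma integral_MM (A : Finset ℚ) {f : Om ι → ℂ} {s : Finset (P ι)}
    (hf : DependsOn f (s : Set (P ι))) (hA : act s ⊆ A) :
    ∫ ω, f ω ∂(MM g p m0 : Measure (Om ι))
      = ∫ ω, f ω ∂(ML g p m0 (A.sort (· ≤ ·)) : Measure (Om ι)) := by
  have h := tendsto_ul (Ultrafilter.of (atTop : Filter (Finset ℚ)))
    (fun S => ML g p m0 (S.sort (· ≤ ·))) hf
  refine tendsto_nhds_unique h (tendsto_const_nhds.congr' ?_)
  have hev : ∀ᶠ S in (Ultrafilter.of (atTop : Filter (Finset ℚ)) : Filter (Finset ℚ)), A ≤ S :=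
    (Ultrafilter.of_le atTop) (eventually_ge_atTop A)
  filter_upwards [hev] with S hS
  rw [filt g p m0 A (S.sort (· ≤ ·)) hf hA, filter_sort hS]

end ModelAux

open ModelAux in
theorem exists_model (g : ℕ → ι → ℕ) (p : Ultrafilter ℕ) (m0 : Measure (Om ι))
    [IsProbabilityMeasure m0] :
    ∃ m : Measure (Om ι), IsProbabilityMeasure m ∧ Fub g p m ∧
      ∀ f : Om ι → ℂ, Cyl (PS ∅) f → ∫ ω, f ω ∂m = ∫ ω, f ω ∂m0 := by
  set m1 : ProbabilityMeasure (Om ι) := ⟨m0, inferInstance⟩ with hm1
  refine ⟨(MM g p m1 : Measure (Om ι)), inferInstance, ?_, ?_⟩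
  · intro c s hs f hf
    have hA : act s ⊆ insert c ((act s).erase c) := Finset.subset_insert_iff.2 subset_rfl
    have hle : ∀ b ∈ (act s).erase c, c ≤ b := by
      intro b hb
      obtain ⟨v, hv, h0⟩ := mem_act.1 (Finset.mem_of_mem_erase hb)
      by_contra hlt
      exact h0 (hs v hv b (not_le.1 hlt))
    rw [integral_MM g p m1 _ hf hA,
      Finset.sort_insert (r := (· ≤ ·)) hle (Finset.notMem_erase c (act s))]
    refine (tendsto_cons g p m1 c _ hf).congr fun n => ?_
    exact (integral_MM g p m1 _ (DependsOn.comp_pos hf (sub (g n) c)) (act_sub (g n) c s)).symm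
  · rintro f ⟨s, hs, hf⟩
    have hA : act s ⊆ ∅ := by
      intro y hy
      obtain ⟨v, hv, h0⟩ := mem_act.1 hy
      exact absurd (hs hv y (by simp)) h0
    rw [integral_MM g p m1 ∅ hf hA, Finset.sort_empty]
    rfl

end Crest.Agent.R69
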