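import Crest.Agent.R69.Sym

/-!
# R69: the Cauchy–Schwarz step and independence of array points

-/

set_option autoImplicit false
set_option linter.unusedSectionVars false
open MeasureTheory ProbabilityTheory Filter Topology
open scoped ComplexConjugate

namespace Crest.Agent.R69

variable {ι : Type} [Fintype ι] [DecidableEq ι] {g : ℕ → ι → ℕ} {p : Ultrafilter ℕ}
  {m : Measure (Om ι)} [IsProbabilityMeasure m]

lemma sq_cyl_mul {f f' : Om ι → ℂ} (hf : Cyl Set.univ f) (hf' : Cyl Set.univ f') :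
    Cyl Set.univ (fun ω => f ω * f' ω) := Cyl.map₂ hf hf' (· * ·)

lemma sq_cyl_conj {f : Om ι → ℂ} (hf : Cyl Set.univ f) :
    Cyl Set.univ (fun ω => conj (f ω)) := hf.map fun z => conj z

/-- an infinite orthogonal family of constant norm has no constant nonzero correlation -/
lemma sq_orth_zero (O : ℕ → Om ι → ℂ) (u : Om ι → ℂ) (hO : ∀ a, Cyl Set.univ (O a))
    (hu : Cyl Set.univ u) (A I : ℂ) (hA : ∀ a, ∫ ω, O a ω * conj (O a ω) ∂m = A)
    (h0 : ∀ a b, a ≠ b → ∫ ω, O a ω * conj (O b ω) ∂m = 0)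
    (hI : ∀ a, ∫ ω, O a ω * u ω ∂m = I) : I = 0 := by
  have key : ∀ (N : ℕ) (ε : ℝ), 0 < ε →
      (N : ℝ) * ‖I‖ ≤ ε * (N * ‖A‖) + (∫ ω, ‖u ω‖ ^ 2 ∂m) / ε := by
    intro N ε hε
    set S : Om ι → ℂ := fun ω => ∑ a ∈ Finset.range N, O a ω with hS
    have hSc : Cyl Set.univ S := Cyl.sum _ fun a _ => hO a
    have h1 : ∫ ω, S ω * u ω ∂m = N * I := by
      simp only [hS, Finset.sum_mul]
      rw [integral_finsetSum _ fun a _ => (sq_cyl_mul (hO a) hu).integrable m]
      simp [hI]
    have h2 : ∫ ω, S ω * conj (S ω) ∂m = N * A := by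
      simp only [hS, map_sum, Finset.sum_mul_sum]
      rw [integral_finsetSum _ fun a _ =>
        (Cyl.sum _ fun b _ => sq_cyl_mul (hO a) (sq_cyl_conj (hO b))).integrable m]
      rw [Finset.sum_congr rfl (g := fun _ => A)]
      · simp
      · intro a ha
        rw [integral_finsetSum _ fun b _ => (sq_cyl_mul (hO a) (sq_cyl_conj (hO b))).integrable m,
          Finset.sum_eq_single a (fun b _ hb => h0 a b hb.symm) (fun h => absurd ha h), hA]
    have h3 : ∫ ω, ‖S ω‖ ^ 2 ∂m ≤ N * ‖A‖ := by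
      have : ((∫ ω, ‖S ω‖ ^ 2 ∂m : ℝ) : ℂ) = N * A := by
        rw [← h2, ← integral_complex_ofReal]
        refine integral_congr_ae (Eventually.of_forall fun ω => ?_)
        simp only [Complex.mul_conj, Complex.normSq_eq_norm_sq]
      have h4 := congrArg (fun z : ℂ => ‖z‖) this
      simp only [Complex.norm_real, norm_mul, Complex.norm_natCast] at h4
      rw [← h4]
      exact le_abs_self _
    have i1 : Integrable (fun ω => ‖S ω‖ ^ 2) m := (hSc.map fun z => ‖z‖ ^ 2).integrable m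
    have i2 : Integrable (fun ω => ‖u ω‖ ^ 2) m := (hu.map fun z => ‖z‖ ^ 2).integrable m
    calc (N : ℝ) * ‖I‖ = ‖∫ ω, S ω * u ω ∂m‖ := by rw [h1]; simp
      _ ≤ ∫ ω, (ε * ‖S ω‖ ^ 2 + ‖u ω‖ ^ 2 / ε) ∂m := by
        refine norm_integral_le_of_norm_le ((i1.const_mul ε).add (i2.div_const ε))
          (Eventually.of_forall fun ω => ?_)
        rw [norm_mul]
        have e : ε * ‖S ω‖ ^ 2 + ‖u ω‖ ^ 2 / ε - ‖S ω‖ * ‖u ω‖ =
            ((ε * ‖S ω‖ - ‖u ω‖) ^ 2 + ε * ‖S ω‖ * ‖u ω‖) / ε := by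
          field_simp; ring
        have : 0 ≤ ((ε * ‖S ω‖ - ‖u ω‖) ^ 2 + ε * ‖S ω‖ * ‖u ω‖) / ε := by positivity
        linarith
      _ = ε * ∫ ω, ‖S ω‖ ^ 2 ∂m + (∫ ω, ‖u ω‖ ^ 2 ∂m) / ε := by
        rw [integral_add (i1.const_mul ε) (i2.div_const ε), integral_const_mul, integral_div]
      _ ≤ _ := by gcongr
  by_contra hI0
  have hδ : 0 < ‖I‖ := norm_pos_iff.2 hI0
  set ε : ℝ := ‖I‖ / (2 * (‖A‖ + 1)) with hε
  have hε0 : 0 < ε := by positivity
  have hεA : ε * ‖A‖ ≤ ‖I‖ / 2 := by
    rw [hε, div_mul_eq_mul_div, div_le_div_iff₀ (by positivity) (by norm_num)]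
    nlinarith [norm_nonneg A]
  obtain ⟨N, hN⟩ := exists_nat_gt ((∫ ω, ‖u ω‖ ^ 2 ∂m) / ε / (‖I‖ / 2))
  rw [div_lt_iff₀ (by positivity)] at hN
  have := key N ε hε0
  have h5 : ε * (N * ‖A‖) ≤ N * (‖I‖ / 2) := by
    rw [mul_left_comm]
    exact mul_le_mul_of_nonneg_left hεA (Nat.cast_nonneg N)
  linarith

lemma sq_dep_mul {s s' : Finset (P ι)} {f f' : Om ι → ℂ} (hf : DependsOn f (s : Set (P ι)))
    (hf' : DependsOn f' (s' : Set (P ι))) (F : ℂ → ℂ → ℂ) :
    DependsOn (fun ω => F (f ω) (f' ω)) ((s ∪ s' : Finset (P ι)) : Set (P ι)) := by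
  intro x y h
  have h1 : f x = f y := hf fun v hv => h v (by simp [Finset.mem_coe.1 hv])
  have h2 : f' x = f' y := hf' fun v hv => h v (by simp [Finset.mem_coe.1 hv])
  simp only [h1, h2]

lemma sq_piv_piv {c c' c₁ : ℚ} (h1 : c' < c₁) (h2 : c₁ < c) (x : ι → ℤ) {v : P ι}
    (hv : v.2 c₁ = 0) : piv c₁ c' 0 (piv c c₁ x v) = piv c c' x v := by
  have h3 : c' < c := h1.trans h2
  ext1
  · rfl
  · ext1 y
    by_cases hy : y = c₁
    · subst hy
      rw [piv_self h1.ne, piv_other h2.ne h1.ne', hv]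
    · by_cases hy' : y = c'
      · subst hy'
        rw [piv_new h1.ne, piv_new h2.ne, piv_new h3.ne, piv_other h3.ne h1.ne, hv]
        simp
      · rw [piv_other hy hy']
        by_cases hyc : y = c
        · subst hyc
          rw [piv_self h2.ne, piv_self h3.ne]
        · rw [piv_other hyc hy, piv_other hyc hy']

/-- Cauchy–Schwarz elimination: if `∫ O · conj (O ∘ piv) = 0` then `∫ O u = 0` for every `u` living on
the slice `v.2 c = x`.
Choose `c' < c₀ < c₁ < … < c` (e.g. `c_a = c - (c - c') / (a + 2)`) and put `O_a = O (· ∘ piv c c_a x)`.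
* `∫ O_a u = ∫ O u` (`lp_piv`; `piv` fixes the support of `u`: `piv_eq_self`, `DependsOn.comp_fix`).
* for `a < b`: `∫ O_b conj O_a = ∫ O conj O_a` (apply `lp_piv` with `piv c c_b x` to `O conj O_a`;
  `piv c c_b x (piv c c_a x v) = piv c c_a x v` because the component at `c` is `x`), and
  `∫ O conj O_a = ∫ O conj O'` with `O' = O (· ∘ piv c c' x)` (apply `lp_piv` with `piv c_a c' 0`: it fixes
  the support of `O` and maps `piv c c_a x v` to `piv c c' x v`); `∫ ‖O_a‖² = ∫ ‖O‖²`.
* so the `O_a` are orthogonal, and `N ‖∫ O u‖ = ‖∫ (∑_{a<N} O_a) u‖ ≤ √(N ∫‖O‖²) √(∫‖u‖²)`. -/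
theorem IsModel.sq_elim (h : IsModel g p m) {c c' : ℚ} (hc : c' < c) (x : ι → ℤ)
    {s s' : Finset (P ι)} {O u : Om ι → ℂ} (hO : DependsOn O (s : Set (P ι)))
    (hu : DependsOn u (s' : Set (P ι))) (hx : ∀ v ∈ s', v.2 c = x)
    (hs : ∀ v ∈ s ∪ s', ∀ y, y < c → v.2 y ≠ 0 → y < c')
    (h0 : ∫ ω, O ω * conj (O (ω ∘ piv c c' x)) ∂m = 0) : ∫ ω, O ω * u ω ∂m = 0 := by
  classical
  obtain ⟨cs, hmono, hcs⟩ : ∃ cs : ℕ → ℚ, StrictMono cs ∧ ∀ a, c' < cs a ∧ cs a < c := by
    have hd : 0 < c - c' := sub_pos.2 hc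
    refine ⟨fun a => c - (c - c') / (a + 2), fun a b hab => ?_, fun a => ⟨?_, ?_⟩⟩
    · have : (a : ℚ) < b := by exact_mod_cast hab
      have : (c - c') / (b + 2) < (c - c') / (a + 2) := by
        gcongr
      linarith
    · have : (c - c') / (a + 2) < c - c' := by
        rw [div_lt_iff₀ (by positivity)]
        nlinarith [(Nat.cast_nonneg a : (0 : ℚ) ≤ a)]
      show c' < c - (c - c') / (a + 2)
      linarith
    · have : 0 < (c - c') / (a + 2) := by positivity
      show c - (c - c') / (a + 2) < c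
      linarith
  have hs1 : ∀ v ∈ s, ∀ y, y < c → v.2 y ≠ 0 → y < c' := fun v hv =>
    hs v (Finset.mem_union_left _ hv)
  have hOc : Cyl Set.univ O := ⟨s, Set.subset_univ _, hO⟩
  have huc : Cyl Set.univ u := ⟨s', Set.subset_univ _, hu⟩
  have hlt : ∀ a b, a < b →
      ∫ ω, O (ω ∘ piv c (cs b) x) * conj (O (ω ∘ piv c (cs a) x)) ∂m = 0 := by
    intro a b hab
    have hdep := sq_dep_mul hO (DependsOn.comp_pos hO (piv c (cs a) x)) (fun z w => z * conj w)
    have e1 := h.lp_piv (hcs b).2 x (s ∪ s.image (piv c (cs a) x)) ?_ _ hdep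
    have e2 := h.lp_piv (hcs a).1 0 (s ∪ s.image (piv c (cs a) x)) ?_ _ hdep
    · rw [← h0]
      refine Eq.trans ?_ (e1.trans (e2.symm.trans ?_))
      · refine integral_congr_ae (Eventually.of_forall fun ω => ?_)
        dsimp only
        congr 3
        funext v
        simp only [Function.comp_apply]
        rw [piv_eq_self (piv_self (hcs a).2.ne x v)]
      · have hz : ∀ v ∈ s, v.2 (cs a) = 0 := fun v hv => by
          by_contra h'
          exact lt_asymm (hcs a).1 (hs1 v hv _ (hcs a).2 h')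
        refine integral_congr_ae (Eventually.of_forall fun ω => ?_)
        dsimp only
        rw [DependsOn.comp_fix hO (fun v hv => piv_eq_self (hz v hv)), Function.comp_assoc,
          DependsOn.comp_congr hO (φ := piv (cs a) c' 0 ∘ piv c (cs a) x) (ψ := piv c c' x)
            (fun v hv => sq_piv_piv (hcs a).1 (hcs a).2 x (hz v hv))]
    · intro v hv y hy hy0
      rcases Finset.mem_union.1 hv with hv | hv
      · exact hs1 v hv y (hy.trans (hcs a).2) hy0
      · obtain ⟨w, hw, rfl⟩ := Finset.mem_image.1 hv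
        rw [piv_other (hy.trans (hcs a).2).ne hy.ne] at hy0
        exact hs1 w hw y (hy.trans (hcs a).2) hy0
    · intro v hv y hy hy0
      rcases Finset.mem_union.1 hv with hv | hv
      · exact (hs1 v hv y hy hy0).trans (hcs b).1
      · obtain ⟨w, hw, rfl⟩ := Finset.mem_image.1 hv
        by_cases hya : y = cs a
        · rw [hya]; exact hmono hab
        · rw [piv_other hy.ne hya] at hy0
          exact (hs1 w hw y hy hy0).trans (hcs b).1
  refine sq_orth_zero (m := m) (fun a ω => O (ω ∘ piv c (cs a) x)) u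
    (fun a => hOc.comp_pos (Set.mapsTo_univ _ _)) huc (∫ ω, O ω * conj (O ω) ∂m) _
    (fun a => ?_) (fun a b hab => ?_) (fun a => ?_)
  · exact h.lp_piv (hcs a).2 x (s ∪ s)
      (fun v hv y hy hy0 => (hs1 v (by simpa using hv) y hy hy0).trans (hcs a).1) _
      (sq_dep_mul hO hO fun z w => z * conj w)
  · rcases lt_or_gt_of_ne hab with hab | hab
    · have := congrArg conj (hlt a b hab)
      rw [← integral_conj, map_zero] at this
      rw [← this]
      refine integral_congr_ae (Eventually.of_forall fun ω => ?_)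
      simp [mul_comm]
    · exact hlt b a hab
  · refine Eq.trans ?_ (h.lp_piv (hcs a).2 x (s ∪ s')
      (fun v hv y hy hy0 => (hs v hv y hy hy0).trans (hcs a).1) _
      (sq_dep_mul hO hu fun z w => z * w))
    refine integral_congr_ae (Eventually.of_forall fun ω => ?_)
    dsimp only
    rw [DependsOn.comp_fix hu (fun v hv => piv_eq_self (hx v hv))]

/-- the position with digit `d c` at each coordinate `c ∈ C` -/
noncomputable def pos (C : Finset ℚ) (d : ℚ → ι) : P ι := ∑ c ∈ C, gam c (dl (d c))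

lemma pos_fst (C : Finset ℚ) (d : ℚ → ι) : (pos C d).1 = 0 := by
  simp [pos, Prod.fst_sum]
lemma pos_apply (C : Finset ℚ) (d : ℚ → ι) (y : ℚ) :
    (pos C d).2 y = if y ∈ C then dl (d y) else 0 := by
  simp only [pos, Prod.snd_sum, gam_snd, Finsupp.coe_finsetSum, Finset.sum_apply,
    Finsupp.single_apply]
  rw [Finset.sum_ite_eq']

/-- Array points with distinct digit vectors that avoid one digit `o c` in each coordinate are
independent.  Induction on `C` from the top (`Finset.induction_on_max`, generalising `E`): with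
`c = max`, group the points by `d e c` (`Finset.prod_fiberwise_of_maps_to`), apply `top_prod` with
`U = univ.erase (o c)` to `f i = ∏_{e : d e c = i} b e ∘ tr (pos C' (d e))`, then the induction hypothesis
to each group.  For `C = ∅`, `E` has at most one element. -/
theorem IsModel.arr_indep (h : IsModel g p m) {η : Type} (a : ℚ) (C : Finset ℚ) (hC : ∀ c ∈ C, a < c)
    (o : ℚ → ι) (E : Finset η) (d : η → ℚ → ι) (hd : ∀ e ∈ E, ∀ c ∈ C, d e c ≠ o c)
    (hinj : ∀ e ∈ E, ∀ e' ∈ E, (∀ c ∈ C, d e c = d e' c) → e = e')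
    (b : η → Om ι → ℂ) (hb : ∀ e ∈ E, Cyl (PS (Set.Iic a)) (b e)) :
    ∫ ω, ∏ e ∈ E, b e (tr (pos C (d e)) ω) ∂m = ∏ e ∈ E, ∫ ω, b e ω ∂m := by
  classical
  induction C using Finset.induction_on_max generalizing E with
  | empty =>
    rcases E.eq_empty_or_nonempty with rfl | ⟨e, he⟩
    · simp
    · obtain rfl : E = {e} :=
        Finset.eq_singleton_iff_unique_mem.2 ⟨he, fun e' he' => hinj e' he' e he (by simp)⟩
      simp [pos]
  | insert c C hcC ih =>
    have hc : c ∉ C := fun h' => lt_irrefl _ (hcC c h')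
    have hac : a < c := hC c (Finset.mem_insert_self _ _)
    have hU : (Finset.univ.erase (o c) : Finset ι) ≠ Finset.univ := fun h' =>
      Finset.notMem_erase (o c) Finset.univ (h'.symm ▸ Finset.mem_univ _)
    have hmap : ∀ e ∈ E, d e c ∈ Finset.univ.erase (o c) := fun e he =>
      Finset.mem_erase.2 ⟨hd e he c (Finset.mem_insert_self _ _), Finset.mem_univ _⟩
    have key := h.top_prod hU c
      (fun i ω => ∏ e ∈ E.filter (fun e => d e c = i), b e (tr (pos C (d e)) ω)) (fun i => ?_)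
    · rw [← Finset.prod_fiberwise_of_maps_to hmap (f := fun e => ∫ ω, b e ω ∂m)]
      refine Eq.trans ?_ (key.trans (Finset.prod_congr rfl fun i _ => ?_))
      · refine integral_congr_ae (Eventually.of_forall fun ω => ?_)
        dsimp only
        rw [← Finset.prod_fiberwise_of_maps_to hmap]
        refine Finset.prod_congr rfl fun i _ => Finset.prod_congr rfl fun e he => ?_
        rw [tr_tr, ← (Finset.mem_filter.1 he).2, pos, Finset.sum_insert hc, add_comm]
        rfl
      · refine ih (fun y hy => hC y (Finset.mem_insert_of_mem hy)) _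
          (fun e he y hy => hd e (Finset.mem_filter.1 he).1 y (Finset.mem_insert_of_mem hy))
          (fun e he e' he' H => ?_) (fun e he => hb e (Finset.mem_filter.1 he).1)
        refine hinj e (Finset.mem_filter.1 he).1 e' (Finset.mem_filter.1 he').1 fun y hy => ?_
        rcases Finset.mem_insert.1 hy with rfl | hy
        · rw [(Finset.mem_filter.1 he).2, (Finset.mem_filter.1 he').2]
        · exact H y hy
    · refine Cyl.prod _ fun e he => (hb e (Finset.mem_filter.1 he).1).tr fun v hv y hy => ?_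
      have hy : c ≤ y := not_lt.1 hy
      have h1 : v.2 y = 0 := hv y (not_le.2 (hac.trans_le hy))
      have h2 : y ∉ C := fun h' => absurd (hcC y h') (not_lt.2 hy)
      rw [Prod.snd_add, Finsupp.add_apply, pos_apply, if_neg h2, h1, add_zero]

end Crest.Agent.R69
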