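import Crest.Agent.R69.Main
import Crest.Agent.R69.Model
import Crest.Agent.R69.Mix

/-!
# R69: the induction step

Suppose `Mix` fails for `A`, `ε`: choose `g L` for every `L`.  Let `p = hyperfilter ℕ`
(`Nat.hyperfilter_le_atTop`), `code x = fun v i => decide ((T.toEquiv ^ v.1) x ∈ A i)` (classical; measurable
since integer powers of `T` are), `m0 = μ.map code`, `m` from `exists_model g p m0`.  Then
`tr (zp n) (code x) = code ((T.toEquiv ^ n) x)`, all integer powers of `T` preserve `μ`, and for
`Cyl (PS ∅) f` the function `f ∘ code` is measurable with finite range.  `IsModel.mixk` for `U ≠ univ` is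
`Mix.tendsto_fun` for the index type `U` (`Mix.of_card_le`, `Finset.prod_coe_sort`), `mix2` is
`Mix.tendsto_fun` for `Fin 2` with `g n = ![n, 0]`.  Finally `IsModel.indep_all` for
`f i ω = if ω 0 i then 1 else 0` says `μ.real (⋂ i, T^[g n i] ⁻¹' A i) → ∏ i, μ.real (A i)` along `p`,
a contradiction.
-/

set_option autoImplicit false
open MeasureTheory ProbabilityTheory Filter Topology

namespace Crest.Agent.R69

variable {X : Type*} [MeasurableSpace X] {μ : Measure X} [IsProbabilityMeasure μ]

omit [IsProbabilityMeasure μ] in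
lemma step_mp_zpow (T : X ≃ᵐ X) (hT : MeasurePreserving T μ μ) (n : ℤ) :
    MeasurePreserving (T.toEquiv ^ n : Equiv.Perm X) μ μ := by
  induction n using Int.induction_on with
  | zero => simpa using MeasurePreserving.id μ
  | succ n ih =>
    rw [zpow_add_one, Equiv.Perm.coe_mul]
    exact ih.comp hT
  | pred n ih =>
    rw [zpow_sub_one, Equiv.Perm.coe_mul]
    exact ih.comp (hT.symm T)

open Classical in
/-- the symbolic coding -/
noncomputable def stepCode {ι : Type} (T : X ≃ᵐ X) (A : ι → Set X) (x : X) : Om ι :=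
  fun v i => decide ((T.toEquiv ^ v.1 : Equiv.Perm X) x ∈ A i)

lemma stepCode_tr {ι : Type} (T : X ≃ᵐ X) (A : ι → Set X) (n : ℤ) (x : X) :
    tr (zp n) (stepCode T A x) = stepCode T A ((T.toEquiv ^ n : Equiv.Perm X) x) := by
  funext v i
  have : (T.toEquiv ^ (v.1 + n) : Equiv.Perm X) x =
      (T.toEquiv ^ v.1 : Equiv.Perm X) ((T.toEquiv ^ n : Equiv.Perm X) x) := by
    rw [zpow_add, Equiv.Perm.mul_apply]
  exact congrArg (fun y => @decide (y ∈ A i) (Classical.propDecidable _)) this

lemma stepCode_tr_nat {ι : Type} (T : X ≃ᵐ X) (A : ι → Set X) (n : ℕ) (x : X) :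
    tr (zp n) (stepCode T A x) = stepCode T A (T^[n] x) := by
  rw [stepCode_tr, zpow_natCast, Equiv.Perm.coe_pow]
  rfl

omit [IsProbabilityMeasure μ] in
lemma measurable_stepCode {ι : Type} (T : X ≃ᵐ X) (hT : MeasurePreserving T μ μ) (A : ι → Set X)
    (hA : ∀ i, MeasurableSet (A i)) : Measurable (stepCode T A) := by
  refine measurable_pi_iff.2 fun v => measurable_pi_iff.2 fun i => measurable_to_bool ?_
  convert (step_mp_zpow T hT v.1).measurable (hA i) using 1
  ext x
  simp [stepCode]

theorem mix_step (T : X ≃ᵐ X) (hT : MeasurePreserving T μ μ) (k : ℕ) (h : Mix μ T (Fin (k + 2))) :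
    Mix μ T (Fin (k + 3)) := by
  classical
  intro A hA ε hε
  by_contra hcon
  push Not at hcon
  choose g hg hbad using hcon
  have hcm := measurable_stepCode T hT A hA
  have : IsProbabilityMeasure (μ.map (stepCode T A)) := Measure.isProbabilityMeasure_map hcm.aemeasurable
  obtain ⟨m, hm, hFub, hint0⟩ := exists_model g (hyperfilter ℕ) (μ.map (stepCode T A))
  have hmeas : ∀ f : Om (Fin (k + 3)) → ℂ, Cyl (PS ∅) f → Measurable f := fun f hf =>
    hf.measurable.mono (F_le _) le_rfl
  have hint : ∀ f : Om (Fin (k + 3)) → ℂ, Cyl (PS ∅) f → ∫ ω, f ω ∂m = ∫ x, f (stepCode T A x) ∂μ := by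
    intro f hf
    rw [hint0 f hf, integral_map hcm.aemeasurable (hmeas f hf).aestronglyMeasurable]
  have htr : ∀ (n : ℤ) (f : Om (Fin (k + 3)) → ℂ), Cyl (PS ∅) f → Cyl (PS ∅) fun ω => f (tr (zp n) ω) :=
    fun n f hf => hf.tr fun v hv => PS_add hv (zp_mem_PS _ _)
  have hfin : ∀ f : Om (Fin (k + 3)) → ℂ, Cyl (PS ∅) f →
      (Set.range fun x => f (stepCode T A x)).Finite := fun f hf =>
    hf.finite_range.subset (by rintro _ ⟨x, rfl⟩; exact ⟨_, rfl⟩)
  have hp : (hyperfilter ℕ : Filter ℕ) ≤ atTop := Nat.hyperfilter_le_atTop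
  have hM : IsModel g (hyperfilter ℕ) m := by
    refine ⟨hFub, fun n f hf => ?_, fun U hU f hf => ?_, fun f f' hf hf' => ?_, hp, hg⟩
    · rw [hint _ (htr n f hf), hint f hf]
      simp only [stepCode_tr]
      have h1 := step_mp_zpow T hT n
      rw [← integral_map h1.measurable.aemeasurable (f := fun x => f (stepCode T A x))
        ((hmeas f hf).comp hcm).aestronglyMeasurable, h1.map_eq]
    · have hc : Fintype.card U ≤ Fintype.card (Fin (k + 2)) := by
        have := Finset.card_lt_card (Finset.ssubset_univ_iff.2 hU)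
        simp only [Finset.card_univ, Fintype.card_fin, Fintype.card_coe] at this ⊢
        omega
      have h1 := (h.of_card_le hc).tendsto_fun hT (hyperfilter ℕ : Filter ℕ) (fun n (i : U) => g n i)
        (fun L => by
          filter_upwards [hp (eventually_ge_atTop L)] with n hn i j hij
          exact le_trans (by exact_mod_cast hn) (hg n i j fun e => hij (Subtype.ext e)))
        (fun (i : U) x => f i (stepCode T A x)) (fun i => (hmeas _ (hf i)).comp hcm)
        (fun i => hfin _ (hf i))
      rw [Finset.prod_coe_sort U (fun i => ∫ x, f i (stepCode T A x) ∂μ)] at h1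
      simp only [← hint _ (hf _)] at h1
      refine h1.congr fun n => ?_
      rw [hint _ (Cyl.prod U fun i _ => htr _ _ (hf i))]
      simp only [stepCode_tr_nat]
      refine integral_congr_ae (ae_of_all _ fun x => ?_)
      exact Finset.prod_coe_sort U (fun i => f i (stepCode T A (T^[g n i] x)))
    · have hc : Fintype.card (Fin 2) ≤ Fintype.card (Fin (k + 2)) := by simp
      have h1 := (h.of_card_le hc).tendsto_fun hT (atTop : Filter ℕ) (fun n => ![n, 0])
        (fun L => by
          filter_upwards [eventually_ge_atTop L] with n hn i j hij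
          have hn' : (L : ℤ) ≤ n := by exact_mod_cast hn
          fin_cases i <;> fin_cases j <;> simp_all)
        ![fun x => f (stepCode T A x), fun x => f' (stepCode T A x)]
        (fun i => by
          fin_cases i
          · exact (hmeas _ hf).comp hcm
          · exact (hmeas _ hf').comp hcm)
        (fun i => by
          fin_cases i
          · exact hfin _ hf
          · exact hfin _ hf')
      simp only [Fin.prod_univ_two, Matrix.cons_val_zero, Matrix.cons_val_one,
        Function.iterate_zero, id_eq] at h1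
      rw [hint f hf, hint f' hf']
      refine h1.congr fun n => ?_
      rw [hint _ ((htr n f hf).map₂ hf' (· * ·))]
      simp only [stepCode_tr_nat]
  let f : Fin (k + 3) → Om (Fin (k + 3)) → ℂ := fun i ω => if ω 0 i then 1 else 0
  have hf : ∀ i, Cyl (PS ∅) (f i) := fun i =>
    (Cyl.eval (X := PS ∅) (v := 0) (zp_mem_PS _ 0)).map fun u => if u i then (1 : ℂ) else 0
  have hfc : ∀ i x, f i (stepCode T A x) = (A i).indicator (fun _ => (1 : ℂ)) x := by
    intro i x
    by_cases hx : x ∈ A i <;> simp [f, stepCode, hx]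
  have hlim := hM.indep_all (by simp) f hf
  have e1 : ∏ i, ∫ ω, f i ω ∂m = ((∏ i, μ.real (A i) : ℝ) : ℂ) := by
    rw [Complex.ofReal_prod]
    refine Finset.prod_congr rfl fun i _ => ?_
    rw [hint _ (hf i)]
    simp only [hfc]
    rw [integral_indicator_const _ (hA i)]
    simp
  have e2 : ∀ n, ∫ ω, ∏ i, f i (tr (zp (g n i)) ω) ∂m =
      ((μ.real (⋂ i, T^[g n i] ⁻¹' A i) : ℝ) : ℂ) := by
    intro n
    rw [hint _ (Cyl.prod Finset.univ fun i _ => htr _ _ (hf i))]
    simp only [stepCode_tr_nat, hfc]
    have hS : MeasurableSet (⋂ i, T^[g n i] ⁻¹' A i) :=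
      MeasurableSet.iInter fun i => (hT.iterate _).measurable (hA i)
    have : (fun x => ∏ i, (A i).indicator (fun _ => (1 : ℂ)) (T^[g n i] x)) =
        (⋂ i, T^[g n i] ⁻¹' A i).indicator fun _ => (1 : ℂ) := by
      funext x
      by_cases hx : x ∈ ⋂ i, T^[g n i] ⁻¹' A i
      · rw [Set.indicator_of_mem hx]
        exact Finset.prod_eq_one fun i _ => Set.indicator_of_mem (s := A i) (Set.mem_iInter.1 hx i) _
      · rw [Set.indicator_of_notMem hx]
        obtain ⟨i, hi⟩ := not_forall.1 (fun h' => hx (Set.mem_iInter.2 h'))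
        exact Finset.prod_eq_zero (Finset.mem_univ i) (Set.indicator_of_notMem (s := A i) hi _)
    rw [this, integral_indicator_const _ hS]
    simp
  simp only [e1, e2] at hlim
  have h2 := (Complex.continuous_re.tendsto _).comp hlim
  simp only [Function.comp_def, Complex.ofReal_re] at h2
  obtain ⟨n, hn⟩ := ((Metric.tendsto_nhds.1 h2) ε hε).exists
  rw [Real.dist_eq] at hn
  exact absurd hn (not_lt.2 (hbad n))

theorem mix_all (T : X ≃ᵐ X) (hT : MeasurePreserving T μ μ)
    (hmix : ∀ A B : Set X, MeasurableSet A → MeasurableSet B →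
      Tendsto (fun n : ℕ => μ (A ∩ (T^[n]) ⁻¹' B)) atTop (𝓝 (μ A * μ B))) (k : ℕ) :
    Mix μ T (Fin (k + 2)) := by
  induction k with
  | zero => exact mix_two hT hmix
  | succ k ih => exact mix_step T hT k ih

end Crest.Agent.R69
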