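import Crest.Agent.R69.Cyl

/-!
# R69: symmetries of the array measure


All proofs are inductions on the number of active coordinates (`act s`), removing the least one with
`Fub` and using uniqueness of limits along the ultrafilter (`tendsto_nhds_unique`).
-/

set_option autoImplicit false
set_option linter.unusedSectionVars false
open MeasureTheory ProbabilityTheory Filter Topology
open scoped ComplexConjugate

namespace Crest.Agent.R69

variable {ι : Type} [Fintype ι] [DecidableEq ι] {g : ℕ → ι → ℕ} {p : Ultrafilter ℕ}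
  {m : Measure (Om ι)} [IsProbabilityMeasure m]

lemma sym_sub_mem (g : ι → ℕ) (c : ℚ) (C : Finset ℚ) :
    Set.MapsTo (sub g c : P ι → P ι) (PS ((insert c C : Finset ℚ) : Set ℚ)) (PS (C : Set ℚ)) := by
  intro v hv y hy
  rw [sub_snd]
  rcases eq_or_ne y c with rfl | hyc
  · exact Finsupp.erase_same
  · rw [Finsupp.erase_ne hyc]
    exact hv y (by simpa [hyc] using hy)

lemma sym_Ici {c : ℚ} {C : Finset ℚ} (hc : ∀ x ∈ C, c < x) :
    ((insert c C : Finset ℚ) : Set ℚ) ⊆ Set.Ici c := by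
  intro y hy
  rcases Finset.mem_insert.1 hy with rfl | hy
  · exact le_refl y
  · exact (hc y hy).le

lemma sym_tr_sub (g : ι → ℕ) (c : ℚ) (t : P ι) (ω : Om ι) :
    tr t (ω ∘ sub g c) = tr (sub g c t) ω ∘ sub g c := by
  funext v
  simp only [tr, Function.comp_apply, sub_add']

lemma sym_sub_ren (g : ι → ℕ) {ρ : ℚ → ℚ} {C : Set ℚ} (hρ : Set.InjOn ρ C) {c : ℚ} (hc : c ∈ C)
    {v : P ι} (hv : v ∈ PS C) : sub g (ρ c) (ren ρ v) = ren ρ (sub g c v) := by
  have h1 : sub g c v ∈ PS C := fun y hy => by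
    rw [sub_snd, Finsupp.erase_ne fun h : y = c => hy (h ▸ hc)]
    exact hv y hy
  have h2 : (ren ρ (sub g c v)).2 (ρ c) = 0 := by
    rw [ren_apply hρ h1 hc, sub_snd, Finsupp.erase_same]
  ext1
  · rw [sub_fst, ren_apply hρ hv hc]; rfl
  · have h3 : (ren ρ v).2 = (ren ρ (sub g c v)).2 + Finsupp.single (ρ c) (v.2 c) := by
      change v.2.mapDomain ρ = (v.2.erase c).mapDomain ρ + _
      rw [← Finsupp.mapDomain_single, ← Finsupp.mapDomain_add, Finsupp.erase_add_single]
    rw [sub_snd, h3, Finsupp.erase_add, Finsupp.erase_single, add_zero,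
      Finsupp.erase_of_notMem_support (Finsupp.notMem_support_iff.2 h2)]

lemma Fub.cyl (h : Fub g p m) {c : ℚ} {f : Om ι → ℂ} (hf : Cyl (PS (Set.Ici c)) f) :
    Tendsto (fun n => ∫ ω, f (ω ∘ sub (g n) c) ∂m) p (𝓝 (∫ ω, f ω ∂m)) := by
  obtain ⟨s, hs, hd⟩ := hf
  exact h c s (fun v hv y hy => hs hv y (not_le.2 hy)) f hd

lemma IsModel.sym_tr (h : IsModel g p m) (C : Finset ℚ) : ∀ t ∈ PS (C : Set ℚ), ∀ f : Om ι → ℂ,
    Cyl (PS (C : Set ℚ)) f → ∫ ω, f (tr t ω) ∂m = ∫ ω, f ω ∂m := by
  induction C using Finset.induction_on_min with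
  | empty =>
    intro t ht f hf
    rw [Finset.coe_empty] at ht hf
    have : t = zp t.1 := Prod.ext rfl (mem_PS_empty.1 ht)
    rw [this]
    exact h.shift _ f hf
  | insert c C hc ih =>
    intro t ht f hf
    have h1 := h.fub.cyl ((hf.tr fun v hv => PS_add hv ht).mono (PS_mono (sym_Ici hc)))
    have h2 := h.fub.cyl (hf.mono (PS_mono (sym_Ici hc)))
    refine tendsto_nhds_unique h1 (h2.congr fun n => ?_)
    simp only [sym_tr_sub]
    exact (ih _ (sym_sub_mem (g n) c C ht) _ (hf.comp_pos (sym_sub_mem (g n) c C))).symm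

lemma Fub.sym_ren (h : Fub g p m) {ρ : ℚ → ℚ} (C : Finset ℚ) : StrictMonoOn ρ (C : Set ℚ) →
    ∀ f : Om ι → ℂ, Cyl (PS (C : Set ℚ)) f → ∫ ω, f (ω ∘ ren ρ) ∂m = ∫ ω, f ω ∂m := by
  induction C using Finset.induction_on_min with
  | empty =>
    rintro - f ⟨s, hs, hd⟩
    rw [Finset.coe_empty] at hs
    simp only [DependsOn.comp_fix hd fun v hv =>
      ren_eq_self (ρ := ρ) fun y hy => (hy (hs hv y (Set.notMem_empty y))).elim]
  | insert c C hc ih =>
    intro hρ f hf
    have hcC : c ∈ ((insert c C : Finset ℚ) : Set ℚ) := Finset.mem_insert_self c C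
    have h1 := h.cyl (c := ρ c) (hf.comp_pos (φ := ren ρ) fun v hv =>
      ren_mem_PS (fun y hy => hρ.monotoneOn hcC hy (sym_Ici hc hy)) hv)
    have h2 := h.cyl (hf.mono (PS_mono (sym_Ici hc)))
    refine tendsto_nhds_unique h1 (h2.congr fun n => ?_)
    rw [← ih (hρ.mono (Finset.coe_subset.2 (Finset.subset_insert c C))) _
      (hf.comp_pos (sym_sub_mem (g n) c C))]
    obtain ⟨s, hs, hd⟩ := hf
    refine integral_congr_ae (Eventually.of_forall fun ω => ?_)
    exact DependsOn.comp_congr hd (φ := ren ρ ∘ sub (g n) c) (ψ := sub (g n) (ρ c) ∘ ren ρ)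
      (fun v hv => (sym_sub_ren (g n) hρ.injOn hcC (hs hv)).symm) ω

lemma Fub.sym_top (h : Fub g p m) (U : Finset ι) (c : ℚ) (f : ι → Om ι → ℂ)
    (hf : ∀ i, Cyl (PS ∅) (f i)) :
    Tendsto (fun n => ∫ ω, ∏ i ∈ U, f i (tr (zp (g n i)) ω) ∂m) p
      (𝓝 (∫ ω, ∏ i ∈ U, f i (tr (gam c (dl i)) ω) ∂m)) := by
  have h1 := h.cyl (c := c) (Cyl.prod U fun i _ => (hf i).tr (t := gam c (dl i)) fun v hv =>
    PS_add (PS_mono (Set.empty_subset _) hv) (gam_mem_PS Set.self_mem_Ici _))
  refine h1.congr fun n => integral_congr_ae (Eventually.of_forall fun ω => ?_)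
  refine Finset.prod_congr rfl fun i _ => ?_
  obtain ⟨s, hs, hd⟩ := hf i
  rw [sym_tr_sub, sub_gam]
  exact DependsOn.comp_fix hd (fun v hv => sub_eq_self _ (hs hv c (Set.notMem_empty c))) _

lemma IsModel.sym_prod (h : IsModel g p m) {U : Finset ι} (hU : U ≠ Finset.univ) (c : ℚ)
    (C : Finset ℚ) : (∀ y ∈ C, y < c) → ∀ f : ι → Om ι → ℂ, (∀ i, Cyl (PS (C : Set ℚ)) (f i)) →
      ∫ ω, ∏ i ∈ U, f i (tr (gam c (dl i)) ω) ∂m = ∏ i ∈ U, ∫ ω, f i ω ∂m := by
  induction C using Finset.induction_on_min with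
  | empty =>
    rintro - f hf
    rw [Finset.coe_empty] at hf
    exact tendsto_nhds_unique (h.fub.sym_top U c f hf) (h.mixk U hU f hf)
  | insert c' C hc ih =>
    intro hC f hf
    have hc' : c' < c := hC c' (Finset.mem_insert_self _ _)
    have h1 := h.fub.cyl (c := c') (Cyl.prod U fun i _ => (hf i).tr (t := gam c (dl i))
      fun v hv => PS_add (PS_mono (sym_Ici hc) hv) (gam_mem_PS hc'.le _))
    have h2 := tendsto_finsetProd U fun i _ => h.fub.cyl ((hf i).mono (PS_mono (sym_Ici hc)))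
    refine tendsto_nhds_unique h1 (h2.congr fun n => ?_)
    have e : ∀ i, sub (g n) c' (gam c (dl i)) = gam c (dl i) := fun i =>
      sub_eq_self _ (by simp [hc'.ne'])
    simp only [sym_tr_sub, e]
    exact (ih (fun y hy => hC y (Finset.mem_insert_of_mem hy)) _
      fun i => (hf i).comp_pos (sym_sub_mem (g n) c' C)).symm

/-- Translation invariance.  Induction on `#(act (insert t s))`.  With `c` the least active
coordinate: `sub _ c (v + t) = sub _ c v + sub _ c t` (`sub_add'`), so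
`f ((ω ∘ sub) ∘ (· + t)) = f' (ω ∘ (· + sub t))` with `f' ω = f (ω ∘ sub)`.  Base case: `t = zp t.1`
and `IsModel.shift`. -/
theorem IsModel.lp_tr (h : IsModel g p m) (t : P ι) (s : Finset (P ι)) : LP m (· + t) s :=
  fun f hf => h.sym_tr (act (insert t s)) t (mem_PS_act (Finset.mem_insert_self _ _)) f
    ⟨s, fun _ hv => mem_PS_act (Finset.mem_insert_of_mem hv), hf⟩

theorem IsModel.mp_tr (h : IsModel g p m) (t : P ι) : MeasurePreserving (tr t) m m :=
  measurePreserving_of_LP (h.lp_tr t)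

/-- Invariance under order preserving renaming.  Induction on `#C`; with `c` the least element of
`C`, `ρ c` is below all active coordinates of `ren ρ v`, and
`sub _ (ρ c) (ren ρ v) = ren ρ (sub _ c v)` for `v ∈ PS C` (`ren_apply`, injectivity on `C`).
Base case `C = ∅`: `ren ρ v = v`. -/
theorem Fub.lp_ren (h : Fub g p m) {ρ : ℚ → ℚ} (C : Finset ℚ) (hρ : StrictMonoOn ρ (C : Set ℚ))
    (s : Finset (P ι)) (hs : ∀ v ∈ s, v ∈ PS (C : Set ℚ)) : LP m (ren ρ) s :=
  fun f hf => h.sym_ren C hρ f ⟨s, hs, hf⟩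

/-- Pivots: `piv_eq_ren`, `lp_tr`, `lp_ren` with `C = insert c (act s)`. -/
theorem IsModel.lp_piv (h : IsModel g p m) {c c' : ℚ} (hc : c' < c) (x : ι → ℤ) (s : Finset (P ι))
    (hs : ∀ v ∈ s, ∀ y, y < c → v.2 y ≠ 0 → y < c') : LP m (piv c c' x) s := by
  intro f hf
  have hρ : StrictMonoOn (Function.update id c c') ((insert c (act s) : Finset ℚ) : Set ℚ) := by
    intro y hy z hz hyz
    rcases eq_or_ne y c with rfl | hyc
    · rw [Function.update_self, Function.update_of_ne hyz.ne']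
      exact hc.trans hyz
    rcases eq_or_ne z c with rfl | hzc
    · rw [Function.update_self, Function.update_of_ne hyc]
      obtain ⟨v, hv, h0⟩ := mem_act.1 ((Finset.mem_insert.1 hy).resolve_left hyc)
      exact hs v hv y hyz h0
    · rwa [Function.update_of_ne hyc, Function.update_of_ne hzc]
  have h1 := DependsOn.comp_pos hf (· + -gam c x)
  have h2 := DependsOn.comp_pos h1 (ren (Function.update id c c'))
  rw [← h.lp_tr (-gam c x) s f hf, ← h.fub.lp_ren _ hρ _ (fun v hv => ?_) _ h1,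
    ← h.lp_tr (gam c x) _ _ h2]
  · refine integral_congr_ae (Eventually.of_forall fun ω => congrArg f (funext fun v => ?_))
    simp only [Function.comp_apply, piv_eq_ren, sub_eq_add_neg]
  · obtain ⟨w, hw, rfl⟩ := Finset.mem_image.1 hv
    rw [← sub_eq_add_neg]
    exact PS_sub (PS_mono (Finset.coe_subset.2 (Finset.subset_insert _ _)) (mem_PS_act hw))
      (gam_mem_PS (Finset.mem_insert_self _ _) _)

/-- At most `card ι - 1` slices in a top coordinate are independent.  Induction on the number of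
active coordinates of the supports of the `f i`; removing the least one `c'` commutes with the
translations by `gam c (dl i)` (`sub_add'`, `sub_eq_self`); limits of finite products
(`tendsto_finset_prod`).  Base case: `Fub` at `c` (`sub_gam`) and `IsModel.mixk`. -/
theorem IsModel.top_prod (h : IsModel g p m) {U : Finset ι} (hU : U ≠ Finset.univ) (c : ℚ)
    (f : ι → Om ι → ℂ) (hf : ∀ i, Cyl (PS (Set.Iio c)) (f i)) :
    ∫ ω, ∏ i ∈ U, f i (tr (gam c (dl i)) ω) ∂m = ∏ i ∈ U, ∫ ω, f i ω ∂m := by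
  choose s hs hd using hf
  refine h.sym_prod hU c (act (Finset.univ.biUnion s)) (fun y hy => ?_) f fun i =>
    ⟨s i, fun v hv => mem_PS_act (Finset.mem_biUnion.2 ⟨i, Finset.mem_univ i, hv⟩), hd i⟩
  obtain ⟨v, hv, h0⟩ := mem_act.1 hy
  obtain ⟨i, -, hi⟩ := Finset.mem_biUnion.1 hv
  by_contra hyc
  exact h0 (hs i hi y hyc)

lemma IsModel.sym_prod' (h : IsModel g p m) {U : Finset ι} (hU : U ≠ Finset.univ) (c : ℚ)
    (f : ι → Om ι → ℂ) (hf : ∀ i ∈ U, Cyl (sh (gam c (dl i)) (PS (Set.Iio c))) (f i)) :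
    ∫ ω, ∏ i ∈ U, f i ω ∂m = ∏ i ∈ U, ∫ ω, f i ω ∂m := by
  have h1 := h.top_prod hU c (fun i ω => if i ∈ U then f i (tr (-gam c (dl i)) ω) else 0)
    fun i => by
      by_cases hi : i ∈ U
      · simp only [if_pos hi]
        exact (hf i hi).tr fun v hv => by rwa [← sub_eq_add_neg]
      · simp only [if_neg hi]
        exact Cyl.const _
  rw [Finset.prod_congr rfl (g := fun i => ∫ ω, f i ω ∂m) fun i hi => ?_] at h1
  · rw [← h1]
    refine integral_congr_ae (Eventually.of_forall fun ω => Finset.prod_congr rfl fun i hi => ?_)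
    rw [if_pos hi, tr_tr, neg_add_cancel, tr_zero]
  · simp only [if_pos hi]
    obtain ⟨s, -, hd⟩ := hf i hi
    exact h.lp_tr _ s _ hd

/-- `iIndepSets.iIndep` for the π-systems `cylS (sh (gam c (dl i)) (PS (Iio c)))`, `i ∈ U ∪ V`
(a cylinder function over `sh t X` is `f ∘ tr t` with `f` a cylinder function over `X`),
then `indep_iSup_of_disjoint` and `F_iUnion`. -/
theorem IsModel.indep_up (h : IsModel g p m) {U V : Set ι} (hUV : Disjoint U V)
    (hne : U ∪ V ≠ Set.univ) (c : ℚ) :
    Indep (F (up c U (PS (Set.Iio c)))) (F (up c V (PS (Set.Iio c)))) m := by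
  classical
  let Z : ↥(U ∪ V) → Set (P ι) := fun i => sh (gam c (dl i.1)) (PS (Set.Iio c))
  have hI : iIndep (fun i => F (Z i)) m := by
    refine iIndepSets.iIndep (fun i => F_le _) (fun i => cylS (Z i)) (fun i => isPiSystem_cylS _)
      (fun i => F_eq_generateFrom _) ((iIndepSets_iff _ _).2 fun S E hE => ?_)
    have hm : ∀ i ∈ S, MeasurableSet (E i) := fun i hi => F_le (Z i) _ (by
      rw [F_eq_generateFrom]; exact MeasurableSpace.measurableSet_generateFrom (hE i hi))
    have h1 := h.sym_prod' (U := S.map (Function.Embedding.subtype _)) (fun e => hne (by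
        refine Set.eq_univ_of_forall fun i => ?_
        obtain ⟨j, -, rfl⟩ := Finset.mem_map.1 (e ▸ Finset.mem_univ i :
          i ∈ S.map (Function.Embedding.subtype _))
        exact j.2)) c
      (fun i => if hi : i ∈ U ∪ V then (E ⟨i, hi⟩).indicator fun _ => 1 else 0) fun i hi => by
        obtain ⟨j, hj, rfl⟩ := Finset.mem_map.1 hi
        simp only [Function.Embedding.subtype_apply, dif_pos j.2]
        exact cylS_indicator (hE j hj) 1
    have e : ∀ ω, ∏ i ∈ S, (E i).indicator (fun _ => (1 : ℂ)) ω =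
        (⋂ i ∈ S, E i).indicator (fun _ => (1 : ℂ)) ω := fun ω => by
      by_cases hω : ω ∈ ⋂ i ∈ S, E i
      · rw [Set.indicator_of_mem hω]
        exact Finset.prod_eq_one fun i hi => Set.indicator_of_mem (Set.mem_iInter₂.1 hω i hi) _
      · rw [Set.indicator_of_notMem hω]
        simp only [Set.mem_iInter, not_forall] at hω
        obtain ⟨i, hi, hω⟩ := hω
        exact Finset.prod_eq_zero hi (Set.indicator_of_notMem hω _)
    simp only [Finset.prod_map, Function.Embedding.subtype_apply, Subtype.coe_prop, dif_pos,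
      Subtype.coe_eta, e] at h1
    rw [integral_indicator_const _ (Finset.measurableSet_biInter S hm),
      Finset.prod_congr rfl fun i hi => integral_indicator_const _ (hm i hi)] at h1
    simp only [Complex.real_smul, mul_one] at h1
    rw [← ENNReal.toReal_eq_toReal_iff' (measure_ne_top _ _)
      (ENNReal.prod_ne_top fun i _ => measure_ne_top _ _), ENNReal.toReal_prod]
    exact_mod_cast h1
  have e : ∀ W : Set ι, W ⊆ U ∪ V → F (up c W (PS (Set.Iio c))) =
      ⨆ i ∈ {i : ↥(U ∪ V) | i.1 ∈ W}, F (Z i) := fun W hW => by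
    simp only [← F_iUnion]
    congr 1
    ext v
    simp only [Set.mem_iUnion]
    exact ⟨fun ⟨i, hi, hv⟩ => ⟨⟨i, hW hi⟩, hi, hv⟩, fun ⟨i, hi, hv⟩ => ⟨i.1, hi, hv⟩⟩
  rw [e U Set.subset_union_left, e V Set.subset_union_right]
  exact indep_iSup_of_disjoint (fun i => F_le _) hI (hUV.preimage Subtype.val)

/-- the finite level correlations converge to the array correlation (`Fub` at `c` for cylinder
functions, then `multi_lim` with `Cyl.dense_L1`) -/
theorem IsModel.lim_top (h : IsModel g p m) (c : ℚ) (f : ι → Om ι → ℂ)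
    (hf : ∀ i, B m (F (PS ∅)) (f i)) :
    Tendsto (fun n => ∫ ω, ∏ i, f i (tr (zp (g n i)) ω) ∂m) p
      (𝓝 (∫ ω, ∏ i, f i (tr (gam c (dl i)) ω) ∂m)) :=
  multi_lim (𝒢 := F (PS ∅)) (p : Filter ℕ) (fun n i => tr (zp (g n i)))
    (fun i => tr (gam c (dl i))) (fun _ _ => h.mp_tr _) (fun _ => h.mp_tr _) (F_le _)
    {b | Cyl (PS ∅) b} (fun _ hb => Cyl.b hb m) (fun _ ha _ hε => Cyl.dense_L1 ha hε)
    (fun a ha => h.fub.sym_top Finset.univ c a ha) f hf

/-- mixing for bounded functions (`multi_lim` with two slots and target space `m.prod m`,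
or a direct `ε/3` argument) -/
theorem IsModel.mix2B (h : IsModel g p m) {f f' : Om ι → ℂ} (hf : B m (F (PS ∅)) f)
    (hf' : B m (F (PS ∅)) f') :
    Tendsto (fun n : ℕ => ∫ ω, f (tr (zp n) ω) * f' ω ∂m) atTop
      (𝓝 ((∫ ω, f ω ∂m) * ∫ ω, f' ω ∂m)) := by
  have := multi_lim (𝒢 := F (PS ∅)) (μ := m) (μ₁ := m.prod m) (ι := Bool) atTop
    (fun (n : ℕ) i => cond i (tr (zp n)) id) (fun i => cond i Prod.fst Prod.snd)
    (fun n i => by
      cases i
      · exact MeasurePreserving.id m
      · exact h.mp_tr _)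
    (fun i => by
      cases i
      · exact measurePreserving_snd
      · exact measurePreserving_fst)
    (F_le _) {b | Cyl (PS ∅) b} (fun _ hb => Cyl.b hb m) (fun _ ha _ hε => Cyl.dense_L1 ha hε)
    (fun a ha => by
      simpa only [Fintype.prod_bool, cond_true, cond_false, id, integral_prod_mul] using
        h.mix2 _ _ (ha true) (ha false))
    (fun i => cond i f f') (fun i => by cases i <;> assumption)
  simpa only [Fintype.prod_bool, cond_true, cond_false, id, integral_prod_mul] using this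

end Crest.Agent.R69
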