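import Crest.Agent.R69.BExt

/-!
# R69: quasi-unipotent characters do not correlate with a mixing factor

All proofs filled (helper96).
-/

set_option autoImplicit false
open MeasureTheory ProbabilityTheory Filter Topology
open scoped ComplexConjugate

namespace Crest.Agent.R69

universe u
variable {Ω : Type u} {𝒵 : MeasurableSpace Ω} {m0 : MeasurableSpace Ω} {μ : Measure Ω}
  [IsProbabilityMeasure μ] {τ : Ω → Ω} {Γ : Type u} [AddCommGroup Γ] {χ : Γ → Ω → ℂ}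
  {σ : Module.End ℤ Γ}

lemma IsCharSys.b (h : IsCharSys μ 𝒵 τ χ σ) (a : Γ) : B μ m0 (χ a) :=
  B.of_uni (h.meas a) (h.uni a)

lemma IsCharSys.zero (h : IsCharSys μ 𝒵 τ χ σ) : χ 0 =ᵐ[μ] fun _ => 1 := by
  have h1 := h.add 0 0
  rw [add_zero] at h1
  filter_upwards [h1, h.uni 0] with ω h1 h2
  have h3 : χ 0 ω ≠ 0 := by
    intro h0
    rw [h0, norm_zero] at h2
    exact zero_ne_one h2
  exact mul_left_cancel₀ h3 (by rw [mul_one]; exact h1.symm)

lemma IsCharSys.neg (h : IsCharSys μ 𝒵 τ χ σ) (a : Γ) : χ (-a) =ᵐ[μ] fun ω => conj (χ a ω) := by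
  have h1 := h.add a (-a)
  rw [add_neg_cancel] at h1
  filter_upwards [h1, h.uni a, h.zero] with ω h1 h2 h0
  have h3 : χ a ω ≠ 0 := by
    intro h0
    rw [h0, norm_zero] at h2
    exact zero_ne_one h2
  refine mul_left_cancel₀ h3 ?_
  rw [← h1, h0, Complex.mul_conj, Complex.normSq_eq_norm_sq, h2]
  simp

lemma IsCharSys.sum (h : IsCharSys μ 𝒵 τ χ σ) {κ : Type*} (s : Finset κ) (a : κ → Γ) :
    χ (∑ i ∈ s, a i) =ᵐ[μ] fun ω => ∏ i ∈ s, χ (a i) ω := by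
  classical
  induction s using Finset.induction_on with
  | empty => simpa using h.zero
  | insert i s hi ih =>
    rw [Finset.sum_insert hi]
    filter_upwards [h.add (a i) (∑ j ∈ s, a j), ih] with ω h1 h2
    rw [Finset.prod_insert hi, h1, h2]

lemma IsCharSys.inter_pow (h : IsCharSys μ 𝒵 τ χ σ) (hτ : Measurable[𝒵, 𝒵] τ) {F : Ω → ℂ}
    (hF : SB 𝒵 F) (n : ℕ) (a : Γ) :
    ∫ ω, F (τ^[n] ω) * χ ((σ ^ n) a) ω ∂μ = ∫ ω, F ω * χ a ω ∂μ := by
  induction n with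
  | zero => simp
  | succ n ih =>
    have h1 : SB 𝒵 fun ω => F (τ^[n] ω) := hF.comp' (@Measurable.iterate Ω 𝒵 τ hτ n)
    have h2 := h.inter _ h1 ((σ ^ n) a)
    rw [← ih, ← h2, pow_succ', Module.End.mul_apply]
    rfl

lemma IsCharSys.vd_sub (h : IsCharSys μ 𝒵 τ χ σ) (a b : Γ) :
    χ (a - b) =ᵐ[μ] fun ω => χ a ω * conj (χ b ω) := by
  rw [sub_eq_add_neg]
  filter_upwards [h.add a (-b), h.neg b] with ω h1 h2
  rw [h1, h2]

lemma IsCharSys.vd_const (h : IsCharSys μ 𝒵 τ χ σ) {a : Γ} (ha : ∫ ω, χ a ω ∂μ ≠ 0) :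
    χ a =ᵐ[μ] fun _ => ∫ ω, χ a ω ∂μ := by
  obtain ⟨c, hc⟩ := h.dich a ha
  have : ∫ ω, χ a ω ∂μ = c := by rw [integral_congr_ae hc]; simp
  rw [this]
  exact hc

/-- expansion of the square -/
lemma IsCharSys.vd_sq (h : IsCharSys μ 𝒵 τ χ σ) {κ : Type*} (s : Finset κ) {F : κ → Ω → ℂ}
    (hF : ∀ i, B μ m0 (F i)) (a : κ → Γ) :
    ((∫ ω, ‖∑ i ∈ s, F i ω * χ (a i) ω‖ ^ 2 ∂μ : ℝ) : ℂ) =
      ∑ i ∈ s, ∑ j ∈ s, ∫ ω, (F i ω * conj (F j ω)) * χ (a i - a j) ω ∂μ := by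
  have hi : ∀ i j, Integrable (fun ω => (F i ω * conj (F j ω)) * χ (a i - a j) ω) μ :=
    fun i j => (((hF i).mul (hF j).conj).mul (h.b _)).integrable le_rfl
  rw [← int_mul_conj]
  have e : ∀ i ∈ s, ∑ j ∈ s, ∫ ω, (F i ω * conj (F j ω)) * χ (a i - a j) ω ∂μ =
      ∫ ω, ∑ j ∈ s, (F i ω * conj (F j ω)) * χ (a i - a j) ω ∂μ :=
    fun i _ => (integral_finsetSum _ fun j _ => hi i j).symm
  rw [Finset.sum_congr rfl e,
    ← integral_finsetSum _ fun i _ => integrable_finsetSum _ fun j _ => hi i j]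
  have hall : ∀ᵐ ω ∂μ, ∀ i ∈ s, ∀ j ∈ s, χ (a i - a j) ω = χ (a i) ω * conj (χ (a j) ω) := by
    refine (Filter.eventually_all_finset s).2 fun i _ => ?_
    exact (Filter.eventually_all_finset s).2 fun j _ => h.vd_sub _ _
  refine integral_congr_ae ?_
  filter_upwards [hall] with ω hω
  rw [map_sum, Finset.sum_mul_sum]
  refine Finset.sum_congr rfl fun i hi => Finset.sum_congr rfl fun j hj => ?_
  rw [hω i hi j hj, map_mul]
  ring

/-- the elements whose character is constant (equivalently has nonzero mean) form a subgroup `Z` with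
`σ a ∈ Z ↔ a ∈ Z` (`inter` with `F = 1`) -/
lemma IsCharSys.exists_Z (h : IsCharSys μ 𝒵 τ χ σ) :
    ∃ Z : Submodule ℤ Γ, (∀ a, a ∈ Z ↔ ∫ ω, χ a ω ∂μ ≠ 0) ∧ ∀ a, σ a ∈ Z ↔ a ∈ Z := by
  let Z : AddSubgroup Γ :=
    { carrier := {a | ∫ ω, χ a ω ∂μ ≠ 0}
      zero_mem' := by
        change ∫ ω, χ 0 ω ∂μ ≠ 0
        rw [integral_congr_ae h.zero]
        simp
      add_mem' := by
        intro a b ha hb
        change ∫ ω, χ (a + b) ω ∂μ ≠ 0
        have : χ (a + b) =ᵐ[μ] fun _ => (∫ ω, χ a ω ∂μ) * ∫ ω, χ b ω ∂μ := by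
          filter_upwards [h.add a b, h.vd_const ha, h.vd_const hb] with ω h1 h2 h3
          rw [h1, h2, h3]
        rw [integral_congr_ae this]
        simpa using ⟨ha, hb⟩
      neg_mem' := by
        intro a ha
        change ∫ ω, χ (-a) ω ∂μ ≠ 0
        rw [integral_congr_ae (h.neg a), integral_conj]
        simpa using ha }
  refine ⟨AddSubgroup.toIntSubmodule Z, fun a => Iff.rfl, fun a => ?_⟩
  change ∫ ω, χ (σ a) ω ∂μ ≠ 0 ↔ ∫ ω, χ a ω ∂μ ≠ 0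
  have := h.inter _ (SB.const 1) a
  simp only [one_mul] at this
  rw [this]

/-- the approximation error is invariant: expand with `int_norm_sub_sq`, `inter_pow`, `neg`, `add` -/
lemma IsCharSys.approx_pow (h : IsCharSys μ 𝒵 τ χ σ) (hZ : 𝒵 ≤ m0) (hτ : Measurable[𝒵, 𝒵] τ)
    {F : Ω → ℂ} (hF : SB 𝒵 F) (k : ℕ) {n : ℕ} (a : Fin n → Γ) (c : Fin n → ℂ) :
    ∫ ω, ‖F (τ^[k] ω) - ∑ j, c j * χ ((σ ^ k) (a j)) ω‖ ^ 2 ∂μ =
      ∫ ω, ‖F ω - ∑ j, c j * χ (a j) ω‖ ^ 2 ∂μ := by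
  have hτk : Measurable[𝒵, 𝒵] τ^[k] := @Measurable.iterate Ω 𝒵 τ hτ k
  let G : Option (Fin n) → Ω → ℂ := fun o => o.elim F fun j _ => -c j
  let b : Option (Fin n) → Γ := fun o => o.elim 0 a
  have hG : ∀ o, SB 𝒵 (G o) := by
    rintro (_ | j)
    · exact hF
    · exact SB.const _
  have e1 : ∫ ω, ‖F (τ^[k] ω) - ∑ j, c j * χ ((σ ^ k) (a j)) ω‖ ^ 2 ∂μ =
      ∫ ω, ‖∑ o, G o (τ^[k] ω) * χ ((σ ^ k) (b o)) ω‖ ^ 2 ∂μ := by
    refine integral_congr_ae ?_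
    filter_upwards [h.zero] with ω hω
    simp [G, b, Fintype.sum_option, hω, sub_eq_add_neg]
  have e2 : ∫ ω, ‖F ω - ∑ j, c j * χ (a j) ω‖ ^ 2 ∂μ =
      ∫ ω, ‖∑ o, G o ω * χ (b o) ω‖ ^ 2 ∂μ := by
    refine integral_congr_ae ?_
    filter_upwards [h.zero] with ω hω
    simp [G, b, Fintype.sum_option, hω, sub_eq_add_neg]
  rw [e1, e2]
  apply Complex.ofReal_injective
  rw [h.vd_sq Finset.univ (F := fun o ω => G o (τ^[k] ω))
      (fun o => (((hG o).comp' hτk).mono hZ).b) (fun o => (σ ^ k) (b o)),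
    h.vd_sq Finset.univ (fun o => ((hG o).mono hZ).b) b]
  refine Finset.sum_congr rfl fun i _ => Finset.sum_congr rfl fun j _ => ?_
  rw [← map_sub]
  exact h.inter_pow hτ ((hG i).mul (hG j).conj) k _

lemma vd_mem_Z {Z : Submodule ℤ Γ} (hZ : ∀ a, σ a ∈ Z ↔ a ∈ Z) (N s : ℕ) {a : Γ}
    (ha : ((σ ^ N - 1) ^ (s + 1)) a ∈ Z) (k : ℕ) : ((σ ^ N - 1) ^ s) ((σ ^ (N * k)) a - a) ∈ Z := by
  have hpow : ∀ (n : ℕ) (b : Γ), b ∈ Z → (σ ^ n) b ∈ Z := by
    intro n b hb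
    induction n with
    | zero => simpa using hb
    | succ n ih => rw [pow_succ', Module.End.mul_apply]; exact (hZ _).2 ih
  induction k with
  | zero => simp
  | succ k ih =>
    have hc : Commute (σ ^ N) ((σ ^ N - 1) ^ s) :=
      ((Commute.refl _).sub_right (Commute.one_right _)).pow_right s
    have e : (σ ^ (N * (k + 1))) a - a = (σ ^ N) ((σ ^ (N * k)) a - a) + (σ ^ N - 1) a := by
      rw [mul_add, mul_one, add_comm (N * k) N, pow_add, Module.End.mul_apply, map_sub,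
        LinearMap.sub_apply, Module.End.one_apply]
      abel
    rw [e, map_add]
    refine Z.add_mem ?_ ?_
    · rw [← Module.End.mul_apply, ← hc.eq, Module.End.mul_apply]
      exact hpow _ _ ih
    · rwa [← Module.End.mul_apply, ← pow_succ]

/-- the van der Corput step -/
lemma IsCharSys.vd_step (h : IsCharSys μ 𝒵 τ χ σ) (hZ : 𝒵 ≤ m0) (hτ : Measurable[𝒵, 𝒵] τ)
    (N : ℕ) (a : Γ) {G : Ω → ℂ} (hG : SB 𝒵 G)
    (hr : Tendsto (fun k : ℕ => ∫ ω, (G (τ^[N * k] ω) * conj (G ω)) * χ ((σ ^ (N * k)) a - a) ω ∂μ)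
      atTop (𝓝 0)) : ∫ ω, G ω * χ a ω ∂μ = 0 := by
  set r : ℕ → ℂ := fun k => ∫ ω, (G (τ^[N * k] ω) * conj (G ω)) * χ ((σ ^ (N * k)) a - a) ω ∂μ
    with hr_def
  set c := ∫ ω, G ω * χ a ω ∂μ with hc
  have hτk : ∀ k, Measurable[𝒵, 𝒵] τ^[k] := fun k => @Measurable.iterate Ω 𝒵 τ hτ k
  have hGk : ∀ k, SB 𝒵 fun ω => G (τ^[k] ω) := fun k => hG.comp' (hτk k)
  let t : ℕ → ℕ → ℂ := fun n n' => ∫ ω, (G (τ^[N * n] ω) * conj (G (τ^[N * n'] ω))) *
    χ ((σ ^ (N * n)) a - (σ ^ (N * n')) a) ω ∂μ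
  have ht1 : ∀ k n, t (k + n) n = r k := by
    intro k n
    have h1 := h.inter_pow hτ ((hGk (N * k)).mul hG.conj) (N * n) ((σ ^ (N * k)) a - a)
    refine Eq.trans ?_ h1
    simp only [t]
    rw [map_sub, ← Module.End.mul_apply, ← pow_add, mul_add, add_comm (N * n) (N * k)]
    simp only [Function.iterate_add_apply]
  have ht2 : ∀ n n', ‖t n n'‖ = ‖t n' n‖ := by
    intro n n'
    rw [← Complex.norm_conj (t n' n)]
    congr 1
    simp only [t]
    rw [← integral_conj]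
    refine integral_congr_ae ?_
    filter_upwards [h.neg ((σ ^ (N * n')) a - (σ ^ (N * n)) a)] with ω hω
    rw [neg_sub] at hω
    simp only [map_mul, Complex.conj_conj, hω]
    ring
  have key : ∀ ε : ℝ, 0 < ε → ∀ H : ℕ, 0 < H → ‖c‖ ^ 2 ≤ ‖r 0‖ / H + ε := by
    intro ε hε H hH
    obtain ⟨K, hK⟩ := Filter.eventually_atTop.1
      (hr.norm.eventually (gt_mem_nhds (by simpa using hε : ‖(0 : ℂ)‖ < ε)))
    have hb : ∀ i j : ℕ, j < i → ‖t (K * i) (K * j)‖ ≤ ε := by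
      intro i j hij
      obtain ⟨d, rfl⟩ := Nat.exists_eq_add_of_lt hij
      have e : K * (j + d + 1) = K * (d + 1) + K * j := by ring
      rw [e, ht1]
      exact (hK _ (Nat.le_mul_of_pos_right _ (Nat.succ_pos _))).le
    have hb' : ∀ i j : ℕ, ‖t (K * i) (K * j)‖ ≤ (if i = j then ‖r 0‖ else 0) + ε := by
      intro i j
      rcases lt_trichotomy i j with hij | rfl | hij
      · rw [if_neg hij.ne, zero_add, ht2]; exact hb _ _ hij
      · rw [if_pos rfl, ← ht1 0 (K * i), zero_add]; linarith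
      · rw [if_neg hij.ne', zero_add]; exact hb _ _ hij
    let u : Ω → ℂ := fun ω => ∑ i ∈ Finset.range H,
      G (τ^[N * (K * i)] ω) * χ ((σ ^ (N * (K * i))) a) ω
    have hBi : ∀ i, B μ m0 fun ω => G (τ^[N * (K * i)] ω) * χ ((σ ^ (N * (K * i))) a) ω :=
      fun i => ((hGk _).mono hZ).b.mul (h.b _)
    have hu : B μ m0 u := B.sum _ fun i _ => hBi i
    have hu1 : ∫ ω, u ω ∂μ = H * c := by
      simp only [u]
      rw [integral_finsetSum _ fun i _ => (hBi i).integrable le_rfl,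
        Finset.sum_congr rfl fun i _ => h.inter_pow hτ hG _ a]
      simp [hc]
    have hu2 : ∫ ω, ‖u ω‖ ^ 2 ∂μ ≤ H * ‖r 0‖ + H * (H * ε) := by
      have h1 := h.vd_sq (Finset.range H) (F := fun i ω => G (τ^[N * (K * i)] ω))
        (fun i => ((hGk _).mono hZ).b) (fun i => (σ ^ (N * (K * i))) a)
      have h2 : ∫ ω, ‖u ω‖ ^ 2 ∂μ ≤ ‖((∫ ω, ‖u ω‖ ^ 2 ∂μ : ℝ) : ℂ)‖ := by
        rw [Complex.norm_real]
        exact le_abs_self _
      refine h2.trans ?_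
      simp only [u]
      rw [h1]
      calc _ ≤ ∑ i ∈ Finset.range H, ∑ j ∈ Finset.range H,
            ((if i = j then ‖r 0‖ else 0) + ε) := by
            refine (norm_sum_le _ _).trans (Finset.sum_le_sum fun i _ => ?_)
            exact (norm_sum_le _ _).trans (Finset.sum_le_sum fun j _ => hb' i j)
        _ = ∑ i ∈ Finset.range H, (‖r 0‖ + H * ε) := by
            refine Finset.sum_congr rfl fun i hi => ?_
            rw [Finset.sum_add_distrib, Finset.sum_ite_eq, if_pos hi]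
            simp
        _ = _ := by simp
    have hu3 : ‖(H : ℂ) * c‖ ≤ √(∫ ω, ‖u ω‖ ^ 2 ∂μ) := by
      rw [← hu1]
      exact (norm_integral_le_integral_norm _).trans (int_norm_le_sqrt (hu.memLp le_rfl 2))
    have hu4 : ‖(H : ℂ) * c‖ ^ 2 ≤ H * ‖r 0‖ + H * (H * ε) := by
      refine (pow_le_pow_left₀ (norm_nonneg _) hu3 2).trans ?_
      rw [Real.sq_sqrt (integral_nonneg fun ω => by positivity)]
      exact hu2
    rw [norm_mul, Complex.norm_natCast] at hu4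
    have hH' : (0 : ℝ) < H := by exact_mod_cast hH
    have e : ‖r 0‖ / H + ε = (H * ‖r 0‖ + H * (H * ε)) / (H : ℝ) ^ 2 := by field_simp
    rw [e, le_div_iff₀ (by positivity)]
    calc _ = (H * ‖c‖) ^ 2 := by ring
      _ ≤ _ := hu4
  have key2 : ‖c‖ ^ 2 ≤ 0 := by
    refine le_of_forall_pos_le_add fun ε hε => ?_
    have h1 : Tendsto (fun H : ℕ => ‖r 0‖ / H + ε) atTop (𝓝 (0 + ε)) :=
      (tendsto_const_div_atTop_nhds_zero_nat _).add_const ε
    refine ge_of_tendsto h1 ?_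
    filter_upwards [Filter.eventually_gt_atTop 0] with H hH using key ε hε H hH
  have : ‖c‖ = 0 := by nlinarith [norm_nonneg c]
  exact norm_eq_zero.1 this

/-- Van der Corput.  Induction on `s` (generalising `a`, `G`); `s = 0`: `χ a` is constant.  Step: subtract
the mean of `G`.  Let `u n = G ∘ τ^[N n] · χ (σ ^ (N n) a)`; `∫ u n = ∫ G χ a =: c` and
`∫ u (n + k) conj (u n) = ∫ (G ∘ τ^[N k] · conj G) χ (σ ^ (N k) a - a) =: r k` (`inter_pow`).  Since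
`σ ^ (N k) - 1 = (∑_{j<k} σ ^ (N j)) (σ ^ N - 1)` (`mul_geom_sum`/`Commute.geom_sum₂`) and `Z` is invariant, the
induction hypothesis gives `r k = (∫ G ∘ τ^[N k] · conj G)(∫ χ …) → 0`.  Then
`‖H c‖² ≤ ∫ ‖∑_{n<H} u n‖² ≤ H · 2 ∑_{k<H} ‖r k‖ = o(H²)` (Cesàro, `Filter.Tendsto.cesaro`). -/
theorem IsCharSys.vdc (h : IsCharSys μ 𝒵 τ χ σ) (hZ : 𝒵 ≤ m0) (hτ : Measurable[𝒵, 𝒵] τ)
    (hmix : ∀ G G', SB 𝒵 G → SB 𝒵 G' → Tendsto (fun n : ℕ => ∫ ω, G (τ^[n] ω) * G' ω ∂μ) atTop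
      (𝓝 ((∫ ω, G ω ∂μ) * ∫ ω, G' ω ∂μ)))
    {N : ℕ} (hN : 0 < N) (s : ℕ) (a : Γ) (ha : ∫ ω, χ (((σ ^ N - 1) ^ s) a) ω ∂μ ≠ 0)
    {G : Ω → ℂ} (hG : SB 𝒵 G) : ∫ ω, G ω * χ a ω ∂μ = (∫ ω, G ω ∂μ) * ∫ ω, χ a ω ∂μ := by
  obtain ⟨Z, hZ1, hZ2⟩ := h.exists_Z
  have hτk : ∀ k, Measurable[𝒵, 𝒵] τ^[k] := fun k => @Measurable.iterate Ω 𝒵 τ hτ k
  induction s generalizing a G with
  | zero =>
    rw [pow_zero, Module.End.one_apply] at ha
    rw [← integral_mul_const]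
    refine integral_congr_ae ?_
    filter_upwards [h.vd_const ha] with ω hω
    rw [hω]
  | succ s ih =>
    set m := ∫ ω, G ω ∂μ with hm
    have hG' : SB 𝒵 fun ω => G ω - m := hG.sub (SB.const m)
    have hGi : Integrable G μ := (hG.mono hZ).b.integrable le_rfl
    have hm0 : ∫ ω, (G ω - m) ∂μ = 0 := by
      rw [integral_sub hGi (integrable_const _)]
      simp [hm]
    have h0 : ∫ ω, (G ω - m) * χ a ω ∂μ = 0 := by
      refine h.vd_step hZ hτ N a hG' ?_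
      have h1 := hmix _ _ hG' hG'.conj
      rw [hm0, zero_mul] at h1
      have h2 : Tendsto (fun k : ℕ => N * k) atTop atTop :=
        tendsto_id.const_mul_atTop' hN
      refine squeeze_zero_norm (fun k => ?_) (by simpa using (h1.comp h2).norm)
      rw [ih _ ((hZ1 _).1 (vd_mem_Z hZ2 N s ((hZ1 _).2 ha) k))
        ((hG'.comp' (hτk (N * k))).mul hG'.conj), norm_mul]
      have h3 : ‖∫ ω, χ ((σ ^ (N * k)) a - a) ω ∂μ‖ ≤ 1 := by
        have := norm_integral_le_of_norm_le_const (μ := μ) (C := 1)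
          ((h.uni ((σ ^ (N * k)) a - a)).mono fun ω hω => hω.le)
        simpa using this
      simpa using mul_le_of_le_one_right (norm_nonneg _) h3
    have h4 : ∫ ω, (G ω - m) * χ a ω ∂μ = ∫ ω, G ω * χ a ω ∂μ - m * ∫ ω, χ a ω ∂μ := by
      rw [← integral_const_mul, ← integral_sub (((hG.mono hZ).b.mul (h.b a)).integrable le_rfl)
        (((B.const m).mul (h.b a)).integrable le_rfl)]
      simp only [sub_mul]
    rw [h4] at h0
    exact sub_eq_zero.1 h0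

end Crest.Agent.R69
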